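import Vale.Agent.P137.Unc.Defs

/-!
# P137, uncentred operator: the two averaging identities
-/

open MeasureTheory Metric Set
open scoped RealInnerProductSpace Gradient

namespace Vale.Agent.P137.Unc

noncomputable section

variable {d : ℕ}

/-- Integrals over the image of a ball under the homothety of ratio `t` about `a`. -/
theorem setIntegral_homothety (a z : (E d)) (r t : ℝ) (ht : 0 < t) (φ : (E d) → ℝ) :
    ∫ y in ball (a + t • (z - a)) (t * r), φ y
      = t ^ d * ∫ w in ball z r, φ (a + t • (w - a)) := by
  have key : (fun w : (E d) => (ball (a + t • (z - a)) (t * r)).indicator φ (a + t • (w - a)))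
      = (ball z r).indicator (fun w => φ (a + t • (w - a))) := by
    ext w
    have e1 : a + t • (w - a) ∈ ball (a + t • (z - a)) (t * r) ↔ w ∈ ball z r := by
      rw [mem_ball, mem_ball, dist_eq_norm, dist_eq_norm]
      have : a + t • (w - a) - (a + t • (z - a)) = t • (w - z) := by
        rw [smul_sub, smul_sub, smul_sub]; abel
      rw [this, norm_smul, Real.norm_of_nonneg ht.le]
      exact mul_lt_mul_iff_right₀ ht
    by_cases hw : w ∈ ball z r
    · rw [indicator_of_mem (e1.2 hw), indicator_of_mem hw]
    · rw [indicator_of_notMem (fun h => hw (e1.1 h)), indicator_of_notMem hw]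
  rw [← integral_indicator measurableSet_ball, ← integral_indicator measurableSet_ball, ← key]
  set ψ := (ball (a + t • (z - a)) (t * r)).indicator φ
  rw [integral_sub_right_eq_self (fun w : (E d) => ψ (a + t • w)) a,
    Measure.integral_comp_smul volume (fun w : (E d) => ψ (a + w)) t,
    integral_add_left_eq_self ψ a, finrank_euclideanSpace_fin, smul_eq_mul,
    abs_of_nonneg (by positivity), ← mul_assoc, mul_inv_cancel₀ (by positivity), one_mul]

theorem volume_real_ball_id (z : (E d)) {r : ℝ} (hr : 0 < r) :
    volume.real (ball z r) = r ^ d * volume.real (ball (0 : (E d)) 1) := by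
  rw [Measure.real, Measure.real, Measure.addHaar_ball_of_pos volume z hr, ENNReal.toReal_mul,
    finrank_euclideanSpace_fin, ENNReal.toReal_ofReal (by positivity)]

theorem volume_real_ball_pos (z : (E d)) {r : ℝ} (hr : 0 < r) : 0 < volume.real (ball z r) := by
  exact ENNReal.toReal_pos (measure_ball_pos volume z hr).ne' measure_ball_lt_top.ne

theorem ballAvg_homothety (u : (E d) → ℝ) (a z : (E d)) {r t : ℝ} (hr : 0 < r) (ht : 0 < t) :
    ballAvg u (a + t • (z - a)) (t * r)
      = (volume.real (ball z r))⁻¹ * ∫ w in ball z r, u (a + t • (w - a)) := by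
  rw [ballAvg, setIntegral_homothety a z r t ht, volume_real_ball_id _ (mul_pos ht hr),
    volume_real_ball_id z hr]
  have := volume_real_ball_pos (0 : (E d)) one_pos
  field_simp
  ring

/-- The kernel of the dilation identity. -/
noncomputable def dilKer (a z : (E d)) (r t₁ t₂ : ℝ) (y : (E d)) : ℝ :=
  (volume.real (ball z r))⁻¹ *
    ∫ t in Ioc t₁ t₂, (t ^ (d + 1))⁻¹ * (ball (a + t • (z - a)) (t * r)).indicator 1 y

/-- The chord kernel of the translation identity. -/
noncomputable def chordKer (z e : (E d)) (r t : ℝ) (y : (E d)) : ℝ :=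
  (volume.real (ball z r))⁻¹ * ∫ s in Ioc 0 t, (ball (z + s • e) r).indicator 1 y

theorem fderiv_homothety_identity {u : (E d) → ℝ} (hu : ContDiff ℝ 1 u) (a z : (E d)) {r t₁ t₂ : ℝ}
    (hr : 0 < r) (h₁ : 0 < t₁) (h₁₂ : t₁ ≤ t₂) :
    ballAvg u (a + t₂ • (z - a)) (t₂ * r) - ballAvg u (a + t₁ • (z - a)) (t₁ * r)
      = ∫ y, dilKer a z r t₁ t₂ y * fderiv ℝ u y (y - a) := by
  have hcu : Continuous (fderiv ℝ u) := hu.continuous_fderiv one_ne_zero
  set g : ℝ × (E d) → ℝ := fun p => fderiv ℝ u (a + p.1 • (p.2 - a)) (p.2 - a) with hg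
  have hgc : Continuous g := by
    apply Continuous.clm_apply
    · exact hcu.comp (by fun_prop)
    · fun_prop
  -- fundamental theorem of calculus along the homothety
  have ftc : ∀ w : (E d), u (a + t₂ • (w - a)) - u (a + t₁ • (w - a))
      = ∫ t in Ioc t₁ t₂, g (t, w) := by
    intro w
    rw [← intervalIntegral.integral_of_le h₁₂]
    symm
    apply intervalIntegral.integral_eq_sub_of_hasDerivAt (f := fun t : ℝ => u (a + t • (w - a)))
    · intro t _
      have h := ((hasDerivAt_id t).smul_const (w - a)).const_add a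
      simpa [hg, Function.comp_def] using
        (hu.differentiable one_ne_zero _).hasFDerivAt.comp_hasDerivAt t h
    · exact (hgc.comp (by fun_prop)).intervalIntegrable _ _
  have hi : ∀ t : ℝ, IntegrableOn (fun w => u (a + t • (w - a))) (ball z r) := fun t =>
    ((hu.continuous.comp (by fun_prop)).continuousOn.integrableOn_compact
      (isCompact_closedBall z r)).mono_set ball_subset_closedBall
  have hint : Integrable g ((volume.restrict (Ioc t₁ t₂)).prod (volume.restrict (ball z r))) := by
    rw [Measure.prod_restrict]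
    exact (hgc.continuousOn.integrableOn_compact
      (isCompact_Icc.prod (isCompact_closedBall z r))).mono_set
      (Set.prod_mono Ioc_subset_Icc_self ball_subset_closedBall)
  rw [ballAvg_homothety u a z hr (h₁.trans_le h₁₂), ballAvg_homothety u a z hr h₁, ← mul_sub,
    ← integral_sub (hi t₂) (hi t₁)]
  simp only [ftc]
  rw [← integral_integral_swap (f := fun t w => g (t, w)) hint]
  simp only [dilKer, mul_assoc]
  rw [integral_const_mul]
  congr 1
  -- substitute in each slice and exchange the order again
  have slice : ∀ t ∈ Ioc t₁ t₂, (∫ w in ball z r, g (t, w))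
      = ∫ y, (t ^ (d + 1))⁻¹ * (ball (a + t • (z - a)) (t * r)).indicator 1 y
          * fderiv ℝ u y (y - a) := by
    intro t ht
    have ht0 : 0 < t := h₁.trans ht.1
    have := setIntegral_homothety a z r t ht0 (fun y => fderiv ℝ u y (y - a))
    simp only [add_sub_cancel_left, map_smul, smul_eq_mul, integral_const_mul] at this
    simp only [mul_assoc]
    rw [integral_const_mul]
    rw [show (fun y : (E d) => (ball (a + t • (z - a)) (t * r)).indicator (1 : (E d) → ℝ) y
        * fderiv ℝ u y (y - a))
        = (ball (a + t • (z - a)) (t * r)).indicator (fun y => fderiv ℝ u y (y - a)) by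
      ext y; by_cases hy : y ∈ ball (a + t • (z - a)) (t * r) <;> simp [hy]]
    rw [integral_indicator measurableSet_ball, this, pow_succ]
    field_simp
    rfl
  rw [setIntegral_congr_fun measurableSet_Ioc slice]
  rw [integral_integral_swap]
  · congr 1
    ext y
    rw [← integral_mul_const]
  · -- integrability on the product
    have hK : IsCompact ((fun p : ℝ × (E d) => a + p.1 • (p.2 - a)) ''
        (Icc t₁ t₂ ×ˢ closedBall z r)) :=
      (isCompact_Icc.prod (isCompact_closedBall z r)).image (by fun_prop)
    set K := (fun p : ℝ × (E d) => a + p.1 • (p.2 - a)) '' (Icc t₁ t₂ ×ˢ closedBall z r)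
    set S : Set (ℝ × E d) := {p | dist p.2 (a + p.1 • (z - a)) < p.1 * r}
    have hS : MeasurableSet S :=
      (isOpen_lt (by fun_prop) (by fun_prop)).measurableSet
    have hh : ContinuousOn (fun p : ℝ × (E d) => (p.1 ^ (d + 1))⁻¹ * fderiv ℝ u p.2 (p.2 - a))
        (Icc t₁ t₂ ×ˢ K) := by
      apply ContinuousOn.mul
      · exact (continuousOn_fst.pow _).inv₀ fun p hp => (pow_pos (h₁.trans_le hp.1.1) _).ne'
      · exact ((hcu.comp continuous_snd).clm_apply (by fun_prop)).continuousOn
    have h2 : IntegrableOn
        (S.indicator fun p : ℝ × (E d) => (p.1 ^ (d + 1))⁻¹ * fderiv ℝ u p.2 (p.2 - a))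
        (Icc t₁ t₂ ×ˢ K) (volume.prod volume) :=
      (hh.integrableOn_compact (isCompact_Icc.prod hK)).indicator hS
    have h3 : IntegrableOn
        (S.indicator fun p : ℝ × (E d) => (p.1 ^ (d + 1))⁻¹ * fderiv ℝ u p.2 (p.2 - a))
        (Ioc t₁ t₂ ×ˢ (univ : Set (E d))) (volume.prod volume) := by
      refine h2.of_forall_sdiff_eq_zero
        (measurableSet_Ioc.prod MeasurableSet.univ) fun p hp => ?_
      apply indicator_of_notMem
      intro hpS
      apply hp.2
      have ht0 : 0 < p.1 := h₁.trans hp.1.1.1
      refine ⟨Ioc_subset_Icc_self hp.1.1, (p.1, a + p.1⁻¹ • (p.2 - a)),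
        ⟨Ioc_subset_Icc_self hp.1.1, ?_⟩, ?_⟩
      · rw [mem_closedBall, dist_eq_norm]
        have : a + p.1⁻¹ • (p.2 - a) - z = p.1⁻¹ • (p.2 - (a + p.1 • (z - a))) := by
          rw [smul_sub, smul_sub, smul_add, smul_smul, inv_mul_cancel₀ ht0.ne', one_smul]
          abel
        rw [this, norm_smul, Real.norm_of_nonneg (inv_nonneg.2 ht0.le), inv_mul_le_iff₀ ht0,
          ← dist_eq_norm]
        exact le_of_lt hpS
      · simp [smul_smul, mul_inv_cancel₀ ht0.ne']
    rw [← Measure.restrict_univ (μ := (volume : Measure (E d))), Measure.prod_restrict]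
    apply h3.congr_fun _ (measurableSet_Ioc.prod MeasurableSet.univ)
    intro p _
    by_cases hy : p ∈ S
    · simp [S] at hy
      simp [Function.uncurry, S, hy, indicator_of_mem, mem_ball]
    · simp [S] at hy
      simp [Function.uncurry, S, hy, indicator_of_notMem, mem_ball]

theorem fderiv_translation_identity {u : (E d) → ℝ} (hu : ContDiff ℝ 1 u) (z e : (E d)) {r t : ℝ}
    (ht : 0 ≤ t) :
    ballAvg u (z + t • e) r - ballAvg u z r = ∫ y, chordKer z e r t y * fderiv ℝ u y e := by
  have hcu : Continuous (fderiv ℝ u) := hu.continuous_fderiv one_ne_zero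
  have hb : ∀ (c : (E d)) (φ : (E d) → ℝ), ∫ y in ball (z + c) r, φ y = ∫ w in ball z r, φ (w + c) := by
    intro c φ
    rw [← integral_indicator measurableSet_ball, ← integral_indicator measurableSet_ball,
      ← integral_add_right_eq_self ((ball (z + c) r).indicator φ) c]
    congr 1
    ext w
    have e1 : w + c ∈ ball (z + c) r ↔ w ∈ ball z r := by
      rw [mem_ball, mem_ball, dist_add_right]
    by_cases hw : w ∈ ball z r
    · rw [indicator_of_mem (e1.2 hw), indicator_of_mem hw]
    · rw [indicator_of_notMem (fun h => hw (e1.1 h)), indicator_of_notMem hw]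
  have hv : ∀ s : ℝ, volume.real (ball (z + s • e) r) = volume.real (ball z r) := fun s => by
    rw [Measure.real, Measure.real, Measure.addHaar_ball_center volume (z + s • e),
      Measure.addHaar_ball_center volume z]
  have ftc : ∀ w : (E d), u (w + t • e) - u w = ∫ s in Ioc 0 t, fderiv ℝ u (w + s • e) e := by
    intro w
    rw [← intervalIntegral.integral_of_le ht]
    symm
    have := intervalIntegral.integral_eq_sub_of_hasDerivAt
      (f := fun s : ℝ => u (w + s • e)) (f' := fun s : ℝ => fderiv ℝ u (w + s • e) e)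
      (a := 0) (b := t) (fun s _ => by
        have h := ((hasDerivAt_id s).smul_const e).const_add w
        simpa [Function.comp_def] using (hu.differentiable one_ne_zero _).hasFDerivAt.comp_hasDerivAt s h)
      (((hcu.comp (by fun_prop)).clm_apply continuous_const).intervalIntegrable _ _)
    simpa using this
  have hint : Integrable (fun p : ℝ × (E d) => fderiv ℝ u (p.2 + p.1 • e) e)
      ((volume.restrict (Ioc (0 : ℝ) t)).prod (volume.restrict (ball z r))) := by
    rw [Measure.prod_restrict]
    exact (((hcu.comp (by fun_prop)).clm_apply continuous_const).continuousOn.integrableOn_compact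
      (isCompact_Icc.prod (isCompact_closedBall z r))).mono_set
      (Set.prod_mono Ioc_subset_Icc_self ball_subset_closedBall)
  have hi : ∀ c : (E d), IntegrableOn (fun w => u (w + c)) (ball z r) := fun c =>
    ((hu.continuous.comp (by fun_prop)).continuousOn.integrableOn_compact
      (isCompact_closedBall z r)).mono_set ball_subset_closedBall
  have hA : ballAvg u (z + t • e) r - ballAvg u z r
      = (volume.real (ball z r))⁻¹ * ∫ w in ball z r, (u (w + t • e) - u w) := by
    rw [integral_sub (hi _) (by simpa [IntegrableOn] using hi 0), ballAvg, ballAvg, hv, hb, mul_sub]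
  rw [hA]
  simp only [ftc]
  rw [← integral_integral_swap (f := fun s w => fderiv ℝ u (w + s • e) e) hint]
  simp only [chordKer, mul_assoc]
  rw [integral_const_mul]
  congr 1
  have slice : ∀ s : ℝ, (∫ w in ball z r, fderiv ℝ u (w + s • e) e)
      = ∫ y, (ball (z + s • e) r).indicator (fun y => fderiv ℝ u y e) y := fun s => by
    rw [integral_indicator measurableSet_ball, hb]
  simp only [slice]
  rw [integral_integral_swap]
  · congr 1
    ext y
    rw [← integral_mul_const]
    congr 1
    ext s
    by_cases hy : y ∈ ball (z + s • e) r <;> simp [hy]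
  · have hS : MeasurableSet {p : ℝ × (E d) | dist p.2 (z + p.1 • e) < r} :=
      (isOpen_lt (by fun_prop) continuous_const).measurableSet
    have hK : IsCompact ((fun p : ℝ × (E d) => p.2 + p.1 • e) '' (Icc 0 t ×ˢ closedBall z r)) :=
      (isCompact_Icc.prod (isCompact_closedBall z r)).image (by fun_prop)
    have hg : Continuous fun p : ℝ × E d => fderiv ℝ u p.2 e :=
      (hcu.comp continuous_snd).clm_apply continuous_const
    have h2 := (hg.continuousOn
      (s := Icc (0 : ℝ) t ×ˢ ((fun p : ℝ × (E d) => p.2 + p.1 • e) '' (Icc 0 t ×ˢ closedBall z r)))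
      |>.integrableOn_compact (isCompact_Icc.prod hK) (μ := volume.prod volume)).indicator hS
    have h3 := h2.of_forall_sdiff_eq_zero (t := Ioc (0 : ℝ) t ×ˢ (univ : Set (E d)))
      (measurableSet_Ioc.prod MeasurableSet.univ) fun p hp => by
        apply indicator_of_notMem
        intro hpS
        apply hp.2
        refine ⟨Ioc_subset_Icc_self hp.1.1, (p.1, p.2 - p.1 • e),
          ⟨Ioc_subset_Icc_self hp.1.1, ?_⟩, by simp⟩
        have hd : dist (p.2 - p.1 • e) z = dist p.2 (z + p.1 • e) := by
          rw [dist_eq_norm, dist_eq_norm]; congr 1; abel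
        rw [mem_closedBall, hd]
        exact le_of_lt hpS
    rw [← Measure.restrict_univ (μ := (volume : Measure (E d))), Measure.prod_restrict]
    apply h3.congr_fun _ (measurableSet_Ioc.prod MeasurableSet.univ)
    intro p _
    rfl


theorem inner_gradient_eq (u : E d → ℝ) (y v : E d) : ⟪∇ u y, v⟫ = fderiv ℝ u y v :=
  InnerProductSpace.toDual_symm_apply

theorem homKer_eq_dilKer (p z : E d) (r t1 t2 : ℝ) : homKer p z r t1 t2 = dilKer p z r t1 t2 := by
  ext y
  simp only [homKer, dilKer]
  rw [integral_Icc_eq_integral_Ioc]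
  congr 1
  refine setIntegral_congr_fun measurableSet_Ioc fun t _ => ?_
  by_cases h : y ∈ ball (p + t • (z - p)) (t * r)
  · rw [indicator_of_mem h, if_pos (by rwa [mem_ball, dist_eq_norm] at h)]; simp
  · rw [indicator_of_notMem h, if_neg (by rwa [mem_ball, dist_eq_norm] at h)]; simp

theorem chord_eq_chordKer (e z : E d) (r t : ℝ) : chord e z r t = chordKer z e r t := by
  ext y
  simp only [chord, chordKer]
  congr 1
  have hS : MeasurableSet {s : ℝ | y ∈ ball (z + s • e) r} := by
    simp only [mem_ball]
    exact (isOpen_lt (by fun_prop) continuous_const).measurableSet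
  have : (fun s : ℝ => (ball (z + s • e) r).indicator (1 : E d → ℝ) y)
      = {s : ℝ | y ∈ ball (z + s • e) r}.indicator 1 := by
    ext s
    by_cases h : y ∈ ball (z + s • e) r
    · rw [indicator_of_mem h, indicator_of_mem (show s ∈ {s : ℝ | y ∈ ball (z + s • e) r} from h)]
      rfl
    · rw [indicator_of_notMem h,
        indicator_of_notMem (show s ∉ {s : ℝ | y ∈ ball (z + s • e) r} from h)]
  rw [this, ← integral_Icc_eq_integral_Ioc, integral_indicator hS]
  simp only [Pi.one_apply, setIntegral_const, smul_eq_mul, mul_one]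
  rw [Measure.real, Measure.real, Measure.restrict_apply hS]
  congr 2
  ext s
  simp only [mem_setOf_eq, mem_inter_iff, mem_ball, dist_eq_norm]
  exact and_comm

theorem homothety_identity {u : E d → ℝ} (hu : Smooth u) (p z : E d) {r t1 t2 : ℝ} (hr : 0 < r)
    (h1 : 0 < t1) (h12 : t1 ≤ t2) :
    ballAvg u (p + t2 • (z - p)) (t2 * r) - ballAvg u (p + t1 • (z - p)) (t1 * r) =
      ∫ y, homKer p z r t1 t2 y * ⟪∇ u y, y - p⟫ := by
  simp only [homKer_eq_dilKer, inner_gradient_eq]
  exact fderiv_homothety_identity hu.contDiff p z hr h1 h12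

theorem translation_identity {u : E d → ℝ} (hu : Smooth u) (z e : E d) {r t : ℝ} (_hr : 0 < r)
    (ht : 0 ≤ t) :
    ballAvg u (z + t • e) r - ballAvg u z r = ∫ y, chord e z r t y * ⟪e, ∇ u y⟫ := by
  simp only [chord_eq_chordKer, real_inner_comm _ e, inner_gradient_eq]
  exact fderiv_translation_identity hu.contDiff z e ht

end
end Vale.Agent.P137.Unc
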