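import Mathlib

/-!
P137, uncentred operator: a uniformly integrable family of integrable functions has a weak limit
density (truncate, take weak limits in `L²`, and let the truncation level grow).
-/

open MeasureTheory Filter Set
open scoped Topology ENNReal

namespace Vale.Agent.P137.Unc

variable {α : Type*} [MeasurableSpace α] {μ : Measure α}

/-- A bounded sequence in a Hilbert space has a weak limit along every ultrafilter. -/
lemma exists_weak_limit {E : Type*} [NormedAddCommGroup E] [InnerProductSpace ℝ E] [CompleteSpace E]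
    (U : Ultrafilter ℕ) {a : ℕ → E} {R : ℝ} (ha : ∀ᶠ k in (U : Filter ℕ), ‖a k‖ ≤ R) :
    ∃ b : E, ∀ v, Tendsto (fun k => inner ℝ (a k) v) U (𝓝 (inner ℝ b v)) := by
  let T : ℕ → WeakDual ℝ E := fun k => StrongDual.toWeakDual (InnerProductSpace.toDual ℝ E (a k))
  set K := WeakDual.toStrongDual ⁻¹' Metric.closedBall (0 : StrongDual ℝ E) R
  have hK : IsCompact K := WeakDual.isCompact_closedBall _ _
  have hev : ((U.map T : Ultrafilter (WeakDual ℝ E)) : Filter (WeakDual ℝ E)) ≤ 𝓟 K := by
    rw [le_principal_iff]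
    exact ha.mono fun k hk => mem_closedBall_zero_iff.2
      (((InnerProductSpace.toDual ℝ E).norm_map (a k)).trans_le hk)
  obtain ⟨w, -, hw⟩ := hK.ultrafilter_le_nhds _ hev
  refine ⟨(InnerProductSpace.toDual ℝ E).symm (WeakDual.toStrongDual w), fun v => ?_⟩
  rw [InnerProductSpace.toDual_symm_apply]
  exact ((WeakDual.eval_continuous v).tendsto w).comp hw

/-- Truncation at the level `L`. -/
def clip (L t : ℝ) : ℝ := max (-L) (min L t)

lemma abs_clip_le {L : ℝ} (hL : 0 ≤ L) (t : ℝ) : |clip L t| ≤ L ∧ |clip L t| ≤ |t| := by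
  refine ⟨abs_le.2 ⟨le_max_left _ _, max_le (by linarith) (min_le_left _ _)⟩, ?_⟩
  unfold clip
  rcases le_total t (-L) with h | h
  · rw [max_eq_left (min_le_of_right_le h), abs_neg, abs_of_nonneg hL, abs_of_nonpos (by linarith)]
    linarith
  rcases le_total t L with h' | h'
  · rw [min_eq_right h', max_eq_right h]
  · rw [min_eq_left h', max_eq_right (by linarith), abs_of_nonneg hL, abs_of_nonneg (by linarith)]
    linarith

lemma abs_sub_clip {L : ℝ} (hL : 0 ≤ L) (t : ℝ) : |t - clip L t| = max (|t| - L) 0 := by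
  unfold clip
  rcases le_total t (-L) with h | h
  · rw [max_eq_left (min_le_of_right_le h), abs_of_nonpos (show t ≤ 0 by linarith),
      abs_of_nonpos (show t - -L ≤ 0 by linarith), max_eq_left (by linarith)]
    ring
  rcases le_total t L with h' | h'
  · rw [min_eq_right h', max_eq_right h, sub_self, abs_zero,
      max_eq_right (sub_nonpos.2 (abs_le.2 ⟨h, h'⟩))]
  · rw [min_eq_left h', max_eq_right (by linarith), abs_of_nonneg (show 0 ≤ t by linarith),
      abs_of_nonneg (show 0 ≤ t - L by linarith), max_eq_left (by linarith)]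

lemma continuous_clip (L : ℝ) : Continuous (clip L) :=
  continuous_const.max (continuous_const.min continuous_id)

lemma clip_memLp {L : ℝ} (hL : 0 ≤ L) {f : α → ℝ} (hf : Integrable f μ) :
    MemLp (fun x => clip L (f x)) 2 μ ∧
      ∫ x, clip L (f x) ^ 2 ∂μ ≤ L * ∫ x, |f x| ∂μ := by
  have hm : AEStronglyMeasurable (fun x => clip L (f x)) μ :=
    (continuous_clip L).comp_aestronglyMeasurable hf.aestronglyMeasurable
  have hb : ∀ x, clip L (f x) ^ 2 ≤ L * |f x| := fun x => by
    obtain ⟨h1, h2⟩ := abs_clip_le hL (f x)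
    rw [← sq_abs, sq]
    exact mul_le_mul h1 h2 (abs_nonneg _) hL
  have hi : Integrable (fun x => clip L (f x) ^ 2) μ :=
    (hf.abs.const_mul L).mono' (hm.pow 2) (Eventually.of_forall fun x => by
      rw [Real.norm_of_nonneg (sq_nonneg _)]; exact hb x)
  refine ⟨(memLp_two_iff_integrable_sq hm).2 hi, ?_⟩
  rw [← integral_const_mul]
  exact integral_mono hi (hf.abs.const_mul L) hb

/-- A function whose signed integrals over finite sets are at most `c` has `L¹` norm at most `c`. -/
lemma integrable_of_testing [SigmaFinite μ] {h : α → ℝ} (hh : MemLp h 2 μ) {c : ℝ} (hc0 : 0 ≤ c)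
    (hc : ∀ v : α → ℝ, MemLp v 2 μ → Integrable v μ → (∀ x, |v x| ≤ 1) → ∫ x, h x * v x ∂μ ≤ c) :
    Integrable h μ ∧ ∫ x, |h x| ∂μ ≤ c := by
  obtain ⟨h', hm', he⟩ := hh.aestronglyMeasurable.aemeasurable
  have hh' : MemLp h' 2 μ := hh.ae_eq he
  have hbound : ∀ n, ∫⁻ x in spanningSets μ n, ENNReal.ofReal |h' x| ∂μ ≤ ENNReal.ofReal c := by
    intro n
    set S := spanningSets μ n
    have hSm : MeasurableSet S := measurableSet_spanningSets μ n
    have hSf : μ S ≠ ⊤ := (measure_spanningSets_lt_top μ n).ne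
    set v : α → ℝ := S.indicator fun x => if 0 ≤ h' x then 1 else -1 with hv
    have hvm : Measurable v :=
      (Measurable.ite (measurableSet_le measurable_const hm') measurable_const measurable_const).indicator hSm
    have hvle : ∀ x, |v x| ≤ 1 := fun x => by
      by_cases hx : x ∈ S
      · rw [hv, indicator_of_mem hx]; split_ifs <;> norm_num
      · rw [hv, indicator_of_notMem hx]; norm_num
    have hv2 : MemLp v 2 μ := (memLp_indicator_const 2 hSm (1 : ℝ) (Or.inr hSf)).mono
      hvm.aestronglyMeasurable (Eventually.of_forall fun x => by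
        by_cases hx : x ∈ S
        · rw [indicator_of_mem hx, norm_one]; exact hvle x
        · simp [hv, indicator_of_notMem hx])
    have hv1 : Integrable v μ := ((integrable_indicator_iff hSm).2
      (integrableOn_const (C := (1 : ℝ)) hSf)).mono' hvm.aestronglyMeasurable
        (Eventually.of_forall fun x => by
        by_cases hx : x ∈ S
        · rw [indicator_of_mem hx]; exact hvle x
        · simp [hv, indicator_of_notMem hx])
    have hprod : ∫ x, h x * v x ∂μ = ∫ x in S, |h' x| ∂μ := by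
      rw [← integral_indicator hSm]
      refine integral_congr_ae (he.mono fun x hx => ?_)
      simp only
      rw [hx]
      by_cases hS : x ∈ S
      · rw [hv, indicator_of_mem hS, indicator_of_mem hS]
        split_ifs with h0
        · rw [mul_one, abs_of_nonneg h0]
        · rw [mul_neg_one, abs_of_neg (not_le.1 h0)]
      · rw [hv, indicator_of_notMem hS, indicator_of_notMem hS, mul_zero]
    have : IsFiniteMeasure (μ.restrict S) := ⟨by
      rw [Measure.restrict_apply_univ]; exact measure_spanningSets_lt_top μ n⟩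
    have hi : IntegrableOn (fun x => |h' x|) S μ := ((hh'.restrict S).integrable one_le_two).abs
    rw [← ofReal_integral_eq_lintegral_ofReal hi (Eventually.of_forall fun x => abs_nonneg _)]
    exact ENNReal.ofReal_le_ofReal (hprod ▸ hc v hv2 hv1 hvle)
  have htot : ∫⁻ x, ENNReal.ofReal |h' x| ∂μ ≤ ENNReal.ofReal c := by
    rw [← setLIntegral_univ, ← iUnion_spanningSets μ,
      setLIntegral_iUnion_of_directed _ (monotone_spanningSets μ).directed_le]
    exact iSup_le hbound
  have hint : Integrable h' μ := ⟨hm'.aestronglyMeasurable, by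
    simp only [HasFiniteIntegral, Real.enorm_eq_ofReal_abs]
    exact htot.trans_lt ENNReal.ofReal_lt_top⟩
  refine ⟨hint.congr he.symm, ?_⟩
  rw [integral_congr_ae (he.mono fun x hx => show |h x| = |h' x| by rw [hx]),
    ← ENNReal.ofReal_le_ofReal_iff hc0]
  change ENNReal.ofReal (∫ x, |h' x| ∂μ) ≤ _
  rw [ofReal_integral_eq_lintegral_ofReal hint.abs (Eventually.of_forall fun x => abs_nonneg _)]
  exact htot

lemma inner_toLp {f v : α → ℝ} (hf : MemLp f 2 μ) (hv : MemLp v 2 μ) :
    inner ℝ (hf.toLp f) (hv.toLp v) = ∫ x, f x * v x ∂μ := by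
  rw [L2.inner_def]
  refine integral_congr_ae ?_
  filter_upwards [hf.coeFn_toLp, hv.coeFn_toLp] with x h1 h2
  rw [h1, h2, RCLike.inner_apply, conj_trivial, mul_comm]

lemma norm_toLp_sq {f : α → ℝ} (hf : MemLp f 2 μ) :
    ‖hf.toLp f‖ ^ 2 = ∫ x, f x ^ 2 ∂μ := by
  rw [← real_inner_self_eq_norm_sq, inner_toLp hf hf]
  simp only [sq]

/-- A uniformly integrable `L¹` bounded sequence has a density for its limit functional. -/
theorem exists_density [SigmaFinite μ] (G : ℕ → α → ℝ) (hG : ∀ k, Integrable (G k) μ) {C₀ : ℝ}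
    (hC₀ : ∀ᶠ k in atTop, ∫ x, |G k x| ∂μ ≤ C₀)
    (hUI : ∀ ε : ℝ, 0 < ε → ∃ L : ℝ, 0 ≤ L ∧
      ∀ᶠ k in atTop, ∫ x, max (|G k x| - L) 0 ∂μ ≤ ε) :
    ∃ H : α → ℝ, Integrable H μ ∧
      (∀ C, (∀ᶠ k in atTop, ∫ x, |G k x| ∂μ ≤ C) → ∫ x, |H x| ∂μ ≤ C) ∧
      ∀ (φ : α → ℝ) (M : ℝ), MemLp φ 2 μ → (∀ x, |φ x| ≤ M) → ∀ l : ℝ,
        Tendsto (fun k => ∫ x, G k x * φ x ∂μ) atTop (𝓝 l) → ∫ x, H x * φ x ∂μ = l := by
  set ε : ℕ → ℝ := fun n => 1 / ((n : ℝ) + 1) with hε
  have hεpos : ∀ n, 0 < ε n := fun n => by positivity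
  have hε0 : Tendsto ε atTop (𝓝 0) := tendsto_one_div_add_atTop_nhds_zero_nat
  choose L hL hLe using fun n => hUI (ε n) (hεpos n)
  set U : Ultrafilter ℕ := hyperfilter ℕ
  have hU : ∀ {P : ℕ → Prop}, (∀ᶠ k in atTop, P k) → ∀ᶠ k in (U : Filter ℕ), P k :=
    fun h => h.filter_mono Nat.hyperfilter_le_atTop
  set a : ℕ → ℕ → α → ℝ := fun n k x => clip (L n) (G k x) with ha
  have ham : ∀ n k, MemLp (a n k) 2 μ := fun n k => (clip_memLp (hL n) (hG k)).1
  have hai : ∀ n k, Integrable (a n k) μ := fun n k => (hG k).mono (ham n k).aestronglyMeasurable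
    (Eventually.of_forall fun x => (abs_clip_le (hL n) (G k x)).2)
  choose b hb using fun n => exists_weak_limit U (a := fun k => (ham n k).toLp (a n k))
    (R := Real.sqrt (L n * C₀)) ((hU hC₀).mono fun k hk => Real.le_sqrt_of_sq_le (by
      rw [norm_toLp_sq]
      exact (clip_memLp (hL n) (hG k)).2.trans (mul_le_mul_of_nonneg_left hk (hL n))))
  set h : ℕ → α → ℝ := fun n => ⇑(b n) with hh
  have hbm : ∀ n, MemLp (h n) 2 μ := fun n => Lp.memLp (b n)
  have hlim : ∀ n (v : α → ℝ), MemLp v 2 μ →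
      Tendsto (fun k => ∫ x, a n k x * v x ∂μ) U (𝓝 (∫ x, h n x * v x ∂μ)) := fun n v hv => by
    have e := hb n (hv.toLp v)
    simp only [inner_toLp (ham n _) hv] at e
    rwa [show inner ℝ (b n) (hv.toLp v) = ∫ x, h n x * v x ∂μ by
      rw [← inner_toLp (hbm n) hv, Lp.toLp_coeFn]] at e
  have hmul : ∀ {f v : α → ℝ} {M : ℝ}, Integrable f μ → AEStronglyMeasurable v μ → (∀ x, |v x| ≤ M) →
      Integrable (fun x => f x * v x) μ ∧ |∫ x, f x * v x ∂μ| ≤ M * ∫ x, |f x| ∂μ := by
    intro f v M hf hv hM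
    refine ⟨hf.mul_bdd hv (c := M) (Eventually.of_forall hM), ?_⟩
    refine (abs_integral_le_integral_abs).trans ?_
    rw [← integral_const_mul]
    refine integral_mono (hf.mul_bdd hv (c := M) (Eventually.of_forall hM)).abs
      (hf.abs.const_mul M) fun x => ?_
    simp only [abs_mul]
    rw [mul_comm M]
    exact mul_le_mul_of_nonneg_left (hM x) (abs_nonneg _)
  have hclip : ∀ n k, ∫ x, |G k x - a n k x| ∂μ = ∫ x, max (|G k x| - L n) 0 ∂μ := fun n k => by
    simp only [ha, abs_sub_clip (hL n)]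
  -- the truncated limits are integrable
  have hone : ∀ n, ∀ C, (∀ᶠ k in atTop, ∫ x, |G k x| ∂μ ≤ C) →
      Integrable (h n) μ ∧ ∫ x, |h n x| ∂μ ≤ C := by
    intro n C hC
    have hC0 : 0 ≤ C := by
      obtain ⟨k, hk⟩ := hC.exists
      exact (integral_nonneg fun x => abs_nonneg _).trans hk
    refine integrable_of_testing (hbm n) hC0 fun v hv _ hv1 =>
      le_of_tendsto (hlim n v hv) ((hU hC).mono fun k hk => ?_)
    refine (le_abs_self _).trans ((hmul (hai n k) hv.aestronglyMeasurable hv1).2.trans ?_)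
    rw [one_mul]
    exact (integral_mono (hai n k).abs (hG k).abs fun x => (abs_clip_le (hL n) _).2).trans hk
  have hni : ∀ n, Integrable (h n) μ := fun n => (hone n C₀ hC₀).1
  -- they form a Cauchy sequence
  have hcau : ∀ n m, ∫ x, |h n x - h m x| ∂μ ≤ ε n + ε m := by
    intro n m
    refine (integrable_of_testing ((hbm n).sub (hbm m))
      (add_nonneg (hεpos n).le (hεpos m).le) fun v hv hv' hv1 => ?_).2
    have hd := (hmul (hni n) hv.aestronglyMeasurable hv1).1
    have hd' := (hmul (hni m) hv.aestronglyMeasurable hv1).1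
    simp only [Pi.sub_apply, sub_mul]
    rw [integral_sub hd hd']
    refine le_of_tendsto ((hlim n v hv).sub (hlim m v hv))
      (((hU (hLe n)).and (hU (hLe m))).mono fun k hk => ?_)
    have i1 := (hmul (hai n k) hv.aestronglyMeasurable hv1).1
    have i2 := (hmul (hai m k) hv.aestronglyMeasurable hv1).1
    rw [← integral_sub i1 i2]
    refine (le_abs_self _).trans ?_
    simp only [← sub_mul]
    refine ((hmul ((hai n k).sub (hai m k)) hv.aestronglyMeasurable hv1).2).trans ?_
    rw [one_mul]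
    have t : ∫ x, |a n k x - a m k x| ∂μ
        ≤ (∫ x, |G k x - a n k x| ∂μ) + ∫ x, |G k x - a m k x| ∂μ := by
      rw [← integral_add ((hG k).sub' (hai n k)).abs ((hG k).sub' (hai m k)).abs]
      refine integral_mono ((hai n k).sub' (hai m k)).abs
        (((hG k).sub' (hai n k)).abs.add ((hG k).sub' (hai m k)).abs) fun x => ?_
      have := abs_sub_le (a n k x) (G k x) (a m k x)
      rwa [abs_sub_comm (a n k x) (G k x)] at this
    simp only [Pi.sub_apply]
    rw [hclip, hclip] at t
    linarith [hk.1, hk.2]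
  set T : ℕ → Lp ℝ 1 μ := fun n => (hni n).toL1 (h n)
  have hT : ∀ n m, ‖T n - T m‖ = ∫ x, |h n x - h m x| ∂μ := fun n m => by
    rw [L1.norm_eq_integral_norm]
    refine integral_congr_ae ?_
    filter_upwards [Lp.coeFn_sub (T n) (T m), (hni n).coeFn_toL1, (hni m).coeFn_toL1] with x e1 e2 e3
    rw [e1, Pi.sub_apply, e2, e3, Real.norm_eq_abs]
  obtain ⟨Tl, hTl⟩ := cauchySeq_tendsto_of_complete
    (cauchySeq_of_le_tendsto_0 (s := T) (fun N => 2 * ε N) (fun n m N hn hm => by
      rw [dist_eq_norm, hT]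
      refine (hcau n m).trans ?_
      have hle : ∀ j, N ≤ j → ε j ≤ ε N := fun j hj => by
        simp only [hε]
        exact one_div_le_one_div_of_le (by positivity) (by exact_mod_cast Nat.add_le_add_right hj 1)
      linarith [hle n hn, hle m hm]) (by simpa using hε0.const_mul 2))
  set H : α → ℝ := ⇑Tl
  have hHi : Integrable H μ := L1.integrable_coeFn Tl
  have hd : Tendsto (fun n => ∫ x, |h n x - H x| ∂μ) atTop (𝓝 0) := by
    refine (tendsto_iff_norm_sub_tendsto_zero.1 hTl).congr fun n => ?_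
    rw [L1.norm_eq_integral_norm]
    refine integral_congr_ae ?_
    filter_upwards [Lp.coeFn_sub (T n) Tl, (hni n).coeFn_toL1] with x e1 e2
    rw [e1, Pi.sub_apply, e2, Real.norm_eq_abs]
  refine ⟨H, hHi, fun C hC => ?_, fun φ M hφ hM l hl => ?_⟩
  · refine le_of_tendsto_of_tendsto' tendsto_const_nhds (by simpa using hd.const_add C) fun n => ?_
    have h1 : ∫ x, |H x| ∂μ ≤ (∫ x, |h n x| ∂μ) + ∫ x, |h n x - H x| ∂μ := by
      rw [← integral_add (hni n).abs ((hni n).sub' hHi).abs]
      refine integral_mono hHi.abs ((hni n).abs.add ((hni n).sub' hHi).abs) fun x => ?_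
      have := abs_sub_abs_le_abs_sub (H x) (h n x)
      rw [abs_sub_comm] at this
      linarith
    linarith [(hone n C hC).2]
  · wlog hM0 : 0 ≤ M generalizing M
    · exact this (max M 0) (fun x => (hM x).trans (le_max_left _ _)) (le_max_right _ _)
    have hbound : ∀ n, |(∫ x, h n x * φ x ∂μ) - l| ≤ M * ε n := fun n => by
      have hlU : Tendsto (fun k => ∫ x, G k x * φ x ∂μ) U (𝓝 l) :=
        hl.mono_left Nat.hyperfilter_le_atTop
      refine le_of_tendsto (((hlim n φ hφ).sub hlU).abs) ((hU (hLe n)).mono fun k hk => ?_)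
      rw [← integral_sub (hmul (hai n k) hφ.aestronglyMeasurable hM).1
        (hmul (hG k) hφ.aestronglyMeasurable hM).1]
      simp only [← sub_mul]
      refine (hmul ((hai n k).sub' (hG k)) hφ.aestronglyMeasurable hM).2.trans ?_
      refine mul_le_mul_of_nonneg_left ?_ hM0
      simp only [abs_sub_comm (a n k _) (G k _)]
      rw [hclip]
      exact hk
    have h1 : Tendsto (fun n => ∫ x, h n x * φ x ∂μ) atTop (𝓝 (∫ x, H x * φ x ∂μ)) := by
      rw [← tendsto_sub_nhds_zero_iff]
      refine squeeze_zero_norm (fun n => ?_) (by simpa using hd.const_mul M)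
      rw [Real.norm_eq_abs, ← integral_sub (hmul (hni n) hφ.aestronglyMeasurable hM).1
        (hmul hHi hφ.aestronglyMeasurable hM).1]
      simp only [← sub_mul]
      exact (hmul ((hni n).sub' hHi) hφ.aestronglyMeasurable hM).2
    have h2 : Tendsto (fun n => ∫ x, h n x * φ x ∂μ) atTop (𝓝 l) := by
      rw [← tendsto_sub_nhds_zero_iff]
      exact squeeze_zero_norm (fun n => hbound n) (by simpa using hε0.const_mul M)
    exact tendsto_nhds_unique h1 h2

end Vale.Agent.P137.Unc
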