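import Vale.Agent.P137.Unc.Max

/-!
P137, uncentred operator: the maximal function of an `L¹` limit of smooth functions with convergent
gradients.
-/

open MeasureTheory Metric Set Filter
open scoped ENNReal NNReal RealInnerProductSpace Gradient Topology

namespace Vale.Agent.P137.Unc

noncomputable section

variable {d : ℕ}

/-- The uncentred maximal function, extended-valued. -/
def mx (h : E d → ℝ) (x : E d) : ℝ≥0∞ :=
  ⨆ (c : E d) (r : ℝ) (_ : 0 < r) (_ : x ∈ ball c r), (∫⁻ y in ball c r, ‖h y‖ₑ) / volume (ball c r)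

lemma mx_le {h : E d → ℝ} {x : E d} {b : ℝ≥0∞}
    (H : ∀ c r, 0 < r → x ∈ ball c r → (∫⁻ y in ball c r, ‖h y‖ₑ) / volume (ball c r) ≤ b) :
    mx h x ≤ b :=
  iSup_le fun c => iSup_le fun r => iSup_le fun hr => iSup_le fun hx => H c r hr hx

lemma le_mx (h : E d → ℝ) {x c : E d} {r : ℝ} (hr : 0 < r) (hx : x ∈ ball c r) :
    (∫⁻ y in ball c r, ‖h y‖ₑ) / volume (ball c r) ≤ mx h x :=
  le_iSup_of_le c (le_iSup_of_le r (le_iSup_of_le hr (le_iSup_of_le hx le_rfl)))

lemma measurable_mx (h : E d → ℝ) : Measurable (mx h) := by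
  refine LowerSemicontinuous.measurable (lowerSemicontinuous_iff_isOpen_preimage.2 fun b =>
    isOpen_iff_mem_nhds.2 fun x (hx : b < mx h x) => ?_)
  simp only [mx, lt_iSup_iff] at hx
  obtain ⟨c, r, hr, hxc, hb⟩ := hx
  exact Filter.mem_of_superset (isOpen_ball.mem_nhds hxc) fun y hy => hb.trans_le (le_mx h hr hy)

lemma mx_abs (f : E d → ℝ) : mx (fun y => |f y|) = mx f := by
  funext x
  simp only [mx, Real.enorm_abs]

lemma mx_le_add {a b : E d → ℝ} (hb : AEStronglyMeasurable b volume) (x : E d) :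
    mx a x ≤ mx b x + mx (fun y => a y - b y) x := by
  refine mx_le fun c r hr hx => ?_
  refine le_trans ?_ (add_le_add (le_mx b hr hx) (le_mx (fun y => a y - b y) hr hx))
  rw [ENNReal.div_add_div_same, ← lintegral_add_left' hb.restrict.enorm]
  gcongr with y
  calc ‖a y‖ₑ = ‖b y + (a y - b y)‖ₑ := by rw [add_sub_cancel]
    _ ≤ _ := enorm_add_le _ _

lemma enorm_sub_comm' (a b : ℝ) : ‖a - b‖ₑ = ‖b - a‖ₑ := by rw [← enorm_neg, neg_sub]

lemma setLIntegral_scale {F : E d → ℝ≥0∞} (hF : Measurable F) (x : E d) {ρ : ℝ} (hρ : 0 < ρ) :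
    ∫⁻ y in ball x ρ, F y
      = ENNReal.ofReal (ρ ^ d) * ∫⁻ w in ball (0 : E d) 1, F (x + ρ • w) := by
  set T : E d → E d := fun w => x + ρ • w
  have hTm : Measurable T := (measurable_id.const_smul ρ).const_add x
  have hmap : Measure.map T (volume : Measure (E d))
      = ENNReal.ofReal ((ρ ^ d)⁻¹) • (volume : Measure (E d)) := by
    rw [show T = (fun w => x + w) ∘ (fun w : E d => ρ • w) from rfl,
      ← Measure.map_map (measurable_const_add x) (measurable_const_smul ρ),
      Measure.map_addHaar_smul volume hρ.ne', Measure.map_smul, map_add_left_eq_self,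
      finrank_euclideanSpace_fin, abs_of_pos (by positivity)]
  have hpre : T ⁻¹' ball x ρ = ball (0 : E d) 1 := by
    ext w
    simp only [T, mem_preimage, mem_ball, dist_self_add_left, dist_zero_right, norm_smul,
      Real.norm_eq_abs, abs_of_pos hρ]
    exact mul_lt_iff_lt_one_right hρ
  have h : ∫⁻ w in ball (0 : E d) 1, F (T w)
      = ENNReal.ofReal ((ρ ^ d)⁻¹) * ∫⁻ y in ball x ρ, F y := by
    rw [← hpre, ← setLIntegral_map measurableSet_ball hF hTm, hmap, Measure.restrict_smul,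
      lintegral_smul_measure, smul_eq_mul]
  rw [h, ← mul_assoc, ← ENNReal.ofReal_mul (by positivity), mul_inv_cancel₀ (by positivity),
    ENNReal.ofReal_one, one_mul]

/-- The gradient kernel that controls small balls. -/
def sker (h : E d → ℝ) (x : E d) : ℝ≥0∞ :=
  ∫⁻ σ in Icc (0 : ℝ) 2, ∫⁻ w in ball (0 : E d) 1, ‖∇ h (x + σ • w)‖ₑ

lemma continuous_enorm_gradient {h : E d → ℝ} (hh : ContDiff ℝ 1 h) :
    Continuous fun y => ‖∇ h y‖ₑ :=
  continuous_enorm.comp
    ((InnerProductSpace.toDual ℝ (E d)).symm.continuous.comp (hh.continuous_fderiv one_ne_zero))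

lemma ftc_bound {h : E d → ℝ} (hh : ContDiff ℝ 1 h) (x : E d) {w : E d} (hw : ‖w‖ ≤ 1) {ρ : ℝ}
    (h0 : 0 ≤ ρ) (h2 : ρ ≤ 2) :
    ‖h (x + ρ • w)‖ₑ ≤ ‖h x‖ₑ + ∫⁻ σ in Icc (0 : ℝ) 2, ‖∇ h (x + σ • w)‖ₑ := by
  set ψ' : ℝ → ℝ := fun σ => fderiv ℝ h (x + σ • w) w
  have hc : Continuous ψ' :=
    ((hh.continuous_fderiv one_ne_zero).comp (by fun_prop)).clm_apply continuous_const
  have hd : ∀ σ, HasDerivAt (fun s : ℝ => h (x + s • w)) (ψ' σ) σ := fun σ => by
    have h1 : HasDerivAt (fun s : ℝ => x + s • w) w σ := by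
      simpa using ((hasDerivAt_id σ).smul_const w).const_add x
    exact (hh.differentiable one_ne_zero _).hasFDerivAt.comp_hasDerivAt σ h1
  have e : h (x + ρ • w) - h x = ∫ σ in (0 : ℝ)..ρ, ψ' σ := by
    rw [intervalIntegral.integral_eq_sub_of_hasDerivAt (fun σ _ => hd σ) (hc.intervalIntegrable _ _)]
    simp
  calc ‖h (x + ρ • w)‖ₑ = ‖h x + (h (x + ρ • w) - h x)‖ₑ := by rw [add_sub_cancel]
    _ ≤ ‖h x‖ₑ + ‖h (x + ρ • w) - h x‖ₑ := enorm_add_le _ _
    _ ≤ _ := add_le_add le_rfl ?_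
  rw [e, intervalIntegral.integral_of_le h0]
  refine (enorm_integral_le_lintegral_enorm _).trans ((lintegral_mono fun σ => ?_).trans
    (lintegral_mono_set fun σ hσ => ⟨hσ.1.le, hσ.2.trans h2⟩))
  rw [← ofReal_norm_eq_enorm, ← ofReal_norm_eq_enorm, norm_gradient_eq]
  exact ENNReal.ofReal_le_ofReal (((fderiv ℝ h (x + σ • w)).le_opNorm w).trans
    (mul_le_of_le_one_right (norm_nonneg _) hw))

/-- Pointwise bound of the maximal function of a `C¹` function. -/
lemma mx_le_local {h : E d → ℝ} (hh : ContDiff ℝ 1 h) (x : E d) :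
    mx h x ≤ 2 ^ d * (‖h x‖ₑ + sker h x / volume (ball (0 : E d) 1))
      + (∫⁻ y, ‖h y‖ₑ) / volume (ball (0 : E d) 1) := by
  set V := volume (ball (0 : E d) 1)
  have hV0 : V ≠ 0 := (measure_ball_pos volume 0 one_pos).ne'
  have hVt : V ≠ ⊤ := measure_ball_lt_top.ne
  refine mx_le fun c r hr hx => ?_
  have hvol : volume (ball c r) = ENNReal.ofReal (r ^ d) * V := by
    rw [Measure.addHaar_ball_of_pos volume c hr, finrank_euclideanSpace_fin]
  rcases le_total r 1 with hr1 | hr1
  · refine le_add_right ?_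
    have hsub : ball c r ⊆ ball x (2 * r) := fun y hy => by
      rw [mem_ball] at hx hy ⊢
      linarith [dist_triangle_right y x c]
    have key : ∫⁻ w in ball (0 : E d) 1, ‖h (x + (2 * r) • w)‖ₑ ≤ V * ‖h x‖ₑ + sker h x := by
      refine (setLIntegral_mono' measurableSet_ball fun w hw => ftc_bound hh x
        (mem_ball_zero_iff.1 hw).le (by positivity) (by linarith)).trans_eq ?_
      rw [lintegral_add_left measurable_const, setLIntegral_const, mul_comm]
      congr 1
      exact lintegral_lintegral_swap ((continuous_enorm_gradient hh).comp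
        (by fun_prop : Continuous fun q : E d × ℝ => x + q.2 • q.1)).measurable.aemeasurable
    rw [hvol]
    refine ENNReal.div_le_of_le_mul ((lintegral_mono_set hsub).trans ?_)
    rw [setLIntegral_scale (F := fun y => ‖h y‖ₑ) hh.continuous.enorm.measurable x (by positivity)]
    refine (mul_le_mul_right key _).trans (le_of_eq ?_)
    rw [mul_pow, ENNReal.ofReal_mul (by positivity), ENNReal.ofReal_pow zero_le_two,
      ENNReal.ofReal_ofNat]
    have : V * (sker h x / V) = sker h x := ENNReal.mul_div_cancel hV0 hVt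
    calc 2 ^ d * ENNReal.ofReal (r ^ d) * (V * ‖h x‖ₑ + sker h x)
        = 2 ^ d * ENNReal.ofReal (r ^ d) * (V * ‖h x‖ₑ + V * (sker h x / V)) := by rw [this]
      _ = _ := by ring
  · refine le_add_left (ENNReal.div_le_div (setLIntegral_le_lintegral _ _) ?_)
    rw [hvol]
    exact le_mul_of_one_le_left zero_le (ENNReal.one_le_ofReal.2 (one_le_pow₀ hr1))

lemma lintegral_sker {h : E d → ℝ} (hh : ContDiff ℝ 1 h) :
    ∫⁻ x, sker h x = 2 * volume (ball (0 : E d) 1) * ∫⁻ y, ‖∇ h y‖ₑ := by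
  have hm := continuous_enorm_gradient hh
  have hinner : Measurable fun q : E d × ℝ =>
      ∫⁻ w in ball (0 : E d) 1, ‖∇ h (q.1 + q.2 • w)‖ₑ :=
    ((hm.comp (by fun_prop : Continuous fun p : (E d × ℝ) × E d =>
      p.1.1 + p.1.2 • p.2)).measurable).lintegral_prod_right'
  unfold sker
  rw [lintegral_lintegral_swap hinner.aemeasurable]
  calc ∫⁻ σ in Icc (0 : ℝ) 2, ∫⁻ x, ∫⁻ w in ball (0 : E d) 1, ‖∇ h (x + σ • w)‖ₑ
      = ∫⁻ _ in Icc (0 : ℝ) 2, volume (ball (0 : E d) 1) * ∫⁻ y, ‖∇ h y‖ₑ := by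
        refine lintegral_congr fun σ => ?_
        have hc : Continuous (Function.uncurry fun x w : E d => ‖∇ h (x + σ • w)‖ₑ) :=
          hm.comp (by fun_prop : Continuous fun p : E d × E d => p.1 + σ • p.2)
        rw [lintegral_lintegral_swap hc.measurable.aemeasurable]
        simp only [lintegral_add_right_eq_self fun y => ‖∇ h y‖ₑ]
        rw [setLIntegral_const, mul_comm]
    _ = _ := by
        rw [setLIntegral_const, Real.volume_Icc, sub_zero, ENNReal.ofReal_ofNat]
        ring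

lemma lintegral_mx_le {h : E d → ℝ} (hh : ContDiff ℝ 1 h) (S : Set (E d)) :
    ∫⁻ x in S, mx h x ≤ (2 ^ d + volume S / volume (ball (0 : E d) 1)) * (∫⁻ y, ‖h y‖ₑ)
      + 2 * 2 ^ d * ∫⁻ y, ‖∇ h y‖ₑ := by
  set V := volume (ball (0 : E d) 1)
  have hV0 : V ≠ 0 := (measure_ball_pos volume 0 one_pos).ne'
  have hVt : V ≠ ⊤ := measure_ball_lt_top.ne
  set P : E d → ℝ≥0∞ := fun x => 2 ^ d * (‖h x‖ₑ + sker h x / V)
  have hP : ∫⁻ x in S, P x ≤ 2 ^ d * ((∫⁻ y, ‖h y‖ₑ) + 2 * ∫⁻ y, ‖∇ h y‖ₑ) := by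
    refine (setLIntegral_le_lintegral _ _).trans (le_of_eq ?_)
    rw [lintegral_const_mul' _ _ (by simp),
      lintegral_add_left (f := fun y => ‖h y‖ₑ) hh.continuous.enorm.measurable]
    simp only [div_eq_mul_inv]
    rw [lintegral_mul_const' _ _ (ENNReal.inv_ne_top.2 hV0), lintegral_sker hh,
      mul_right_comm 2 V, mul_assoc, ENNReal.mul_inv_cancel hV0 hVt, mul_one]
  calc ∫⁻ x in S, mx h x ≤ ∫⁻ x in S, P x + (∫⁻ y, ‖h y‖ₑ) / V :=
        lintegral_mono fun x => mx_le_local hh x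
    _ = (∫⁻ x in S, P x) + (∫⁻ y, ‖h y‖ₑ) / V * volume S := by
        rw [lintegral_add_right _ measurable_const, setLIntegral_const]
    _ ≤ _ := by
        refine (add_le_add hP le_rfl).trans (le_of_eq ?_)
        simp only [div_eq_mul_inv]
        ring

variable {u : E d → ℝ}

lemma ofReal_ballAvg (hu : Smooth u) (z : E d) {r : ℝ} (hr : 0 < r) :
    ENNReal.ofReal (ballAvg u z r) = (∫⁻ y in ball z r, ‖u y‖ₑ) / volume (ball z r) := by
  have hpos : 0 < volume.real (ball z r) :=
    ENNReal.toReal_pos (measure_ball_pos volume z hr).ne' measure_ball_lt_top.ne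
  rw [ballAvg, ENNReal.ofReal_mul (inv_nonneg.2 hpos.le), ENNReal.ofReal_inv_of_pos hpos,
    Measure.real, ENNReal.ofReal_toReal measure_ball_lt_top.ne, div_eq_mul_inv, mul_comm,
    ofReal_integral_eq_lintegral_ofReal hu.integrable.integrableOn
      (Eventually.of_forall hu.nonneg)]
  simp only [Real.enorm_of_nonneg (hu.nonneg _)]

lemma mx_eq_umax (hu : Smooth u) (x : E d) : mx u x = ENNReal.ofReal (umax u x) := by
  refine le_antisymm (mx_le fun c r hr hx => ?_) ?_
  · rw [← ofReal_ballAvg hu c hr]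
    rw [mem_ball, dist_eq_norm] at hx
    exact ENNReal.ofReal_le_ofReal (le_umax hu hr hx.le)
  · have hfin : mx u x ≠ ⊤ := ne_top_of_le_ne_top ENNReal.ofReal_ne_top
      (mx_le (b := ENNReal.ofReal (umax u x)) fun c r hr hx => by
        rw [← ofReal_ballAvg hu c hr]
        rw [mem_ball, dist_eq_norm] at hx
        exact ENNReal.ofReal_le_ofReal (le_umax hu hr hx.le))
    refine ENNReal.ofReal_le_of_le_toReal (csSup_le ⟨_, x, 1, one_pos, mem_ball_self one_pos, rfl⟩ ?_)
    rintro _ ⟨z, r, hr, hx, rfl⟩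
    rw [← ENNReal.toReal_ofReal (ballAvg_nonneg hu z r), ofReal_ballAvg hu z hr]
    exact ENNReal.toReal_mono hfin (le_mx u hr hx)

lemma gradient_sub' {a b : E d → ℝ} {x : E d} (ha : DifferentiableAt ℝ a x)
    (hb : DifferentiableAt ℝ b x) : ∇ (fun y => a y - b y) x = ∇ a x - ∇ b x := by
  simp only [gradient, fderiv_fun_sub ha hb, map_sub]

lemma tendsto_lint_sub {α : Type*} [MeasurableSpace α] {μ : Measure α} {F : Type*}
    [NormedAddCommGroup F] {a : ℕ → α → F} {b : α → F}
    (hi : ∀ n, Integrable (fun x => a n x - b x) μ)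
    (h : Tendsto (fun n => ∫ x, ‖a n x - b x‖ ∂μ) atTop (𝓝 0)) :
    Tendsto (fun n => ∫⁻ x, ‖a n x - b x‖ₑ ∂μ) atTop (𝓝 0) := by
  rw [← ENNReal.ofReal_zero]
  refine (ENNReal.tendsto_ofReal h).congr fun n => ?_
  rw [ofReal_integral_norm_eq_lintegral_enorm (hi n)]

/-- The maximal functions of the approximations converge in `L¹` on sets of finite measure. -/
theorem tendsto_mx {u : ℕ → E d → ℝ} {F : E d → ℝ} {v : E d → E d} (hu : ∀ n, Smooth (u n))
    (hF : Integrable F) (hv : Integrable v)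
    (hlu : Tendsto (fun n => ∫ x, |u n x - F x|) atTop (𝓝 0))
    (hlg : Tendsto (fun n => ∫ x, ‖∇ (u n) x - v x‖) atTop (𝓝 0)) {S : Set (E d)}
    (hS : volume S ≠ ⊤) :
    Tendsto (fun n => ∫⁻ x in S, mx (fun y => u n y - F y) x) atTop (𝓝 0) := by
  set a : ℕ → ℝ≥0∞ := fun n => ∫⁻ y, ‖u n y - F y‖ₑ
  set b : ℕ → ℝ≥0∞ := fun n => ∫⁻ y, ‖∇ (u n) y - v y‖ₑ
  have ha0 : Tendsto a atTop (𝓝 0) :=
    tendsto_lint_sub (fun n => (hu n).integrable.sub' hF) (by simpa [Real.norm_eq_abs] using hlu)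
  have hb0 : Tendsto b atTop (𝓝 0) :=
    tendsto_lint_sub (fun n => (hu n).integrable_grad.sub' hv) hlg
  set K₁ := 2 ^ d + volume S / volume (ball (0 : E d) 1)
  set K₂ : ℝ≥0∞ := 2 * 2 ^ d
  have hK₁ : K₁ ≠ ⊤ := ENNReal.add_ne_top.2 ⟨by simp,
    ENNReal.div_ne_top hS (measure_ball_pos volume 0 one_pos).ne'⟩
  have hK₂ : K₂ ≠ ⊤ := ENNReal.mul_ne_top (by simp) (by simp)
  have hsub : ∀ n l, ∫⁻ x in S, mx (fun y => u n y - u l y) x
      ≤ K₁ * (a n + a l) + K₂ * (b n + b l) := fun n l => by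
    refine (lintegral_mx_le ((hu n).contDiff.sub (hu l).contDiff) S).trans ?_
    refine add_le_add (mul_le_mul_right ?_ _) (mul_le_mul_right ?_ _)
    · simp only [a]
      rw [← lintegral_add_left' ((hu n).integrable.sub' hF).aestronglyMeasurable.enorm]
      refine lintegral_mono fun y => ?_
      rw [enorm_sub_comm' (u l y) (F y)]
      calc ‖u n y - u l y‖ₑ = ‖(u n y - F y) + (F y - u l y)‖ₑ := by rw [sub_add_sub_cancel]
        _ ≤ _ := enorm_add_le _ _
    · simp only [b]
      rw [← lintegral_add_left' ((hu n).integrable_grad.sub' hv).aestronglyMeasurable.enorm]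
      refine lintegral_mono fun y => ?_
      rw [gradient_sub' ((hu n).contDiff.differentiable one_ne_zero y)
        ((hu l).contDiff.differentiable one_ne_zero y), ← enorm_neg (∇ (u l) y - v y), neg_sub]
      calc ‖∇ (u n) y - ∇ (u l) y‖ₑ = ‖(∇ (u n) y - v y) + (v y - ∇ (u l) y)‖ₑ := by
            rw [sub_add_sub_cancel]
        _ ≤ _ := enorm_add_le _ _
  have hfat : ∀ n, ∫⁻ x in S, mx (fun y => u n y - F y) x ≤ K₁ * a n + K₂ * b n := by
    intro n
    have hpt : ∀ x, mx (fun y => u n y - F y) x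
        ≤ liminf (fun l => mx (fun y => u n y - u l y) x) atTop := fun x => by
      refine mx_le fun c r hr hx => ?_
      have hlim : Tendsto (fun l => (∫⁻ y in ball c r, ‖u n y - u l y‖ₑ) / volume (ball c r))
          atTop (𝓝 ((∫⁻ y in ball c r, ‖u n y - F y‖ₑ) / volume (ball c r))) := by
        refine ENNReal.Tendsto.div_const ?_ (Or.inr (measure_ball_pos volume c hr).ne')
        have hne : ∫⁻ y in ball c r, ‖u n y - F y‖ₑ ≠ ⊤ :=
          (((hu n).integrable.sub' hF).integrableOn (s := ball c r)).hasFiniteIntegral.ne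
        refine tendsto_of_tendsto_of_tendsto_of_le_of_le
          (g := fun l => (∫⁻ y in ball c r, ‖u n y - F y‖ₑ) - a l)
          (h := fun l => (∫⁻ y in ball c r, ‖u n y - F y‖ₑ) + a l)
          (by simpa using ENNReal.Tendsto.sub tendsto_const_nhds ha0 (Or.inl hne))
          (by simpa using tendsto_const_nhds.add ha0) (fun l => ?_) (fun l => ?_)
        · rw [tsub_le_iff_right]
          refine le_trans ?_ (add_le_add le_rfl (setLIntegral_le_lintegral (ball c r) _))
          rw [← lintegral_add_left'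
            ((hu n).integrable.sub' (hu l).integrable).aestronglyMeasurable.restrict.enorm]
          refine lintegral_mono fun y => ?_
          calc ‖u n y - F y‖ₑ = ‖(u n y - u l y) + (u l y - F y)‖ₑ := by rw [sub_add_sub_cancel]
            _ ≤ _ := enorm_add_le _ _
        · refine le_trans ?_ (add_le_add le_rfl (setLIntegral_le_lintegral (ball c r) _))
          rw [← lintegral_add_left'
            ((hu n).integrable.sub' hF).aestronglyMeasurable.restrict.enorm]
          refine lintegral_mono fun y => ?_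
          rw [enorm_sub_comm' (u l y) (F y)]
          calc ‖u n y - u l y‖ₑ = ‖(u n y - F y) + (F y - u l y)‖ₑ := by rw [sub_add_sub_cancel]
            _ ≤ _ := enorm_add_le _ _
      rw [← hlim.liminf_eq]
      exact liminf_le_liminf (Eventually.of_forall fun l => le_mx _ hr hx)
    refine (lintegral_mono hpt).trans ((lintegral_liminf_le fun l => measurable_mx _).trans ?_)
    refine (liminf_le_liminf (Eventually.of_forall (hsub n))).trans (le_of_eq ?_)
    refine Tendsto.liminf_eq ?_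
    simpa using (ENNReal.Tendsto.const_mul (tendsto_const_nhds.add ha0 : Tendsto (fun l => a n + a l)
      atTop (𝓝 (a n + 0))) (Or.inr hK₁)).add
      (ENNReal.Tendsto.const_mul (tendsto_const_nhds.add hb0 : Tendsto (fun l => b n + b l)
      atTop (𝓝 (b n + 0))) (Or.inr hK₂))
  refine tendsto_of_tendsto_of_tendsto_of_le_of_le tendsto_const_nhds ?_ (fun n => zero_le) hfat
  simpa using (ENNReal.Tendsto.const_mul ha0 (Or.inr hK₁)).add
    (ENNReal.Tendsto.const_mul hb0 (Or.inr hK₂))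

/-- Integration by parts for a locally Lipschitz function against a compactly supported `C¹` one. -/
lemma integral_mul_fderiv {M : E d → ℝ} (hM : LocallyLipschitz M) {φ : E d → ℝ}
    (hφ : ContDiff ℝ 1 φ) (hc : HasCompactSupport φ) (v : E d) :
    ∫ x, M x * fderiv ℝ φ x v = -∫ x, fderiv ℝ M x v * φ x := by
  obtain ⟨R, hR⟩ := hc.isCompact.isBounded.subset_closedBall (0 : E d)
  obtain ⟨K, hK⟩ := hM.locallyLipschitzOn.exists_lipschitzOnWith_of_compact
    (isCompact_closedBall (0 : E d) (R + 1))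
  obtain ⟨g, hg, hgM⟩ := hK.extend_real
  obtain ⟨D, hD⟩ := hφ.lipschitzWith_of_hasCompactSupport hc one_ne_zero
  have hloc : ∀ x ∈ tsupport φ, g =ᶠ[𝓝 x] M := fun x hx => by
    refine Filter.mem_of_superset (closedBall_mem_nhds_of_mem (c := (0 : E d)) (ε := R + 1) ?_)
      fun y hy => (hgM hy).symm
    have := hR hx
    simp only [mem_closedBall, mem_ball] at this ⊢
    linarith
  have key := LipschitzWith.integral_lineDeriv_mul_eq (μ := volume) hg hD hc v
  have e2 : ∫ x, lineDeriv ℝ φ x (-v) * g x = -∫ x, M x * fderiv ℝ φ x v := by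
    rw [← integral_neg]
    refine integral_congr_ae (Eventually.of_forall fun x => ?_)
    simp only
    rw [(hφ.differentiable one_ne_zero x).lineDeriv_eq_fderiv, map_neg]
    by_cases hx : x ∈ tsupport φ
    · rw [(hloc x hx).self_of_nhds]; ring
    · rw [fderiv_of_notMem_tsupport ℝ hx]; simp
  have e1 : ∫ x, lineDeriv ℝ g x v * φ x = ∫ x, fderiv ℝ M x v * φ x := by
    refine integral_congr_ae (hg.ae_differentiableAt.mono fun x hx => ?_)
    simp only
    by_cases h : x ∈ tsupport φ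
    · rw [hx.lineDeriv_eq_fderiv, (hloc x h).fderiv_eq]
    · rw [image_eq_zero_of_notMem_tsupport h, mul_zero, mul_zero]
  rw [e1, e2] at key
  rw [key, neg_neg]

end

end Vale.Agent.P137.Unc
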