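import Vale.Agent.P137.Unc.Defs

/-!
P137, uncentred operator: smooth nonnegative approximation of the modulus of a function with
integrable weak gradient, with convergence of the gradients in `L¹`.
-/

open MeasureTheory Metric Set Filter ContinuousLinearMap
open scoped ENNReal NNReal RealInnerProductSpace Gradient Topology Convolution

namespace Vale.Agent.P137.Unc

noncomputable section

variable {d : ℕ}

/-- If `F k → f` almost everywhere with no mass gained, then `F k → f` in `L¹`. -/
lemma tendsto_l1_of_norm_le {α : Type*} [MeasurableSpace α] {μ : Measure α} {F : ℕ → α → ℝ}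
    {f : α → ℝ} (hF : ∀ k, Integrable (F k) μ) (hf : Integrable f μ)
    (hle : ∀ k, ∫ x, |F k x| ∂μ ≤ ∫ x, |f x| ∂μ)
    (hlim : ∀ᵐ x ∂μ, Tendsto (fun k => F k x) atTop (𝓝 (f x))) :
    Tendsto (fun k => ∫ x, |F k x - f x| ∂μ) atTop (𝓝 0) := by
  have hq : Tendsto (fun k => ∫ x, (|F k x| - |F k x - f x|) ∂μ) atTop (𝓝 (∫ x, |f x| ∂μ)) := by
    refine tendsto_integral_of_dominated_convergence (fun x => |f x|)
      (fun k => ((hF k).abs.sub ((hF k).sub' hf).abs).aestronglyMeasurable) hf.abs
      (fun k => Eventually.of_forall fun x => ?_) (hlim.mono fun x hx => ?_)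
    · rw [Real.norm_eq_abs]
      have := abs_abs_sub_abs_le_abs_sub (F k x) (F k x - f x)
      rwa [sub_sub_cancel] at this
    · simpa using hx.abs.sub (hx.sub_const (f x)).abs
  refine squeeze_zero (fun k => integral_nonneg fun x => abs_nonneg _) (fun k => ?_)
    (by simpa using hq.const_sub (∫ x, |f x| ∂μ))
  rw [integral_sub (hF k).abs ((hF k).sub' hf).abs]
  linarith [hle k]

/-- The mollifier. -/
def bump (d k : ℕ) : ContDiffBump (0 : E d) :=
  ⟨1 / ((k : ℝ) + 2), 2 / ((k : ℝ) + 2), by positivity, by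
    exact div_lt_div_of_pos_right one_lt_two (by positivity)⟩

/-- The mollification. -/
def moll (k : ℕ) (h : E d → ℝ) : E d → ℝ := (bump d k).normed volume ⋆[lsmul ℝ ℝ, volume] h

lemma moll_contDiff (k : ℕ) {h : E d → ℝ} (hh : Integrable h) : ContDiff ℝ 1 (moll k h) :=
  (bump d k).hasCompactSupport_normed.contDiff_convolution_left _ ((bump d k).contDiff_normed)
    hh.locallyIntegrable

lemma moll_integrable (k : ℕ) {h : E d → ℝ} (hh : Integrable h) : Integrable (moll k h) :=
  (bump d k).integrable_normed.integrable_convolution _ hh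

lemma integral_abs_moll_le (k : ℕ) {h : E d → ℝ} (hh : Integrable h) :
    ∫ x, |moll k h x| ≤ ∫ x, |h x| := by
  have hρ := (bump d k).nonneg_normed (μ := (volume : Measure (E d)))
  have he : ∫ x, moll k (fun y => |h y|) x = ∫ x, |h x| := by
    rw [moll, integral_convolution _ (bump d k).integrable_normed hh.abs,
      (bump d k).integral_normed, lsmul_apply, one_smul]
  rw [← he]
  refine integral_mono (moll_integrable k hh).abs (moll_integrable k hh.abs) fun x => ?_
  simp only [moll, convolution_def, lsmul_apply, smul_eq_mul]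
  refine abs_integral_le_integral_abs.trans (le_of_eq (integral_congr_ae
    (Eventually.of_forall fun t => ?_)))
  simp only [abs_mul, abs_of_nonneg (hρ t)]

lemma tendsto_moll {h : E d → ℝ} (hh : Integrable h) :
    (∀ᵐ x, Tendsto (fun k => moll k h x) atTop (𝓝 (h x))) ∧
      Tendsto (fun k => ∫ x, |moll k h x - h x|) atTop (𝓝 0) := by
  have hae : ∀ᵐ x, Tendsto (fun k => moll k h x) atTop (𝓝 (h x)) := by
    refine ContDiffBump.ae_convolution_tendsto_right_of_locallyIntegrable (K := 2) ?_ ?_
      hh.locallyIntegrable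
    · exact tendsto_const_nhds.div_atTop
        (tendsto_atTop_add_const_right _ _ tendsto_natCast_atTop_atTop)
    · exact Eventually.of_forall fun k => le_of_eq (by simp [bump]; ring)
  exact ⟨hae, tendsto_l1_of_norm_le (fun k => moll_integrable k hh) hh
    (fun k => integral_abs_moll_le k hh) hae⟩

/-- The weak partial derivatives mollify to the partial derivatives. -/
lemma fderiv_moll (k : ℕ) {f g : E d → ℝ} {v : E d} (hf : Integrable f)
    (hweak : ∀ φ : E d → ℝ, ContDiff ℝ ((⊤ : ℕ∞) : WithTop ℕ∞) φ → HasCompactSupport φ →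
      ∫ x, f x * fderiv ℝ φ x v = -∫ x, g x * φ x) (x : E d) :
    fderiv ℝ (moll k f) x v = moll k g x := by
  set ρ := (bump d k).normed (volume : Measure (E d)) with hρ
  have hρc : HasCompactSupport ρ := (bump d k).hasCompactSupport_normed
  have hρs : ContDiff ℝ ((⊤ : ℕ∞) : WithTop ℕ∞) ρ := (bump d k).contDiff_normed
  have h1 := hρc.hasFDerivAt_convolution_left (lsmul ℝ ℝ) (hρs.of_le (by exact_mod_cast le_top))
    (hf.locallyIntegrable (μ := volume)) x
  rw [moll, h1.fderiv, convolution_eq_swap, ContinuousLinearMap.integral_apply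
    (((hρc.fderiv ℝ).convolutionExists_left ((lsmul ℝ ℝ).precompL (E d))
      (hρs.continuous_fderiv (by simp)) hf.locallyIntegrable x).integrable_swap)]
  simp only [ContinuousLinearMap.precompL_apply, lsmul_apply, smul_eq_mul]
  set φ : E d → ℝ := fun y => ρ (x - y)
  have hφs : ContDiff ℝ ((⊤ : ℕ∞) : WithTop ℕ∞) φ := hρs.comp (contDiff_const.sub contDiff_id)
  have hφc : HasCompactSupport φ := hρc.comp_homeomorph (Homeomorph.subLeft x)
  have hd : ∀ y, fderiv ℝ φ y v = -fderiv ℝ ρ (x - y) v := fun y => by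
    have h2 : HasFDerivAt φ ((fderiv ℝ ρ (x - y)).comp (-ContinuousLinearMap.id ℝ (E d))) y :=
      ((hρs.differentiable (by simp) (x - y)).hasFDerivAt).comp y ((hasFDerivAt_id y).const_sub x)
    rw [h2.fderiv]
    simp
  have hw := hweak φ hφs hφc
  simp only [hd, mul_neg, integral_neg, neg_inj] at hw
  simp only [moll, convolution_eq_swap, lsmul_apply, smul_eq_mul]
  simp only [← hρ, φ] at hw ⊢
  simp only [mul_comm (ρ _), mul_comm ((fderiv ℝ ρ _) v)]
  exact hw

/-- A regularised modulus. -/
def amod (ε t : ℝ) : ℝ := Real.sqrt (t ^ 2 + ε ^ 2) - ε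

/-- Its derivative, a regularised sign. -/
def asgn (ε t : ℝ) : ℝ := t / Real.sqrt (t ^ 2 + ε ^ 2)

lemma amod_facts {ε : ℝ} (hε : 0 < ε) (t : ℝ) :
    0 ≤ amod ε t ∧ amod ε t ≤ |t| ∧ |t| - ε ≤ amod ε t ∧ |asgn ε t| ≤ 1 ∧
      HasDerivAt (amod ε) (asgn ε t) t := by
  have hpos : 0 < t ^ 2 + ε ^ 2 := by positivity
  have h1 : ε ≤ Real.sqrt (t ^ 2 + ε ^ 2) := Real.le_sqrt_of_sq_le (by nlinarith)
  have h2 : |t| ≤ Real.sqrt (t ^ 2 + ε ^ 2) := Real.le_sqrt_of_sq_le (by rw [sq_abs]; nlinarith)
  refine ⟨by unfold amod; linarith, ?_, by unfold amod; linarith, ?_, ?_⟩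
  · rw [amod, sub_le_iff_le_add, Real.sqrt_le_left (by positivity)]
    nlinarith [sq_abs t, mul_nonneg (abs_nonneg t) hε.le]
  · rw [asgn, abs_div, abs_of_nonneg (Real.sqrt_nonneg _), div_le_one (Real.sqrt_pos.2 hpos)]
    exact h2
  · have hd : HasDerivAt (amod ε) (2 * t / (2 * Real.sqrt (t ^ 2 + ε ^ 2))) t := by
      change HasDerivAt (fun y => Real.sqrt (y ^ 2 + ε ^ 2) - ε) _ t
      simpa using (((hasDerivAt_pow 2 t).add_const (ε ^ 2)).sqrt hpos.ne').sub_const ε
    rwa [show 2 * t / (2 * Real.sqrt (t ^ 2 + ε ^ 2)) = asgn ε t by rw [asgn]; field_simp] at hd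

lemma amod_lip {ε : ℝ} (hε : 0 < ε) (a b : ℝ) : |amod ε a - amod ε b| ≤ |a - b| := by
  have h := LipschitzWith.norm_sub_le (lipschitzWith_of_nnnorm_deriv_le (C := 1)
    (fun t => (amod_facts hε t).2.2.2.2.differentiableAt) (f := amod ε) fun t => by
      rw [(amod_facts hε t).2.2.2.2.deriv]
      rw [← NNReal.coe_le_coe, coe_nnnorm, Real.norm_eq_abs, NNReal.coe_one]
      exact (amod_facts hε t).2.2.2.1) a b
  simpa using h

lemma contDiff_amod {ε : ℝ} (hε : 0 < ε) : ContDiff ℝ 1 (amod ε) :=
  ((((contDiff_id (𝕜 := ℝ)).pow 2).add contDiff_const).sqrt fun t => by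
    simp only [id]; positivity).sub contDiff_const

lemma continuous_asgn {ε : ℝ} (hε : 0 < ε) : Continuous (asgn ε) :=
  continuous_id.div (Real.continuous_sqrt.comp ((continuous_pow 2).add continuous_const))
    fun t => (Real.sqrt_pos.2 (by positivity)).ne'

lemma tendsto_asgn (t : ℝ) :
    Tendsto (fun n : ℕ => asgn (1 / ((n : ℝ) + 1)) t) atTop (𝓝 (Real.sign t)) := by
  rcases eq_or_ne t 0 with rfl | ht
  · simp [asgn]
  have h : Tendsto (fun n : ℕ => t / Real.sqrt (t ^ 2 + (1 / ((n : ℝ) + 1)) ^ 2)) atTop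
      (𝓝 (t / Real.sqrt (t ^ 2 + 0 ^ 2))) :=
    tendsto_const_nhds.div
      ((Real.continuous_sqrt.tendsto _).comp ((tendsto_one_div_add_atTop_nhds_zero_nat.pow 2).const_add _))
      (Real.sqrt_pos.2 (by positivity)).ne'
  have e : t / Real.sqrt (t ^ 2 + 0 ^ 2) = Real.sign t := by
    rw [show t ^ 2 + (0 : ℝ) ^ 2 = t ^ 2 by ring, Real.sqrt_sq_eq_abs]
    rcases lt_or_gt_of_ne ht with h0 | h0
    · rw [Real.sign_of_neg h0, abs_of_neg h0, div_neg, div_self ht]
    · rw [Real.sign_of_pos h0, abs_of_pos h0, div_self ht]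
  rw [← e]
  exact h

/-- The vector of partials. -/
def vec (g : Fin d → E d → ℝ) (x : E d) : E d := WithLp.toLp 2 fun i => g i x

lemma norm_vec (g : Fin d → E d → ℝ) (x : E d) : ‖vec g x‖ = Real.sqrt (∑ i, g i x ^ 2) := by
  rw [EuclideanSpace.norm_eq]
  simp [vec]

lemma norm_le_sum (v : E d) : ‖v‖ ≤ ∑ i, |v i| := by
  conv_lhs => rw [← (EuclideanSpace.basisFun (Fin d) ℝ).sum_repr v]
  refine (norm_sum_le _ _).trans (Finset.sum_le_sum fun i _ => ?_)
  simp [norm_smul]

lemma gradient_apply_coord {u : E d → ℝ} (x : E d) (i : Fin d) :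
    ∇ u x i = fderiv ℝ u x (EuclideanSpace.single i 1) := by
  rw [← inner_gradient_left, EuclideanSpace.inner_single_right]
  simp

lemma continuous_gradient {u : E d → ℝ} (hu : ContDiff ℝ 1 u) : Continuous fun x => ∇ u x :=
  (InnerProductSpace.toDual ℝ (E d)).symm.continuous.comp (hu.continuous_fderiv one_ne_zero)

lemma aestronglyMeasurable_vec {g : Fin d → E d → ℝ} (hg : ∀ i, AEStronglyMeasurable (g i) volume) :
    AEStronglyMeasurable (vec g) volume :=
  ((PiLp.continuous_toLp 2 fun _ : Fin d => ℝ).comp_aestronglyMeasurable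
    (aemeasurable_pi_lambda _ fun i => (hg i).aemeasurable).aestronglyMeasurable)

lemma integrable_vec {g : Fin d → E d → ℝ} (hg : ∀ i, Integrable (g i)) : Integrable (vec g) :=
  (integrable_finsetSum _ fun i _ => (hg i).abs).mono'
    (aestronglyMeasurable_vec fun i => (hg i).aestronglyMeasurable)
    (Eventually.of_forall fun x => by simpa [vec] using norm_le_sum (vec g x))

/-- Smooth nonnegative approximations of `|f|`, with gradients converging in `L¹`. -/
theorem exists_approx {f : E d → ℝ} {g : Fin d → E d → ℝ} (hf : Integrable f)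
    (hg : ∀ i, Integrable (g i))
    (hweak : ∀ i (φ : E d → ℝ), ContDiff ℝ ((⊤ : ℕ∞) : WithTop ℕ∞) φ → HasCompactSupport φ →
      ∫ x, f x * fderiv ℝ φ x (EuclideanSpace.single i 1) = -∫ x, g i x * φ x) :
    ∃ (u : ℕ → E d → ℝ) (v : E d → E d), (∀ n, Smooth (u n)) ∧ Integrable v ∧
      (∀ x, ‖v x‖ ≤ Real.sqrt (∑ i, g i x ^ 2)) ∧
      Tendsto (fun n => ∫ x, ‖∇ (u n) x - v x‖) atTop (𝓝 0) ∧
      Tendsto (fun n => ∫ x, |u n x - (|f x|)|) atTop (𝓝 0) := by
  set ε : ℕ → ℝ := fun n => 1 / ((n : ℝ) + 1) with hε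
  have hεpos : ∀ n, 0 < ε n := fun n => by positivity
  have hfk := fun k => moll_contDiff k hf
  have hgrad : ∀ k x, ∇ (moll k f) x = vec (fun i => moll k (g i)) x := fun k x => by
    ext i
    rw [gradient_apply_coord, fderiv_moll k hf (hweak i) x]
    rfl
  set U : ℕ → ℕ → E d → ℝ := fun n k x => amod (ε n) (moll k f x) with hU
  have hUs : ∀ n k, ContDiff ℝ 1 (U n k) := fun n k => (contDiff_amod (hεpos n)).comp (hfk k)
  have hUg : ∀ n k x, ∇ (U n k) x = asgn (ε n) (moll k f x) • vec (fun i => moll k (g i)) x := by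
    intro n k x
    rw [← hgrad]
    have h := (amod_facts (hεpos n) (moll k f x)).2.2.2.2.comp_hasFDerivAt x
      ((hfk k).differentiable one_ne_zero x).hasFDerivAt
    change gradient (amod (ε n) ∘ moll k f) x = _
    rw [gradient, h.fderiv, map_smul]
    rfl
  have hgk : ∀ k, Integrable (vec fun i => moll k (g i)) := fun k =>
    integrable_vec fun i => moll_integrable k (hg i)
  have hV := integrable_vec hg
  set W : ℕ → E d → E d := fun n x => asgn (ε n) (f x) • vec g x with hW
  have hWle : ∀ n x, ‖W n x‖ ≤ ‖vec g x‖ := fun n x => by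
    rw [hW, norm_smul, Real.norm_eq_abs]
    exact mul_le_of_le_one_left (norm_nonneg _) (amod_facts (hεpos n) _).2.2.2.1
  have hWi : ∀ n, Integrable (W n) := fun n => hV.mono
    (((continuous_asgn (hεpos n)).comp_aestronglyMeasurable hf.aestronglyMeasurable).smul
      hV.aestronglyMeasurable) (Eventually.of_forall (hWle n))
  have hUi : ∀ n k, Integrable (fun x => ∇ (U n k) x) := fun n k => (hgk k).mono
    (continuous_gradient (hUs n k)).aestronglyMeasurable (Eventually.of_forall fun x => by
      rw [hUg, norm_smul, Real.norm_eq_abs]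
      exact mul_le_of_le_one_left (norm_nonneg _) (amod_facts (hεpos n) _).2.2.2.1)
  have hUint : ∀ n k, Integrable (U n k) := fun n k => (moll_integrable k hf).mono
    (hUs n k).continuous.aestronglyMeasurable (Eventually.of_forall fun x => by
      simp only [hU, Real.norm_eq_abs]
      rw [abs_of_nonneg (amod_facts (hεpos n) _).1]
      exact (amod_facts (hεpos n) _).2.1)
  -- for each n the double sequence converges
  have hconv : ∀ n, Tendsto (fun k => (∫ x, ‖∇ (U n k) x - W n x‖)
      + ∫ x, |U n k x - amod (ε n) (f x)|) atTop (𝓝 0) := by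
    intro n
    have t1 : Tendsto (fun k => ∫ x, ∑ i, |moll k (g i) x - g i x|) atTop (𝓝 0) := by
      simp only [fun k => integral_finsetSum Finset.univ fun i (_ : i ∈ Finset.univ) =>
        ((moll_integrable k (hg i)).sub' (hg i)).abs]
      simpa using tendsto_finsetSum Finset.univ fun i _ => (tendsto_moll (hg i)).2
    have hD : ∀ k, Integrable fun x =>
        |asgn (ε n) (moll k f x) - asgn (ε n) (f x)| * ‖vec g x‖ := fun k => by
      refine (hV.norm.const_mul 2).mono' ?_ (Eventually.of_forall fun x => ?_)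
      · have m1 := (continuous_asgn (hεpos n)).comp_aestronglyMeasurable
          (hfk k).continuous.aestronglyMeasurable (μ := (volume : Measure (E d)))
        exact (continuous_abs.comp_aestronglyMeasurable (m1.sub
          ((continuous_asgn (hεpos n)).comp_aestronglyMeasurable hf.aestronglyMeasurable))).mul
          hV.aestronglyMeasurable.norm
      · rw [Real.norm_of_nonneg (mul_nonneg (abs_nonneg _) (norm_nonneg _))]
        refine mul_le_mul_of_nonneg_right ?_ (norm_nonneg _)
        linarith [abs_sub (asgn (ε n) (moll k f x)) (asgn (ε n) (f x)),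
          (amod_facts (hεpos n) (moll k f x)).2.2.2.1, (amod_facts (hεpos n) (f x)).2.2.2.1]
    have t2 : Tendsto (fun k => ∫ x, |asgn (ε n) (moll k f x) - asgn (ε n) (f x)| * ‖vec g x‖)
        atTop (𝓝 0) := by
      have h0 : ∫ _ : E d, (0 : ℝ) = 0 := integral_zero _ _
      rw [← h0]
      refine tendsto_integral_of_dominated_convergence (fun x => 2 * ‖vec g x‖)
        (fun k => (hD k).aestronglyMeasurable) (hV.norm.const_mul 2)
        (fun k => Eventually.of_forall fun x => ?_) ((tendsto_moll hf).1.mono fun x hx => ?_)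
      · rw [Real.norm_of_nonneg (mul_nonneg (abs_nonneg _) (norm_nonneg _))]
        refine mul_le_mul_of_nonneg_right ?_ (norm_nonneg _)
        linarith [abs_sub (asgn (ε n) (moll k f x)) (asgn (ε n) (f x)),
          (amod_facts (hεpos n) (moll k f x)).2.2.2.1, (amod_facts (hεpos n) (f x)).2.2.2.1]
      · simpa [Real.norm_eq_abs] using (tendsto_iff_norm_sub_tendsto_zero.1
          (((continuous_asgn (hεpos n)).tendsto _).comp hx)).mul_const ‖vec g x‖
    refine squeeze_zero (fun k => add_nonneg (integral_nonneg fun x => norm_nonneg _)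
      (integral_nonneg fun x => abs_nonneg _)) (fun k => ?_)
      (by simpa using (t1.add t2).add (tendsto_moll hf).2)
    refine add_le_add ?_ (integral_mono_of_nonneg (Eventually.of_forall fun x => abs_nonneg _)
      ((moll_integrable k hf).sub' hf).abs (Eventually.of_forall fun x => amod_lip (hεpos n) _ _))
    have hS : Integrable fun x => ∑ i, |moll k (g i) x - g i x| :=
      integrable_finsetSum _ fun i _ => ((moll_integrable k (hg i)).sub' (hg i)).abs
    rw [← integral_add hS (hD k)]
    refine integral_mono_of_nonneg (Eventually.of_forall fun x => norm_nonneg _) (hS.add (hD k))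
      (Eventually.of_forall fun x => ?_)
    simp only [hUg, hW, Pi.add_apply]
    rw [show asgn (ε n) (moll k f x) • vec (fun i => moll k (g i)) x - asgn (ε n) (f x) • vec g x
      = asgn (ε n) (moll k f x) • (vec (fun i => moll k (g i)) x - vec g x)
        + (asgn (ε n) (moll k f x) - asgn (ε n) (f x)) • vec g x by module]
    refine (norm_add_le _ _).trans (add_le_add ?_ (by rw [norm_smul, Real.norm_eq_abs]))
    rw [norm_smul, Real.norm_eq_abs]
    refine (mul_le_of_le_one_left (norm_nonneg _) (amod_facts (hεpos n) _).2.2.2.1).trans ?_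
    simpa [vec] using norm_le_sum (vec (fun i => moll k (g i)) x - vec g x)
  choose κ hκ using fun n =>
    ((hconv n).eventually (Iio_mem_nhds (hεpos n))).exists
  set v : E d → E d := fun x => Real.sign (f x) • vec g x
  have hvle : ∀ x, ‖v x‖ ≤ ‖vec g x‖ := fun x => by
    rw [norm_smul, Real.norm_eq_abs]
    refine mul_le_of_le_one_left (norm_nonneg _) ?_
    rcases Real.sign_apply_eq (f x) with h | h | h <;> simp [h]
  have hvm : AEStronglyMeasurable v volume :=
    aestronglyMeasurable_of_tendsto_ae atTop (fun n => (hWi n).aestronglyMeasurable)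
      (Eventually.of_forall fun x => (tendsto_asgn (f x)).smul_const _)
  have hvi : Integrable v := hV.mono hvm (Eventually.of_forall hvle)
  refine ⟨fun n => U n (κ n), v, fun n => ⟨hUs n _, fun x => (amod_facts (hεpos n) _).1,
    hUint n _, hUi n _⟩, hvi, fun x => (hvle x).trans_eq (norm_vec g x), ?_, ?_⟩
  · have t3 : Tendsto (fun n => ∫ x, ‖W n x - v x‖) atTop (𝓝 0) := by
      have h0 : ∫ _ : E d, (0 : ℝ) = 0 := integral_zero _ _
      rw [← h0]
      refine tendsto_integral_of_dominated_convergence (fun x => 2 * ‖vec g x‖)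
        (fun n => ((hWi n).sub hvi).norm.aestronglyMeasurable) (hV.norm.const_mul 2)
        (fun n => Eventually.of_forall fun x => ?_) (Eventually.of_forall fun x => ?_)
      · rw [norm_norm]
        linarith [norm_sub_le (W n x) (v x), hWle n x, hvle x]
      · exact tendsto_iff_norm_sub_tendsto_zero.1 ((tendsto_asgn (f x)).smul_const (vec g x))
    refine squeeze_zero (fun n => integral_nonneg fun x => norm_nonneg _) (fun n => ?_)
      (show Tendsto (fun n => ε n + ∫ x, ‖W n x - v x‖) atTop (𝓝 0) by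
        simpa [hε] using (tendsto_one_div_add_atTop_nhds_zero_nat (𝕜 := ℝ)).add t3)
    refine le_trans ?_ (add_le_add ((le_add_of_nonneg_right
      (integral_nonneg fun x => abs_nonneg _)).trans (hκ n).le) le_rfl)
    rw [← integral_add ((hUi n _).sub' (hWi n)).norm ((hWi n).sub' hvi).norm]
    exact integral_mono ((hUi n _).sub' hvi).norm
      (((hUi n _).sub' (hWi n)).norm.add ((hWi n).sub' hvi).norm)
      fun x => norm_sub_le_norm_sub_add_norm_sub _ _ _
  · have ham : ∀ n, Integrable fun x => amod (ε n) (f x) := fun n => hf.mono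
      ((contDiff_amod (hεpos n)).continuous.comp_aestronglyMeasurable hf.aestronglyMeasurable)
      (Eventually.of_forall fun x => by
        rw [Real.norm_eq_abs, abs_of_nonneg (amod_facts (hεpos n) _).1]
        exact (amod_facts (hεpos n) _).2.1)
    have t4 : Tendsto (fun n => ∫ x, |amod (ε n) (f x) - (|f x|)|) atTop (𝓝 0) := by
      have h0 : ∫ _ : E d, (0 : ℝ) = 0 := integral_zero _ _
      rw [← h0]
      refine tendsto_integral_of_dominated_convergence (fun x => |f x|)
        (fun n => ((ham n).sub hf.abs).abs.aestronglyMeasurable) hf.abs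
        (fun n => Eventually.of_forall fun x => ?_) (Eventually.of_forall fun x => ?_)
      · rw [Real.norm_eq_abs, abs_abs]
        obtain ⟨h1, h2, -⟩ := amod_facts (hεpos n) (f x)
        rw [abs_of_nonpos (by linarith)]
        linarith
      · refine squeeze_zero (fun n => abs_nonneg _) (fun n => ?_)
          tendsto_one_div_add_atTop_nhds_zero_nat
        obtain ⟨h1, h2, h3, -⟩ := amod_facts (hεpos n) (f x)
        rw [abs_of_nonpos (by linarith)]
        simp only [hε] at h3 ⊢
        linarith
    refine squeeze_zero (fun n => integral_nonneg fun x => abs_nonneg _) (fun n => ?_)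
      (show Tendsto (fun n => ε n + ∫ x, |amod (ε n) (f x) - (|f x|)|) atTop (𝓝 0) by
        simpa [hε] using (tendsto_one_div_add_atTop_nhds_zero_nat (𝕜 := ℝ)).add t4)
    refine le_trans ?_ (add_le_add ((le_add_of_nonneg_left
      (integral_nonneg fun x => norm_nonneg _)).trans (hκ n).le) le_rfl)
    rw [← integral_add ((hUint n _).sub' (ham n)).abs ((ham n).sub' hf.abs).abs]
    exact integral_mono ((hUint n _).sub' hf.abs).abs
      (((hUint n _).sub' (ham n)).abs.add ((ham n).sub' hf.abs).abs) fun x => abs_sub_le _ _ _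

end

end Vale.Agent.P137.Unc
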