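import Vale.Agent.P137.Unc.Dyadic
import Vale.Agent.P137.Unc.Density
import Vale.Agent.P137.Unc.Mollify
import Vale.Agent.P137.Unc.MaxLimit

/-!
P137, uncentred operator, step 7: from the bound for smooth inputs to all functions with integrable
weak gradient.
-/

open MeasureTheory Metric Set Filter
open scoped ENNReal NNReal RealInnerProductSpace Gradient Topology

namespace Vale.Agent.P137.Unc

noncomputable section

variable {d : ℕ}

lemma mem_gcube_iff {s : Fin d → Fin 3} {n : ℤ} {k : Fin d → ℤ} {y : E d} :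
    y ∈ gcube s n k ↔
      k = fun i => ⌊y i / (2 : ℝ) ^ n - (-1 : ℝ) ^ n * ((s i : ℕ) : ℝ) / 3⌋ := by
  have hp : (0 : ℝ) < 2 ^ n := zpow_pos two_pos n
  rw [funext_iff]
  refine forall_congr' fun i => ?_
  rw [eq_comm (a := k i), Int.floor_eq_iff]
  refine and_congr ?_ ?_
  · rw [le_sub_iff_add_le, le_div_iff₀ hp, mul_comm]
  · rw [sub_lt_iff_lt_add, div_lt_iff₀ hp]
    constructor <;> intro h <;> linarith

lemma measurableSet_gcube (s : Fin d → Fin 3) (n : ℤ) (k : Fin d → ℤ) :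
    MeasurableSet (gcube s n k) := measurableSet_window

lemma pairwise_disjoint_gcube (s : Fin d → Fin 3) (n : ℤ) :
    Pairwise (Function.onFun Disjoint (gcube s n)) := fun _ _ hne =>
  Set.disjoint_left.2 fun _ h h' => hne ((mem_gcube_iff.1 h).trans (mem_gcube_iff.1 h').symm)

lemma iUnion_gcube (s : Fin d → Fin 3) (n : ℤ) : ⋃ k, gcube s n k = univ :=
  eq_univ_of_forall fun _ => mem_iUnion.2 ⟨_, mem_gcube_iff.2 rfl⟩

lemma tsum_setLIntegral_gcube (s : Fin d → Fin 3) (n : ℤ) (F : E d → ℝ≥0∞) :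
    ∑' k, ∫⁻ y in gcube s n k, F y = ∫⁻ y, F y := by
  rw [← lintegral_iUnion (measurableSet_gcube s n) (pairwise_disjoint_gcube s n),
    iUnion_gcube, setLIntegral_univ]

lemma gridE_le_add (s : Fin d → Fin 3) (n : ℤ) {g h : E d → E d} (hg : Integrable g)
    (hh : Integrable h) : gridE h s n ≤ gridE g s n + ∫⁻ y, ‖g y - h y‖ₑ := by
  rw [gridE, gridE, ← tsum_setLIntegral_gcube s n fun y => ‖g y - h y‖ₑ, ← ENNReal.tsum_add]
  refine ENNReal.tsum_le_tsum fun k => ?_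
  calc ‖∫ y in gcube s n k, h y‖ₑ
      = ‖(∫ y in gcube s n k, g y) - ∫ y in gcube s n k, (g y - h y)‖ₑ := by
        rw [integral_sub hg.integrableOn hh.integrableOn, sub_sub_cancel]
    _ ≤ _ := enorm_sub_le.trans (add_le_add le_rfl (enorm_integral_le_lintegral_enorm _))

theorem tail_le_add (g h : E d → E d) (hg : Integrable g) (hh : Integrable h) (N : ℤ) :
    tail g N ≤ tail h N + 2 * 3 ^ d * ∫⁻ y, ‖g y - h y‖ₑ := by
  set c : ℝ≥0∞ := ∫⁻ y, ‖g y - h y‖ₑ
  have key : ∀ s : Fin d → Fin 3, (∫⁻ y, ‖g y‖ₑ) - gridE g s N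
      ≤ ((∫⁻ y, ‖h y‖ₑ) - gridE h s N) + 2 * c := fun s => by
    rw [tsub_le_iff_right]
    calc ∫⁻ y, ‖g y‖ₑ ≤ (∫⁻ y, ‖h y‖ₑ) + c := by
          rw [← lintegral_add_left' hh.aestronglyMeasurable.enorm]
          refine lintegral_mono fun y => ?_
          calc ‖g y‖ₑ = ‖h y + (g y - h y)‖ₑ := by rw [add_sub_cancel]
            _ ≤ _ := enorm_add_le _ _
      _ ≤ ((∫⁻ y, ‖h y‖ₑ) - gridE h s N + gridE h s N) + c := add_le_add le_tsub_add le_rfl
      _ ≤ ((∫⁻ y, ‖h y‖ₑ) - gridE h s N + (gridE g s N + c)) + c :=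
          add_le_add (add_le_add le_rfl (gridE_le_add s N hg hh)) le_rfl
      _ = _ := by ring
  refine (Finset.sum_le_sum fun s _ => key s).trans (le_of_eq ?_)
  rw [Finset.sum_add_distrib, Finset.sum_const, tail]
  simp only [Finset.card_univ, Fintype.card_fun, Fintype.card_fin, nsmul_eq_mul, Nat.cast_pow,
    Nat.cast_ofNat]
  ring

/-- A compactly supported continuous field is seen by fine grids. -/
lemma sub_gridE_le {h : E d → E d} (hi : Integrable h) {η δ R : ℝ}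
    (hη : ∀ y z, dist y z ≤ δ → dist (h y) (h z) ≤ η) (hR : ∀ y, R < ‖y‖ → h y = 0)
    (s : Fin d → Fin 3) {N : ℤ} (hN : Real.sqrt d * (2 : ℝ) ^ N ≤ min δ 1) :
    (∫⁻ y, ‖h y‖ₑ) - gridE h s N
      ≤ 2 * (ENNReal.ofReal η * volume (closedBall (0 : E d) (R + 1))) := by
  set B := closedBall (0 : E d) (R + 1)
  have hB : MeasurableSet B := measurableSet_closedBall
  have e : ENNReal.ofReal η * volume B = ∫⁻ y, B.indicator (fun _ => ENNReal.ofReal η) y := by
    rw [lintegral_indicator hB, setLIntegral_const]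
  rw [tsub_le_iff_left, e, ← tsum_setLIntegral_gcube s N fun y => ‖h y‖ₑ,
    ← tsum_setLIntegral_gcube s N (B.indicator fun _ => ENNReal.ofReal η), ← ENNReal.tsum_mul_left,
    gridE, ← ENNReal.tsum_add]
  refine ENNReal.tsum_le_tsum fun k => ?_
  set Q := gcube s N k with hQ
  set c : E d := WithLp.toLp 2 fun i =>
    (2 : ℝ) ^ N * ((k i : ℝ) + (-1 : ℝ) ^ N * ((s i : ℕ) : ℝ) / 3)
  have hQm : MeasurableSet Q := measurableSet_gcube s N k
  have hdist : ∀ y ∈ Q, ‖y - c‖ ≤ min δ 1 := fun y hy => by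
    refine le_trans (norm_le_sqrt_mul (zpow_nonneg zero_le_two N) fun i => ?_) hN
    obtain ⟨h1, h2⟩ := hy i
    simp only [PiLp.sub_apply]
    rw [abs_le]
    change c i ≤ y i at h1
    change y i < c i + 2 ^ N at h2
    constructor <;> linarith [zpow_pos two_pos N (G₀ := ℝ)]
  have hosc : ∀ y ∈ Q, ‖h y - h c‖ₑ ≤ B.indicator (fun _ => ENNReal.ofReal η) y := fun y hy => by
    by_cases hyB : y ∈ B
    · rw [indicator_of_mem hyB, ← ofReal_norm]
      refine ENNReal.ofReal_le_ofReal ?_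
      rw [← dist_eq_norm]
      exact hη y c (by rw [dist_eq_norm]; exact (hdist y hy).trans (min_le_left _ _))
    · rw [mem_closedBall_zero_iff, not_le] at hyB
      have hc : R < ‖c‖ := by
        linarith [norm_le_norm_add_norm_sub' y c, (hdist y hy).trans (min_le_right δ 1)]
      rw [hR y (by linarith), hR c hc, sub_self, enorm_zero]
      exact zero_le
  have hfin : volume Q ≠ ⊤ := ne_top_of_le_ne_top measure_closedBall_lt_top.ne
    (measure_mono fun y (hy : y ∈ Q) => mem_closedBall_iff_norm.2 (hdist y hy))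
  have hcst : IntegrableOn (fun _ : E d => h c) Q := integrableOn_const (C := h c) hfin
  set o : ℝ≥0∞ := ∫⁻ y in Q, B.indicator (fun _ => ENNReal.ofReal η) y
  have h1 : ∫⁻ y in Q, ‖h y‖ₑ ≤ ‖∫ _ in Q, h c‖ₑ + o := by
    have e1 : ‖∫ _ in Q, h c‖ₑ = ‖h c‖ₑ * volume Q := by
      rw [setIntegral_const, enorm_smul, measureReal_def, Real.enorm_of_nonneg ENNReal.toReal_nonneg,
        ENNReal.ofReal_toReal hfin, mul_comm]
    rw [e1, ← setLIntegral_const Q, ← lintegral_add_left measurable_const]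
    refine setLIntegral_mono' hQm fun y hy => ?_
    calc ‖h y‖ₑ = ‖h c + (h y - h c)‖ₑ := by rw [add_sub_cancel]
      _ ≤ _ := (enorm_add_le _ _).trans (add_le_add le_rfl (hosc y hy))
  have h2 : ‖∫ _ in Q, h c‖ₑ ≤ ‖∫ y in Q, h y‖ₑ + o := by
    calc ‖∫ _ in Q, h c‖ₑ = ‖(∫ y in Q, h y) - ∫ y in Q, (h y - h c)‖ₑ := by
          rw [integral_sub hi.integrableOn hcst, sub_sub_cancel]
      _ ≤ _ := enorm_sub_le.trans (add_le_add le_rfl
          ((enorm_integral_le_lintegral_enorm _).trans (setLIntegral_mono' hQm hosc)))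
  calc ∫⁻ y in Q, ‖h y‖ₑ ≤ ‖∫ y in Q, h y‖ₑ + o + o := h1.trans (add_le_add h2 le_rfl)
    _ = _ := by rw [add_assoc, ← two_mul]

theorem tendsto_tail (g : E d → E d) (hg : Integrable g) :
    Tendsto (fun N => tail g N) atBot (nhds 0) := by
  rw [ENNReal.tendsto_nhds_zero]
  intro ε hε
  set K : ℝ≥0∞ := 2 * 3 ^ d
  have hK0 : K ≠ 0 := by simp [K]
  have hKt : K ≠ ⊤ := ENNReal.mul_ne_top (by simp) (by simp)
  have hε2 : ε / 2 / K ≠ 0 :=
    (ENNReal.div_pos (ENNReal.div_pos hε.ne' (by simp)).ne' hKt).ne'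
  obtain ⟨h, hsupp, hle, hcont, hint⟩ := hg.exists_hasCompactSupport_lintegral_sub_le hε2
  obtain ⟨R, hR⟩ := hsupp.isCompact.isBounded.subset_closedBall (0 : E d)
  have hR' : ∀ y, R < ‖y‖ → h y = 0 := fun y hy => image_eq_zero_of_notMem_tsupport fun hm =>
    (not_le.2 hy) (mem_closedBall_zero_iff.1 (hR hm))
  set V := volume (closedBall (0 : E d) (R + 1))
  have hV : V ≠ ⊤ := measure_closedBall_lt_top.ne
  obtain ⟨η, hη0, hηle⟩ : ∃ η : ℝ, 0 < η ∧ 3 ^ d * (2 * (ENNReal.ofReal η * V)) ≤ ε / 2 := by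
    have ht : Tendsto (fun η : ℝ => 3 ^ d * (2 * (ENNReal.ofReal η * V))) (𝓝 0)
        (𝓝 (3 ^ d * (2 * (ENNReal.ofReal 0 * V)))) :=
      ENNReal.Tendsto.const_mul (ENNReal.Tendsto.const_mul (ENNReal.Tendsto.mul_const
        (ENNReal.continuous_ofReal.tendsto 0) (Or.inr hV)) (Or.inr (by simp))) (Or.inr (by simp))
    simp only [ENNReal.ofReal_zero, zero_mul, mul_zero] at ht
    obtain ⟨η, h1, h2⟩ := (((ht.mono_left nhdsWithin_le_nhds).eventually
      (Iic_mem_nhds (show (0 : ℝ≥0∞) < ε / 2 from ENNReal.div_pos hε.ne' (by simp)))).and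
      (self_mem_nhdsWithin (a := (0 : ℝ)) (s := Ioi 0))).exists
    exact ⟨η, h2, h1⟩
  obtain ⟨δ, hδ0, hδ⟩ := Metric.uniformContinuous_iff_le.1
    (hcont.uniformContinuous_of_tendsto_cocompact hsupp.is_zero_at_infty) η hη0
  have hsmall : ∀ᶠ N : ℤ in atBot, Real.sqrt d * (2 : ℝ) ^ N ≤ min δ 1 := by
    obtain ⟨m, hm⟩ := exists_pow_lt_of_lt_one
      (show (0 : ℝ) < min δ 1 / (Real.sqrt d + 1) by positivity) (show (1 / 2 : ℝ) < 1 by norm_num)
    rw [lt_div_iff₀ (by positivity), one_div, inv_pow, ← zpow_natCast, ← zpow_neg] at hm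
    filter_upwards [eventually_le_atBot (-(m : ℤ))] with N hN
    calc Real.sqrt d * (2 : ℝ) ^ N ≤ (Real.sqrt d + 1) * (2 : ℝ) ^ (-(m : ℤ)) :=
          mul_le_mul (by linarith) (zpow_le_zpow_right₀ one_le_two hN)
            (zpow_nonneg zero_le_two N) (by positivity)
      _ ≤ _ := by rw [mul_comm]; exact hm.le
  filter_upwards [hsmall] with N hN
  have h1 : tail h N ≤ ε / 2 := by
    refine (Finset.sum_le_card_nsmul _ _ _ fun s _ => sub_gridE_le hint hδ hR' s hN).trans ?_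
    simp only [Finset.card_univ, Fintype.card_fun, Fintype.card_fin, nsmul_eq_mul, Nat.cast_pow,
      Nat.cast_ofNat]
    exact hηle
  refine (tail_le_add g h hg hint N).trans ((add_le_add h1 ((mul_le_mul_right hle K).trans ?_)).trans
    (ENNReal.add_halves ε).le)
  rw [ENNReal.mul_div_cancel hK0 hKt]

lemma measurable_gradient' (U : E d → ℝ) : Measurable fun x => ∇ U x :=
  (InnerProductSpace.toDual ℝ (E d)).symm.continuous.measurable.comp (measurable_fderiv ℝ U)

lemma enorm_partial_le (U : E d → ℝ) (x : E d) (i : Fin d) :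
    ‖fderiv ℝ U x (EuclideanSpace.single i 1)‖ₑ ≤ ‖∇ U x‖ₑ := by
  rw [← gradient_apply_coord, ← ofReal_norm, ← ofReal_norm]
  exact ENNReal.ofReal_le_ofReal (PiLp.norm_apply_le (∇ U x) i)

lemma enorm_toReal_sub_le {a b c : ℝ≥0∞} (ha : a ≠ ⊤) (hb : b ≠ ⊤) (h1 : a ≤ b + c)
    (h2 : b ≤ a + c) : ‖a.toReal - b.toReal‖ₑ ≤ c := by
  rcases eq_or_ne c ⊤ with rfl | hc
  · exact le_top
  rw [Real.enorm_eq_ofReal_abs]
  refine (ENNReal.ofReal_le_ofReal (abs_sub_le_iff.2 ⟨?_, ?_⟩)).trans_eq (ENNReal.ofReal_toReal hc)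
  · have := ENNReal.toReal_mono (ENNReal.add_ne_top.2 ⟨hb, hc⟩) h1
    rw [ENNReal.toReal_add hb hc] at this
    linarith
  · have := ENNReal.toReal_mono (ENNReal.add_ne_top.2 ⟨ha, hc⟩) h2
    rw [ENNReal.toReal_add ha hc] at this
    linarith

/-- The bound for all smooth inputs, in the form used by the limit argument. -/
def SmoothBound (d : ℕ) (C : ℝ≥0∞) : Prop :=
  ∀ (u : E d → ℝ), Smooth u →
    (∫⁻ x, ‖∇ (umax u) x‖ₑ ≤ C * ∫⁻ x, ‖∇ u x‖ₑ) ∧
    ∀ (N : ℤ) (A : Set (E d)), MeasurableSet A →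
      ∫⁻ x in A, ‖∇ (umax u) x‖ₑ ≤ (∫⁻ x in A, ‖∇ u x‖ₑ)
        + C * ENNReal.ofReal ((2 : ℝ) ^ (-(d : ℤ) * N) * gnorm u) * volume A
        + C * tail (fun x => ∇ u x) N

/-- The gradients of the maximal functions of the approximations are equi-integrable. -/
lemma equi_integrable {C : ℝ≥0∞} (hC : C ≠ ⊤) (hbd : SmoothBound d C) {u : ℕ → E d → ℝ}
    {v : E d → E d} (hu : ∀ n, Smooth (u n)) (hv : Integrable v)
    (hb0 : Tendsto (fun n => ∫⁻ x, ‖∇ (u n) x - v x‖ₑ) atTop (𝓝 0)) {ε : ℝ≥0∞} (hε : 0 < ε) :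
    ∃ L : ℕ, ∀ᶠ k in atTop,
      ∫⁻ x in {x | (L : ℝ≥0∞) ≤ ‖∇ (umax (u k)) x‖ₑ}, ‖∇ (umax (u k)) x‖ₑ ≤ ε := by
  set b : ℕ → ℝ≥0∞ := fun n => ∫⁻ x, ‖∇ (u n) x - v x‖ₑ
  have hvt : ∫⁻ x, ‖v x‖ₑ ≠ ⊤ := hv.hasFiniteIntegral.ne
  set B₀ : ℝ≥0∞ := (∫⁻ x, ‖v x‖ₑ) + 1
  have hB₀ : B₀ ≠ ⊤ := ENNReal.add_ne_top.2 ⟨hvt, by simp⟩
  set q : ℝ≥0∞ := ε / 4
  have hq : 0 < q := ENNReal.div_pos hε.ne' (by simp)
  have hCt : Tendsto (fun N => C * tail v N) atBot (𝓝 0) := by
    simpa using ENNReal.Tendsto.const_mul (tendsto_tail v hv) (Or.inr hC)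
  obtain ⟨N, hN⟩ := (hCt.eventually (Iic_mem_nhds hq)).exists
  obtain ⟨δ, hδ0, hδ⟩ := exists_pos_setLIntegral_lt_of_measure_lt hvt hq.ne'
  set a : ℝ≥0∞ := C * (ENNReal.ofReal ((2 : ℝ) ^ (-(d : ℤ) * N)) * B₀)
  have ha : a ≠ ⊤ := ENNReal.mul_ne_top hC (ENNReal.mul_ne_top ENNReal.ofReal_ne_top hB₀)
  have hCB : C * B₀ ≠ ⊤ := ENNReal.mul_ne_top hC hB₀
  have hL0 : Tendsto (fun L : ℕ => C * B₀ * (L : ℝ≥0∞)⁻¹) atTop (𝓝 0) := by
    simpa using ENNReal.Tendsto.const_mul ENNReal.tendsto_inv_nat_nhds_zero (Or.inr hCB)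
  have hL1 : Tendsto (fun L : ℕ => a * (C * B₀ * (L : ℝ≥0∞)⁻¹)) atTop (𝓝 0) := by
    simpa using ENNReal.Tendsto.const_mul hL0 (Or.inr ha)
  obtain ⟨L, ⟨hLδ, hLa⟩, hL⟩ := (((hL0.eventually (Iio_mem_nhds hδ0)).and
    (hL1.eventually (Iic_mem_nhds hq))).and (eventually_gt_atTop 0)).exists
  have hLne : (L : ℝ≥0∞) ≠ 0 := Nat.cast_ne_zero.2 hL.ne'
  set K : ℝ≥0∞ := 1 + C * (2 * 3 ^ d)
  have hKb : Tendsto (fun k => K * b k) atTop (𝓝 0) := by
    simpa using ENNReal.Tendsto.const_mul hb0 (Or.inr (show K ≠ ⊤ from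
      ENNReal.add_ne_top.2 ⟨by simp, ENNReal.mul_ne_top hC (ENNReal.mul_ne_top (by simp) (by simp))⟩))
  refine ⟨L, ?_⟩
  filter_upwards [hKb.eventually (Iic_mem_nhds hq), hb0.eventually (Iic_mem_nhds zero_lt_one)]
    with k hk hk1
  set A := {x | (L : ℝ≥0∞) ≤ ‖∇ (umax (u k)) x‖ₑ}
  have hAm : MeasurableSet A :=
    measurableSet_le measurable_const (measurable_gradient' _).enorm
  have hgu : ∀ y, ‖∇ (u k) y‖ₑ ≤ ‖v y‖ₑ + ‖∇ (u k) y - v y‖ₑ := fun y => by
    calc ‖∇ (u k) y‖ₑ = ‖v y + (∇ (u k) y - v y)‖ₑ := by rw [add_sub_cancel]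
      _ ≤ _ := enorm_add_le _ _
  have hlgu : ∀ S : Set (E d), ∫⁻ y in S, ‖∇ (u k) y‖ₑ ≤ (∫⁻ y in S, ‖v y‖ₑ) + b k := fun S =>
    (lintegral_mono hgu).trans_eq (lintegral_add_left' hv.aestronglyMeasurable.restrict.enorm _)
      |>.trans (add_le_add le_rfl (setLIntegral_le_lintegral _ _))
  have hgn : ENNReal.ofReal (gnorm (u k)) ≤ B₀ := by
    rw [gnorm, ofReal_integral_norm_eq_lintegral_enorm (hu k).integrable_grad]
    refine (setLIntegral_univ _).symm.trans_le ((hlgu univ).trans ?_)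
    rw [setLIntegral_univ]
    exact add_le_add le_rfl hk1
  have hA : volume A ≤ C * B₀ * (L : ℝ≥0∞)⁻¹ := by
    refine (meas_ge_le_lintegral_div (measurable_gradient' _).enorm.aemeasurable hLne
      (ENNReal.natCast_ne_top L)).trans ?_
    rw [div_eq_mul_inv]
    refine mul_le_mul_left ((hbd _ (hu k)).1.trans (mul_le_mul_right ?_ C)) _
    rw [← ofReal_integral_norm_eq_lintegral_enorm (hu k).integrable_grad]
    exact hgn
  have ht := tail_le_add (fun y => ∇ (u k) y) v (hu k).integrable_grad hv N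
  calc ∫⁻ x in A, ‖∇ (umax (u k)) x‖ₑ
      ≤ (∫⁻ x in A, ‖∇ (u k) x‖ₑ)
        + C * ENNReal.ofReal ((2 : ℝ) ^ (-(d : ℤ) * N) * gnorm (u k)) * volume A
        + C * tail (fun x => ∇ (u k) x) N := (hbd _ (hu k)).2 N A hAm
    _ ≤ (q + b k) + a * (C * B₀ * (L : ℝ≥0∞)⁻¹) + (C * tail v N + C * (2 * 3 ^ d * b k)) := by
        refine add_le_add (add_le_add ((hlgu A).trans (add_le_add (hδ A (hA.trans_lt hLδ)).le le_rfl))
          (mul_le_mul' ?_ hA)) ?_
        · rw [ENNReal.ofReal_mul (zpow_nonneg zero_le_two _)]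
          exact mul_le_mul_right (mul_le_mul_right hgn _) C
        · rw [← mul_add]
          exact mul_le_mul_right ht C
    _ = q + a * (C * B₀ * (L : ℝ≥0∞)⁻¹) + C * tail v N + K * b k := by ring
    _ ≤ q + q + q + q := add_le_add (add_le_add (add_le_add le_rfl hLa) hN) hk
    _ = ε := by
        rw [show q + q + q + q = 4 * q by ring]
        exact ENNReal.mul_div_cancel (by simp) (by simp)

/-- The result, from the bound for smooth inputs. -/
theorem uncentred_main_of_bound (hd : 2 ≤ d) (hb : ∃ C : ℝ≥0∞, C ≠ ⊤ ∧ SmoothBound d C) :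
    ∃ C : ℝ, ∀ (f : E d → ℝ) (g : Fin d → E d → ℝ),
    Integrable f → (∀ i, Integrable (g i)) →
    (∀ i (φ : E d → ℝ), ContDiff ℝ ((⊤ : ℕ∞) : WithTop ℕ∞) φ → HasCompactSupport φ →
      ∫ x, f x * fderiv ℝ φ x (EuclideanSpace.single i 1) = -∫ x, g i x * φ x) →
    let M : E d → ℝ≥0∞ := fun x => ⨆ (c : E d) (r : ℝ) (_ : 0 < r) (_ : x ∈ ball c r),
      (∫⁻ y in ball c r, ‖f y‖ₑ) / volume (ball c r)
    (∀ᵐ x, M x ≠ ⊤) ∧ LocallyIntegrable (fun x => (M x).toReal) ∧
      ∃ G : Fin d → E d → ℝ, (∀ i, Integrable (G i)) ∧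
        (∀ i (φ : E d → ℝ), ContDiff ℝ 1 φ → HasCompactSupport φ →
          ∫ x, (M x).toReal * fderiv ℝ φ x (EuclideanSpace.single i 1) = -∫ x, G i x * φ x) ∧
        ∫ x, Real.sqrt (∑ i, G i x ^ 2) ≤ C * ∫ x, Real.sqrt (∑ i, g i x ^ 2) := by
  obtain ⟨C, hC, hbd⟩ := hb
  refine ⟨d * C.toReal, fun f g hf hg hweak => ?_⟩
  obtain ⟨u, v, hu, hv, hvle, hlg, hlu⟩ := exists_approx hf hg hweak
  set F : E d → ℝ := fun y => |f y|
  have hF : Integrable F := hf.abs
  intro M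
  have hM : M = mx F := (mx_abs f).symm
  rw [hM]
  change Tendsto (fun n => ∫ x, |u n x - F x|) atTop (𝓝 0) at hlu
  clear_value F
  clear hM M
  have hmeasM : Measurable (mx F) := measurable_mx F
  set D : ℕ → E d → ℝ≥0∞ := fun n => mx (fun y => u n y - F y)
  have hsymm : ∀ n, mx (fun y => F y - u n y) = D n := fun n => by
    funext x
    simp only [D, mx, enorm_sub_comm' (F _) (u n _)]
  have hcmp1 : ∀ n x, mx F x ≤ ENNReal.ofReal (umax (u n) x) + D n x := fun n x => by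
    rw [← mx_eq_umax (hu n), ← hsymm]
    exact mx_le_add (hu n).integrable.aestronglyMeasurable x
  have hcmp2 : ∀ n x, ENNReal.ofReal (umax (u n) x) ≤ mx F x + D n x := fun n x => by
    rw [← mx_eq_umax (hu n)]
    exact mx_le_add hF.aestronglyMeasurable x
  have hd1 : 1 ≤ d := le_trans one_le_two hd
  have hlip := fun n => locallyLipschitz_umax hd1 (hu n)
  -- local finiteness
  have hfin : ∀ K : Set (E d), IsCompact K → ∫⁻ x in K, mx F x < ⊤ := fun K hK => by
    obtain ⟨n, hn⟩ := ((tendsto_mx hu hF hv hlu hlg hK.measure_lt_top.ne).eventually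
      (Iio_mem_nhds zero_lt_one)).exists
    refine lt_of_le_of_lt ((lintegral_mono fun x => hcmp1 n x).trans_eq
      (lintegral_add_left (hlip n).continuous.measurable.ennreal_ofReal _)) ?_
    exact ENNReal.add_lt_top.2
      ⟨((hlip n).continuous.continuousOn.integrableOn_compact hK).lintegral_lt_top, hn.trans ENNReal.one_lt_top⟩
  have hae : ∀ᵐ x, mx F x ≠ ⊤ := by
    have h : ∀ᵐ x ∂volume.restrict (⋃ j : ℕ, closedBall (0 : E d) j), mx F x < ⊤ :=
      (ae_restrict_iUnion_iff _ _).2 fun j =>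
        ae_lt_top hmeasM (hfin _ (isCompact_closedBall _ _)).ne
    rw [iUnion_closedBall_nat, Measure.restrict_univ] at h
    exact h.mono fun x hx => hx.ne
  have hMloc : LocallyIntegrable fun x => (mx F x).toReal := by
    rw [locallyIntegrable_iff]
    exact fun K hK => integrable_toReal_of_lintegral_ne_top hmeasM.aemeasurable (hfin K hK).ne
  refine ⟨hae, hMloc, ?_⟩
  -- the gradients
  set G : ℕ → Fin d → E d → ℝ :=
    fun k i x => fderiv ℝ (umax (u k)) x (EuclideanSpace.single i 1) with hG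
  have hGm : ∀ k i, Measurable (G k i) := fun k i => measurable_fderiv_apply_const ℝ _ _
  have hGle : ∀ k i, ∫⁻ x, ‖G k i x‖ₑ ≤ C * ∫⁻ x, ‖∇ (u k) x‖ₑ := fun k i =>
    (lintegral_mono fun x => enorm_partial_le _ x i).trans (hbd _ (hu k)).1
  have hCk : ∀ k, C * ∫⁻ x, ‖∇ (u k) x‖ₑ ≠ ⊤ := fun k =>
    ENNReal.mul_ne_top hC (hu k).integrable_grad.hasFiniteIntegral.ne
  have hGi : ∀ k i, Integrable (G k i) := fun k i =>
    ⟨(hGm k i).aestronglyMeasurable, (hGle k i).trans_lt (lt_top_iff_ne_top.2 (hCk k))⟩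
  set I : ℝ := ∫ x, Real.sqrt (∑ i, g i x ^ 2)
  have hI : ∫ x, ‖v x‖ ≤ I := by
    refine integral_mono hv.norm ?_ hvle
    simpa only [norm_vec] using (integrable_vec hg).norm
  have hGb : ∀ η > 0, ∀ i, ∀ᶠ k in atTop, ∫ x, |G k i x| ≤ C.toReal * I + η := by
    intro η hη i
    have ht : Tendsto (fun k => C.toReal * (I + ∫ x, ‖∇ (u k) x - v x‖)) atTop
        (𝓝 (C.toReal * (I + 0))) := (hlg.const_add I).const_mul _
    rw [add_zero] at ht
    filter_upwards [ht.eventually (Iic_mem_nhds (lt_add_of_pos_right _ hη))] with k hk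
    refine le_trans ?_ hk
    have h1 : ∫ x, |G k i x| ≤ C.toReal * ∫ x, ‖∇ (u k) x‖ := by
      have := ENNReal.toReal_mono (hCk k) (hGle k i)
      rw [ENNReal.toReal_mul, ← integral_norm_eq_lintegral_enorm (hGm k i).aestronglyMeasurable,
        ← integral_norm_eq_lintegral_enorm (hu k).integrable_grad.aestronglyMeasurable] at this
      exact this
    refine h1.trans (mul_le_mul_of_nonneg_left (le_trans ?_ (add_le_add hI le_rfl))
      ENNReal.toReal_nonneg)
    rw [← integral_add hv.norm ((hu k).integrable_grad.sub' hv).norm]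
    refine integral_mono (hu k).integrable_grad.norm
      (hv.norm.add ((hu k).integrable_grad.sub' hv).norm) fun x => ?_
    exact norm_le_norm_add_norm_sub' (∇ (u k) x) (v x)
  have hb0 := tendsto_lint_sub (fun n => (hu n).integrable_grad.sub' hv) hlg
  have hUI : ∀ i, ∀ ε : ℝ, 0 < ε → ∃ L : ℝ, 0 ≤ L ∧
      ∀ᶠ k in atTop, ∫ x, max (|G k i x| - L) 0 ≤ ε := by
    intro i ε hε
    obtain ⟨L, hL⟩ := equi_integrable hC hbd hu hv hb0 (ENNReal.ofReal_pos.2 hε)
    refine ⟨L, Nat.cast_nonneg L, ?_⟩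
    filter_upwards [hL] with k hk
    rw [integral_eq_lintegral_of_nonneg_ae (f := fun x => max (|G k i x| - (L : ℝ)) 0)
      (Eventually.of_forall fun x => le_max_right _ _)
      (((hGm k i).abs.sub_const _).max measurable_const).aestronglyMeasurable]
    refine ENNReal.toReal_le_of_le_ofReal hε.le (le_trans ?_ hk)
    rw [← lintegral_indicator (measurableSet_le measurable_const (measurable_gradient' _).enorm)]
    refine lintegral_mono fun x => ?_
    by_cases hx : (L : ℝ≥0∞) ≤ ‖∇ (umax (u k)) x‖ₑ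
    · rw [indicator_of_mem (show x ∈ {a | (L : ℝ≥0∞) ≤ ‖∇ (umax (u k)) a‖ₑ} from hx)]
      refine le_trans ?_ (enorm_partial_le _ x i)
      rw [Real.enorm_eq_ofReal_abs]
      exact ENNReal.ofReal_le_ofReal (max_le (sub_le_self _ (Nat.cast_nonneg L)) (abs_nonneg _))
    · rw [indicator_of_notMem (show x ∉ {a | (L : ℝ≥0∞) ≤ ‖∇ (umax (u k)) a‖ₑ} from hx),
        ENNReal.ofReal_eq_zero.2]
      have h := (enorm_partial_le (umax (u k)) x i).trans (not_le.1 hx).le
      rw [Real.enorm_eq_ofReal_abs, ← ENNReal.ofReal_natCast,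
        ENNReal.ofReal_le_ofReal_iff (Nat.cast_nonneg L)] at h
      exact max_le (sub_nonpos.2 h) le_rfl
  choose H hHi hHle hHweak using fun i => exists_density (fun k => G k i) (fun k => hGi k i)
    (hGb 1 one_pos i) (hUI i)
  refine ⟨H, hHi, fun i φ hφ hc => ?_, ?_⟩
  · set ψ : E d → ℝ := fun x => fderiv ℝ φ x (EuclideanSpace.single i 1)
    have hψc : Continuous ψ := (hφ.continuous_fderiv one_ne_zero).clm_apply continuous_const
    have hψs : HasCompactSupport ψ :=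
      hc.fderiv_apply ℝ (EuclideanSpace.single i 1)
    obtain ⟨Mφ, hMφ⟩ := hc.exists_bound_of_continuous hφ.continuous
    obtain ⟨Mψ, hMψ⟩ := hψs.exists_bound_of_continuous hψc
    set K := tsupport ψ
    have hlim : Tendsto (fun k => ∫ x, umax (u k) x * ψ x) atTop
        (𝓝 (∫ x, (mx F x).toReal * ψ x)) := by
      refine tendsto_integral_of_L1 _
        (hmeasM.ennreal_toReal.mul hψc.measurable).aestronglyMeasurable
        (Eventually.of_forall fun k => ((hlip k).continuous.mul hψc).integrable_of_hasCompactSupport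
          hψs.mul_left) ?_
      have hz : Tendsto (fun k => ENNReal.ofReal Mψ * ∫⁻ x in K, D k x) atTop (𝓝 0) := by
        simpa using ENNReal.Tendsto.const_mul
          (tendsto_mx hu hF hv hlu hlg (S := K) hψs.isCompact.measure_lt_top.ne)
          (Or.inr (ENNReal.ofReal_ne_top (r := Mψ)))
      refine tendsto_of_tendsto_of_tendsto_of_le_of_le tendsto_const_nhds hz (fun k => zero_le)
        fun k => ?_
      rw [← lintegral_indicator (isClosed_tsupport ψ).measurableSet, ← lintegral_const_mul'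
        _ _ ENNReal.ofReal_ne_top]
      refine lintegral_mono_ae (hae.mono fun x hx => ?_)
      simp only [Pi.mul_apply]
      rw [← sub_mul, enorm_mul]
      by_cases hxK : x ∈ K
      · rw [indicator_of_mem hxK, mul_comm]
        refine mul_le_mul' ?_ ?_
        · rw [← ofReal_norm]
          exact ENNReal.ofReal_le_ofReal (hMψ x)
        · rw [← ENNReal.toReal_ofReal (umax_nonneg (hu k) x)]
          exact enorm_toReal_sub_le ENNReal.ofReal_ne_top hx (hcmp2 k x) (hcmp1 k x)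
      · rw [image_eq_zero_of_notMem_tsupport hxK, indicator_of_notMem hxK]
        simp
    have h := hHweak i φ Mφ (hφ.continuous.memLp_of_hasCompactSupport hc) hMφ _
      (hlim.neg.congr fun k => by
        rw [integral_mul_fderiv (hlip k) hφ hc, neg_neg])
    simp only [h, neg_neg]
    rfl
  · have hbound : ∀ i, ∫ x, |H i x| ≤ C.toReal * I :=
      fun i => le_of_forall_pos_le_add fun η hη => hHle i _ (hGb η hη i)
    refine le_trans (integral_mono_of_nonneg (Eventually.of_forall fun x => Real.sqrt_nonneg _)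
      (integrable_finsetSum Finset.univ fun i _ => (hHi i).abs) (Eventually.of_forall fun x => ?_)) ?_
    · simp only
      rw [← norm_vec]
      exact norm_le_sum (vec H x)
    rw [integral_finsetSum _ fun i _ => (hHi i).abs]
    refine (Finset.sum_le_sum fun i _ => hbound i).trans_eq ?_
    rw [Finset.sum_const, Finset.card_univ, Fintype.card_fin, nsmul_eq_mul, mul_assoc]

end

end Vale.Agent.P137.Unc
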