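import Vale.Agent.P137.Unc.Defs

/-!
# P137, uncentred operator: lower approximations of a kernel on dyadic cubes

Step 1 of the proof: integrals of `∇ u` against a kernel `H` are written as sums over the cubes
of a window, weighted with the increments of the lower approximations of `H`. On each cube the
integral `I` of the gradient satisfies `⟪e, I⟫ = ‖I‖ - X`, where `X ≥ 0` is the defect, and this
gives lower bounds with errors controlled by the sums of increment times defect.
-/

open MeasureTheory Metric Set Filter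
open scoped ENNReal NNReal RealInnerProductSpace Gradient Topology

namespace Vale.Agent.P137.Unc

noncomputable section

variable {d : ℕ} {u : E d → ℝ} {a e : E d} {L : ℝ}

/-! ### Geometry of the cubes -/

theorem dy_side_pos (hL : 0 < L) (m : ℕ) : 0 < side L m := by
  unfold side; positivity

theorem dy_side_succ (L : ℝ) (m : ℕ) : side L (m + 1) = side L m / 2 := by
  unfold side; rw [pow_succ, div_div]

theorem side_le (hL : 0 < L) (m : ℕ) : side L m ≤ L := by
  unfold side
  exact div_le_self hL.le (one_le_pow₀ (by norm_num))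

theorem side_mul_two_pow (L : ℝ) (m : ℕ) : side L m * 2 ^ m = L := by
  unfold side; field_simp

theorem tendsto_side (L : ℝ) : Tendsto (fun m => side L m) atTop (𝓝 0) := by
  have h := (tendsto_pow_atTop_nhds_zero_of_lt_one (by norm_num : (0 : ℝ) ≤ 1 / 2)
    (by norm_num : (1 / 2 : ℝ) < 1)).const_mul L
  rw [mul_zero] at h
  refine h.congr fun m => ?_
  unfold side
  rw [div_pow, one_pow, mul_one_div]

theorem Kc_ge (d : ℕ) : 8 * Real.sqrt d ≤ Kc d ∧ 8 ≤ Kc d := by
  unfold Kc
  constructor <;> nlinarith [Real.sqrt_nonneg (d : ℝ)]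

theorem norm_le_sqrt_mul {b : ℝ} (hb : 0 ≤ b) {v : E d} (h : ∀ i, |v i| ≤ b) :
    ‖v‖ ≤ Real.sqrt d * b := by
  have h1 : ∑ i, ‖v i‖ ^ 2 ≤ (d : ℝ) * b ^ 2 := by
    refine le_trans (Finset.sum_le_card_nsmul _ _ (b ^ 2) fun i _ => ?_) ?_
    · rw [Real.norm_eq_abs]; exact pow_le_pow_left₀ (abs_nonneg _) (h i) 2
    · simp
  calc ‖v‖ = Real.sqrt (∑ i, ‖v i‖ ^ 2) := EuclideanSpace.norm_eq v
    _ ≤ Real.sqrt ((d : ℝ) * b ^ 2) := Real.sqrt_le_sqrt h1
    _ = Real.sqrt d * b := by
      rw [Real.sqrt_mul (Nat.cast_nonneg d), Real.sqrt_sq hb]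

theorem cube_subset_window (hL : 0 < L) (m : ℕ) (k : Fin d → Fin (2 ^ m)) :
    cube a L m k ⊆ window a L := by
  intro y hy i
  obtain ⟨h1, h2⟩ := hy i
  have hs := dy_side_pos hL m
  have hk : ((k i : ℕ) : ℝ) + 1 ≤ 2 ^ m := by exact_mod_cast (k i).isLt
  have h3 : side L m * (((k i : ℕ) : ℝ) + 1) ≤ L :=
    (mul_le_mul_of_nonneg_left hk hs.le).trans_eq (side_mul_two_pow L m)
  have h4 : 0 ≤ side L m * ((k i : ℕ) : ℝ) := by positivity
  constructor <;> linarith

theorem cube_index_unique (hL : 0 < L) (m : ℕ) {k k' : Fin d → Fin (2 ^ m)} {y : E d}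
    (h : y ∈ cube a L m k) (h' : y ∈ cube a L m k') : k = k' := by
  funext i
  obtain ⟨h1, h2⟩ := h i
  obtain ⟨h3, h4⟩ := h' i
  have hs := dy_side_pos hL m
  have h5 : ((k i : ℕ) : ℝ) < ((k' i : ℕ) : ℝ) + 1 := lt_of_mul_lt_mul_left (by linarith) hs.le
  have h6 : ((k' i : ℕ) : ℝ) < ((k i : ℕ) : ℝ) + 1 := lt_of_mul_lt_mul_left (by linarith) hs.le
  have h7 : (k i : ℕ) < (k' i : ℕ) + 1 := by exact_mod_cast h5
  have h8 : (k' i : ℕ) < (k i : ℕ) + 1 := by exact_mod_cast h6
  exact Fin.ext (by omega)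

theorem exists_mem_cube (hL : 0 < L) (m : ℕ) {y : E d} (hy : y ∈ window a L) :
    ∃ k, y ∈ cube a L m k := by
  have hs := dy_side_pos hL m
  have h0 : ∀ i, 0 ≤ (y i - a i) / side L m := fun i =>
    div_nonneg (by linarith [(hy i).1]) hs.le
  have h : ∀ i, ⌊(y i - a i) / side L m⌋₊ < 2 ^ m := fun i => by
    rw [Nat.floor_lt (h0 i), div_lt_iff₀ hs]
    push_cast
    linarith [(hy i).2, side_mul_two_pow L m]
  refine ⟨fun i => ⟨_, h i⟩, fun i => ⟨?_, ?_⟩⟩
  · have := mul_le_mul_of_nonneg_left (Nat.floor_le (h0 i)) hs.le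
    rw [mul_div_cancel₀ _ hs.ne'] at this
    dsimp only
    linarith
  · have := mul_lt_mul_of_pos_left (Nat.lt_floor_add_one ((y i - a i) / side L m)) hs
    rw [mul_div_cancel₀ _ hs.ne'] at this
    dsimp only
    linarith

theorem mem_cube_parent (hL : 0 < L) (m : ℕ) {k : Fin d → Fin (2 ^ (m + 1))} {y : E d}
    (h : y ∈ cube a L (m + 1) k) : y ∈ cube a L m (parent k) := by
  intro i
  obtain ⟨h1, h2⟩ := h i
  rw [dy_side_succ] at h1 h2
  have hs := dy_side_pos hL m
  have hv : ((parent k i : Fin (2 ^ m)) : ℕ) = (k i : ℕ) / 2 := rfl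
  rw [hv]
  have h5 : 2 * (((k i : ℕ) / 2 : ℕ) : ℝ) ≤ ((k i : ℕ) : ℝ) := by
    exact_mod_cast (by omega : 2 * ((k i : ℕ) / 2) ≤ (k i : ℕ))
  have h6 : ((k i : ℕ) : ℝ) + 1 ≤ 2 * (((k i : ℕ) / 2 : ℕ) : ℝ) + 2 := by
    exact_mod_cast (by omega : (k i : ℕ) + 1 ≤ 2 * ((k i : ℕ) / 2) + 2)
  constructor <;> nlinarith [h1, h2, h5, h6, hs]

theorem measurableSet_cube (m : ℕ) (k : Fin d → Fin (2 ^ m)) :
    MeasurableSet (cube a L m k) := by
  simp only [cube, ofPred_forall]
  refine MeasurableSet.iInter fun i => ?_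
  have h : Measurable fun y : E d => y i := (PiLp.continuous_apply 2 _ i).measurable
  exact (measurableSet_le measurable_const h).inter (measurableSet_lt h measurable_const)

theorem measurableSet_window : MeasurableSet (window a L) := by
  simp only [window, ofPred_forall]
  refine MeasurableSet.iInter fun i => ?_
  have h : Measurable fun y : E d => y i := (PiLp.continuous_apply 2 _ i).measurable
  exact (measurableSet_le measurable_const h).inter (measurableSet_lt h measurable_const)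

theorem norm_sub_ctr_le (hL : 0 < L) (m : ℕ) (k : Fin d → Fin (2 ^ m)) {y : E d}
    (hy : y ∈ cube a L m k) : ‖y - ctr a L m k‖ ≤ Real.sqrt d * (side L m / 2) := by
  have hs := dy_side_pos hL m
  refine norm_le_sqrt_mul (by positivity) fun i => ?_
  obtain ⟨h1, h2⟩ := hy i
  simp only [ctr, PiLp.sub_apply]
  rw [abs_le]
  constructor <;> nlinarith

theorem dy_norm_ctr_sub_ctr_parent (hL : 0 < L) (m : ℕ) (k : Fin d → Fin (2 ^ (m + 1))) :
    ‖ctr a L (m + 1) k - ctr a L m (parent k)‖ ≤ Real.sqrt d * (side L m / 4) := by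
  have hs := dy_side_pos hL m
  refine norm_le_sqrt_mul (by positivity) fun i => ?_
  simp only [ctr, PiLp.sub_apply, dy_side_succ]
  have hv : ((parent k i : Fin (2 ^ m)) : ℕ) = (k i : ℕ) / 2 := rfl
  rw [hv]
  have h5 : 2 * (((k i : ℕ) / 2 : ℕ) : ℝ) ≤ ((k i : ℕ) : ℝ) := by
    exact_mod_cast (by omega : 2 * ((k i : ℕ) / 2) ≤ (k i : ℕ))
  have h6 : ((k i : ℕ) : ℝ) + 1 ≤ 2 * (((k i : ℕ) / 2 : ℕ) : ℝ) + 2 := by
    exact_mod_cast (by omega : (k i : ℕ) + 1 ≤ 2 * ((k i : ℕ) / 2) + 2)
  rw [abs_le]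
  constructor <;> nlinarith

theorem ctr_mem_cube (hL : 0 < L) (m : ℕ) (k : Fin d → Fin (2 ^ m)) :
    ctr a L m k ∈ cube a L m k := by
  intro i
  have hs := dy_side_pos hL m
  simp only [ctr]
  constructor <;> nlinarith

theorem sum_indicator_cube {F : Type*} [AddCommMonoid F] (hL : 0 < L) (m : ℕ)
    (v : (Fin d → Fin (2 ^ m)) → E d → F) {y : E d} {k : Fin d → Fin (2 ^ m)}
    (h : y ∈ cube a L m k) :
    ∑ j : Fin d → Fin (2 ^ m), (cube a L m j).indicator (v j) y = v k y := by
  rw [Finset.sum_eq_single k]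
  · exact indicator_of_mem h _
  · exact fun j _ hj => indicator_of_notMem (fun hm => hj (cube_index_unique hL m hm h)) _
  · exact fun hk => absurd (Finset.mem_univ k) hk

theorem sum_indicator_cube_notMem {F : Type*} [AddCommMonoid F] (hL : 0 < L) (m : ℕ)
    (v : (Fin d → Fin (2 ^ m)) → E d → F) {y : E d} (h : y ∉ window a L) :
    ∑ j : Fin d → Fin (2 ^ m), (cube a L m j).indicator (v j) y = 0 :=
  Finset.sum_eq_zero fun j _ => indicator_of_notMem (fun hm => h (cube_subset_window hL m j hm)) _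

theorem sum_setIntegral_cube (hL : 0 < L) (m : ℕ) {v : (Fin d → Fin (2 ^ m)) → E d → ℝ}
    (hv : ∀ j, IntegrableOn (v j) (window a L)) :
    ∑ k, ∫ y in cube a L m k, v k y = ∫ y, ∑ k, (cube a L m k).indicator (v k) y := by
  rw [integral_finsetSum _ fun k _ =>
    ((hv k).mono_set (cube_subset_window hL m k)).integrable_indicator (measurableSet_cube m k)]
  exact Finset.sum_congr rfl fun k _ => (integral_indicator (measurableSet_cube m k)).symm

/-- Each cube is the disjoint union of its children. -/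
theorem children_sum (hL : 0 < L) (m : ℕ) {v : (Fin d → Fin (2 ^ m)) → E d → ℝ}
    (hv : ∀ j, IntegrableOn (v j) (window a L)) :
    ∑ k : Fin d → Fin (2 ^ (m + 1)), ∫ y in cube a L (m + 1) k, v (parent k) y =
      ∑ j, ∫ y in cube a L m j, v j y := by
  rw [sum_setIntegral_cube hL (m + 1) fun k => hv (parent k), sum_setIntegral_cube hL m hv]
  refine integral_congr_ae (Eventually.of_forall fun y => ?_)
  by_cases hy : y ∈ window a L
  · obtain ⟨k, hk⟩ := exists_mem_cube hL (m + 1) hy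
    simp only [sum_indicator_cube hL (m + 1) (fun k => v (parent k)) hk,
      sum_indicator_cube hL m v (mem_cube_parent hL m hk)]
  · simp only [sum_indicator_cube_notMem hL (m + 1) (fun k => v (parent k)) hy,
      sum_indicator_cube_notMem hL m v hy]

/-! ### The defects -/

theorem defect_nonneg (he : ‖e‖ = 1) (m : ℕ) (k : Fin d → Fin (2 ^ m)) :
    0 ≤ defect u a L e m k := by
  have h := real_inner_le_norm e (cint u a L m k)
  rw [he, one_mul] at h
  unfold defect
  linarith

theorem lvl_nonneg (he : ‖e‖ = 1) (m : ℕ) : 0 ≤ lvl u a L e m :=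
  Finset.sum_nonneg fun k _ => defect_nonneg he m k

theorem dy_qdec_pos : 0 < qdec := Real.rpow_pos_of_pos (by norm_num) _

theorem qdec_lt_one : qdec < 1 :=
  Real.rpow_lt_one_of_one_lt_of_neg (by norm_num) (by norm_num)

theorem dy_qdec_pow_four : qdec ^ 4 = 1 / 2 := by
  unfold qdec
  rw [← Real.rpow_natCast, ← Real.rpow_mul (by norm_num : (0 : ℝ) ≤ 2)]
  norm_num [Real.rpow_neg_one]

theorem sum_norm_setIntegral_le (hu : Smooth u) (hL : 0 < L) (m : ℕ) :
    ∑ k : Fin d → Fin (2 ^ m), ∫ y in cube a L m k, ‖∇ u y‖ ≤ gnorm u := by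
  rw [sum_setIntegral_cube hL m (v := fun _ y => ‖∇ u y‖)
    fun _ => hu.integrable_grad.norm.integrableOn]
  refine integral_mono_of_nonneg
    (Eventually.of_forall fun y => Finset.sum_nonneg fun k _ =>
      indicator_nonneg (fun z _ => norm_nonneg _) y)
    hu.integrable_grad.norm (Eventually.of_forall fun y => ?_)
  by_cases hy : y ∈ window a L
  · obtain ⟨k, hk⟩ := exists_mem_cube hL m hy
    exact (sum_indicator_cube hL m (fun _ y => ‖∇ u y‖) hk).le
  · exact (sum_indicator_cube_notMem hL m (fun _ y => ‖∇ u y‖) hy).trans_le (norm_nonneg _)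

theorem lvl_le (hu : Smooth u) (he : ‖e‖ = 1) (hL : 0 < L) (m : ℕ) :
    lvl u a L e m ≤ 2 * gnorm u := by
  have h1 : ∀ k, defect u a L e m k ≤ 2 * ∫ y in cube a L m k, ‖∇ u y‖ := fun k => by
    have h3 := abs_real_inner_le_norm e (cint u a L m k)
    rw [he, one_mul, abs_le] at h3
    have h4 : ‖cint u a L m k‖ ≤ ∫ y in cube a L m k, ‖∇ u y‖ :=
      norm_integral_le_integral_norm _
    unfold defect
    linarith [h3.1]
  calc lvl u a L e m ≤ ∑ k, 2 * ∫ y in cube a L m k, ‖∇ u y‖ :=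
        Finset.sum_le_sum fun k _ => h1 k
    _ = 2 * ∑ k, ∫ y in cube a L m k, ‖∇ u y‖ := (Finset.mul_sum _ _ _).symm
    _ ≤ 2 * gnorm u := mul_le_mul_of_nonneg_left (sum_norm_setIntegral_le hu hL m) (by norm_num)

theorem summable_phi0 (hu : Smooth u) (he : ‖e‖ = 1) (hL : 0 < L) :
    Summable (fun m => qdec ^ m * lvl u a L e m) := by
  refine Summable.of_nonneg_of_le (fun m => mul_nonneg (pow_nonneg dy_qdec_pos.le m) (lvl_nonneg he m))
    (fun m => mul_le_mul_of_nonneg_left (lvl_le hu he hL m) (pow_nonneg dy_qdec_pos.le m)) ?_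
  exact (summable_geometric_of_lt_one dy_qdec_pos.le qdec_lt_one).mul_right _

theorem phi0_nonneg (he : ‖e‖ = 1) : 0 ≤ phi0 u a L e :=
  tsum_nonneg fun m => mul_nonneg (pow_nonneg dy_qdec_pos.le m) (lvl_nonneg he m)

/-- A uniform increment bound gives an error bound by phi0. -/
theorem errLE_of_inc_le {H : E d → ℝ} {C : ℝ} (hu : Smooth u) (he : ‖e‖ = 1) (hL : 0 < L)
    (hC : 0 ≤ C) (h : ∀ m k, inc H a L (Kc d) m k ≤ C * qdec ^ m) :
    ErrLE u H a L (Kc d) e (C * phi0 u a L e) := by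
  intro N
  calc ∑ m ∈ Finset.range N, ∑ k, inc H a L (Kc d) m k * defect u a L e m k
      ≤ ∑ m ∈ Finset.range N, C * (qdec ^ m * lvl u a L e m) := by
        refine Finset.sum_le_sum fun m _ => ?_
        rw [lvl, ← mul_assoc, Finset.mul_sum]
        exact Finset.sum_le_sum fun k _ =>
          mul_le_mul_of_nonneg_right (h m k) (defect_nonneg he m k)
    _ = C * ∑ m ∈ Finset.range N, qdec ^ m * lvl u a L e m := (Finset.mul_sum _ _ _).symm
    _ ≤ C * phi0 u a L e := mul_le_mul_of_nonneg_left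
        ((summable_phi0 hu he hL).sum_le_tsum _ fun m _ =>
          mul_nonneg (pow_nonneg dy_qdec_pos.le m) (lvl_nonneg he m)) hC

theorem errLE_nonneg {H : E d → ℝ} {K Berr : ℝ} (h : ErrLE u H a L K e Berr) : 0 ≤ Berr := by
  simpa using h 0

/-! ### The lower approximations -/

section Low

variable {H : E d → ℝ} {B : ℝ}

theorem Kern.B_nonneg (hH : Kern H a L B) : 0 ≤ B := (hH.nonneg a).trans (hH.le a)

theorem low_le_of_mem (hH : Kern H a L B) {K : ℝ} {m : ℕ} {k : Fin d → Fin (2 ^ m)} {y : E d}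
    (hy : y ∈ closedBall (ctr a L m k) (K * side L m)) : low H a L K m k ≤ H y :=
  csInf_le ⟨0, by rintro _ ⟨z, _, rfl⟩; exact hH.nonneg z⟩ ⟨y, hy, rfl⟩

theorem dy_ctr_mem_ball (hL : 0 < L) (m : ℕ) (k : Fin d → Fin (2 ^ m)) :
    ctr a L m k ∈ closedBall (ctr a L m k) (Kc d * side L m) :=
  mem_closedBall_self (mul_nonneg (by linarith [(Kc_ge d).2]) (dy_side_pos hL m).le)

theorem low_nonneg (hH : Kern H a L B) (K : ℝ) (m : ℕ) (k : Fin d → Fin (2 ^ m)) :
    0 ≤ low H a L K m k :=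
  Real.sInf_nonneg (by rintro _ ⟨z, _, rfl⟩; exact hH.nonneg z)

theorem dy_low_le (hL : 0 < L) (hH : Kern H a L B) (m : ℕ) (k : Fin d → Fin (2 ^ m)) :
    low H a L (Kc d) m k ≤ B :=
  (low_le_of_mem hH (dy_ctr_mem_ball hL m k)).trans (hH.le _)

theorem low_parent_le (hL : 0 < L) (hH : Kern H a L B) (m : ℕ) (k : Fin d → Fin (2 ^ (m + 1))) :
    low H a L (Kc d) m (parent k) ≤ low H a L (Kc d) (m + 1) k := by
  refine le_csInf ((nonempty_of_mem (dy_ctr_mem_ball hL (m + 1) k)).image H) ?_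
  rintro _ ⟨y, hy, rfl⟩
  refine low_le_of_mem hH ?_
  have h1 := dy_norm_ctr_sub_ctr_parent (a := a) hL m k
  rw [← dist_eq_norm] at h1
  rw [mem_closedBall] at hy ⊢
  have h2 := dist_triangle y (ctr a L (m + 1) k) (ctr a L m (parent k))
  rw [dy_side_succ] at hy
  have hs := dy_side_pos hL m
  nlinarith [(Kc_ge d).1, (Kc_ge d).2, Real.sqrt_nonneg (d : ℝ)]

theorem inc_nonneg {H : E d → ℝ} {B : ℝ} (hL : 0 < L) (hH : Kern H a L B) (m : ℕ)
    (k : Fin d → Fin (2 ^ m)) : 0 ≤ inc H a L (Kc d) m k := by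
  cases m with
  | zero => exact low_nonneg hH _ _ _
  | succ m => exact sub_nonneg.2 (low_parent_le hL hH m k)

theorem inc_le_low (hH : Kern H a L B) (K : ℝ) (m : ℕ) (k : Fin d → Fin (2 ^ m)) :
    inc H a L K m k ≤ low H a L K m k := by
  cases m with
  | zero => exact le_rfl
  | succ m => exact sub_le_self _ (low_nonneg hH _ _ _)

theorem inc_le (hL : 0 < L) (hH : Kern H a L B) (m : ℕ) (k : Fin d → Fin (2 ^ m)) :
    inc H a L (Kc d) m k ≤ B :=
  (inc_le_low hH _ m k).trans (dy_low_le hL hH m k)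

theorem pos_of_inc_pos (hH : Kern H a L B) {K : ℝ} {m : ℕ} {k : Fin d → Fin (2 ^ m)} {y : E d}
    (hy : y ∈ closedBall (ctr a L m k) (K * side L m)) (h : 0 < inc H a L K m k) : 0 < H y :=
  lt_of_lt_of_le h ((inc_le_low hH K m k).trans (low_le_of_mem hH hy))

theorem telescope (hL : 0 < L) {v : E d → ℝ} (hv : IntegrableOn v (window a L)) (K : ℝ) (N : ℕ) :
    ∑ m ∈ Finset.range (N + 1), ∑ k, inc H a L K m k * ∫ y in cube a L m k, v y =
      ∑ k, low H a L K N k * ∫ y in cube a L N k, v y := by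
  induction N with
  | zero => rw [Finset.sum_range_one]; rfl
  | succ N ih =>
    rw [Finset.sum_range_succ, ih]
    have h := children_sum (a := a) hL N (v := fun j y => low H a L K N j * v y)
      fun j => hv.const_mul _
    simp only [integral_const_mul] at h
    rw [← h, ← Finset.sum_add_distrib]
    refine Finset.sum_congr rfl fun k _ => ?_
    simp only [inc]
    ring

theorem tendsto_low_step (hL : 0 < L) (hH : Kern H a L B) {y : E d} (hy : ContinuousAt H y) :
    Tendsto (fun N => ∑ k, (cube a L N k).indicator (fun _ => low H a L (Kc d) N k) y) atTop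
      (𝓝 (H y)) := by
  by_cases hw : y ∈ window a L
  swap
  · have h0 : H y = 0 := by_contra fun h => hw (hH.supp y h)
    rw [h0]
    exact tendsto_const_nhds.congr fun N =>
      (sum_indicator_cube_notMem hL N (fun k _ => low H a L (Kc d) N k) hw).symm
  rw [Metric.tendsto_atTop]
  intro ε hε
  obtain ⟨δ, hδ, hball⟩ := Metric.continuousAt_iff.1 hy (ε / 2) (half_pos hε)
  have ht : Tendsto (fun N => (Real.sqrt d + Kc d) * side L N) atTop (𝓝 0) := by
    simpa using (tendsto_side L).const_mul (Real.sqrt d + Kc d)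
  obtain ⟨N₀, hN₀⟩ := eventually_atTop.1 (ht.eventually (eventually_lt_nhds hδ))
  refine ⟨N₀, fun N hN => ?_⟩
  obtain ⟨k, hk⟩ := exists_mem_cube hL N hw
  rw [sum_indicator_cube hL N (fun k _ => low H a L (Kc d) N k) hk, Real.dist_eq, abs_lt]
  have hs := dy_side_pos hL N
  have h1 := norm_sub_ctr_le hL N k hk
  rw [← dist_eq_norm] at h1
  have hKs : Real.sqrt d * side L N ≤ Kc d * side L N :=
    mul_le_mul_of_nonneg_right (by linarith [(Kc_ge d).1, Real.sqrt_nonneg (d : ℝ)]) hs.le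
  have hsd : 0 ≤ Real.sqrt d * side L N := by positivity
  have hin : y ∈ closedBall (ctr a L N k) (Kc d * side L N) := by
    rw [mem_closedBall]; nlinarith
  have hlo : H y - ε / 2 ≤ low H a L (Kc d) N k := by
    refine le_csInf ((nonempty_of_mem (dy_ctr_mem_ball hL N k)).image H) ?_
    rintro _ ⟨z, hz, rfl⟩
    rw [mem_closedBall] at hz
    have h2 := dist_triangle z (ctr a L N k) y
    rw [dist_comm (ctr a L N k) y] at h2
    have := hball (show dist z y < δ by nlinarith [hN₀ N hN])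
    rw [Real.dist_eq, abs_lt] at this
    linarith [this.1]
  constructor <;> linarith [low_le_of_mem hH hin]

/-- `∫ H v` is the sum of increment times integral of `v`. -/
theorem tendsto_incSum (hL : 0 < L) (hH : Kern H a L B) {v : E d → ℝ}
    (hv : IntegrableOn v (window a L)) :
    Tendsto (fun N => ∑ m ∈ Finset.range (N + 1), ∑ k,
      inc H a L (Kc d) m k * ∫ y in cube a L m k, v y) atTop (𝓝 (∫ y, H y * v y)) := by
  have hint : ∀ N (k : Fin d → Fin (2 ^ N)), Integrable
      ((cube a L N k).indicator fun y => low H a L (Kc d) N k * v y) := fun N k =>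
    (integrable_indicator_iff (measurableSet_cube N k)).2
      ((hv.mono_set (cube_subset_window hL N k)).const_mul _)
  have key : ∀ N, ∑ m ∈ Finset.range (N + 1), ∑ k,
      inc H a L (Kc d) m k * ∫ y in cube a L m k, v y =
      ∫ y, ∑ k, (cube a L N k).indicator (fun y => low H a L (Kc d) N k * v y) y := fun N => by
    rw [telescope hL hv, ← sum_setIntegral_cube hL N fun k => hv.const_mul _]
    exact Finset.sum_congr rfl fun k _ => (integral_const_mul _ _).symm
  simp only [key]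
  refine tendsto_integral_of_dominated_convergence
    (fun y => B * ‖(window a L).indicator v y‖)
    (fun N => (integrable_finsetSum _ fun k _ => hint N k).aestronglyMeasurable)
    ((hv.integrable_indicator measurableSet_window).norm.const_mul B) ?_ ?_
  · intro N
    refine Eventually.of_forall fun y => ?_
    by_cases hw : y ∈ window a L
    · obtain ⟨k, hk⟩ := exists_mem_cube hL N hw
      rw [sum_indicator_cube hL N (fun k y => low H a L (Kc d) N k * v y) hk,
        indicator_of_mem hw, norm_mul, Real.norm_of_nonneg (low_nonneg hH _ _ _)]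
      exact mul_le_mul_of_nonneg_right (dy_low_le hL hH N k) (norm_nonneg _)
    · rw [sum_indicator_cube_notMem hL N (fun k y => low H a L (Kc d) N k * v y) hw, norm_zero]
      exact mul_nonneg hH.B_nonneg (norm_nonneg _)
  · filter_upwards [hH.aecont] with y hy
    refine ((tendsto_low_step hL hH hy).mul_const (v y)).congr fun N => ?_
    rw [Finset.sum_mul]
    refine Finset.sum_congr rfl fun k _ => ?_
    by_cases hk : y ∈ cube a L N k
    · rw [indicator_of_mem hk, indicator_of_mem hk]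
    · rw [indicator_of_notMem hk, indicator_of_notMem hk, zero_mul]

end Low

/-! ### Scalar lower bound -/

theorem inner_cint (hu : Smooth u) (v : E d) (m : ℕ) (k : Fin d → Fin (2 ^ m)) :
    ∫ y in cube a L m k, ⟪v, ∇ u y⟫ = ⟪v, cint u a L m k⟫ :=
  integral_inner hu.integrable_grad.integrableOn v

theorem integrableOn_inner_dir (hu : Smooth u) (v : E d) (s : Set (E d)) :
    IntegrableOn (fun y => ⟪v, ∇ u y⟫) s :=
  (hu.integrable_grad.const_inner v).integrableOn

/-- The partial sums of `inc * ⟪e, I⟫` converge to `∫ H ⟪e, ∇ u⟫`. -/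
theorem tendsto_incSum_dir {H : E d → ℝ} {B : ℝ} (hu : Smooth u) (hL : 0 < L)
    (hH : Kern H a L B) (v : E d) :
    Tendsto (fun N => ∑ m ∈ Finset.range (N + 1), ∑ k,
      inc H a L (Kc d) m k * ⟪v, cint u a L m k⟫) atTop (𝓝 (∫ y, H y * ⟪v, ∇ u y⟫)) :=
  (tendsto_incSum hL hH (integrableOn_inner_dir hu v _)).congr fun N =>
    Finset.sum_congr rfl fun m _ => Finset.sum_congr rfl fun k _ => by rw [inner_cint hu]

theorem scalar_lower {H : E d → ℝ} {B Berr : ℝ} (hu : Smooth u) (he : ‖e‖ = 1) (hL : 0 < L)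
    (hH : Kern H a L B) (herr : ErrLE u H a L (Kc d) e Berr) :
    -Berr ≤ ∫ y, H y * ⟪e, ∇ u y⟫ := by
  have _ := he
  refine ge_of_tendsto' (tendsto_incSum_dir hu hL hH e) fun N => ?_
  refine le_trans (neg_le_neg (herr (N + 1))) ?_
  simp only [← Finset.sum_neg_distrib]
  refine Finset.sum_le_sum fun m _ => Finset.sum_le_sum fun k _ => ?_
  have h1 := inc_nonneg hL hH m k
  simp only [defect]
  nlinarith [norm_nonneg (cint u a L m k)]

/-! ### Moments -/

/-- First moment of `A ∇u` on a cube. -/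
def mom (A : E d →L[ℝ] E d) (u : E d → ℝ) (a : E d) (L : ℝ) (m : ℕ)
    (k : Fin d → Fin (2 ^ m)) : ℝ :=
  ∫ y in cube a L m k, ⟪A (∇ u y), y - ctr a L m k⟫

section Moment

variable {A : E d →L[ℝ] E d}

theorem integrableOn_bilin (hu : Smooth u) (hL : 0 < L) (A : E d →L[ℝ] E d) (p : E d) :
    IntegrableOn (fun y => ⟪A (∇ u y), y - p⟫) (window a L) := by
  have hAg : Integrable fun y => A (∇ u y) := A.integrable_comp hu.integrable_grad
  have hc : AEStronglyMeasurable (fun y : E d => y - p) volume :=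
    (continuous_id.sub continuous_const).aestronglyMeasurable
  refine Integrable.mono' ((hAg.norm.mul_const (‖a - p‖ + Real.sqrt d * L)).integrableOn)
    (hAg.aestronglyMeasurable.inner hc).restrict ?_
  filter_upwards [ae_restrict_mem measurableSet_window] with y hy
  have h1 : ‖y - a‖ ≤ Real.sqrt d * L := norm_le_sqrt_mul hL.le fun i => by
    simp only [PiLp.sub_apply, abs_le]
    constructor <;> linarith [(hy i).1, (hy i).2]
  have h2 : ‖y - p‖ ≤ ‖y - a‖ + ‖a - p‖ := norm_sub_le_norm_sub_add_norm_sub y a p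
  rw [Real.norm_eq_abs]
  exact (abs_real_inner_le_norm _ _).trans
    (mul_le_mul_of_nonneg_left (by linarith) (norm_nonneg _))

theorem inner_map_cint (hu : Smooth u) (A : E d →L[ℝ] E d) (v : E d) (m : ℕ)
    (k : Fin d → Fin (2 ^ m)) :
    ∫ y in cube a L m k, ⟪A (∇ u y), v⟫ = ⟪A (cint u a L m k), v⟫ := by
  have hAg : IntegrableOn (fun y => A (∇ u y)) (cube a L m k) :=
    (A.integrable_comp hu.integrable_grad).integrableOn
  rw [setIntegral_congr_fun (measurableSet_cube m k) (fun y _ => real_inner_comm v (A (∇ u y))),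
    integral_inner hAg v, A.integral_comp_comm hu.integrable_grad.integrableOn, real_inner_comm]
  rfl

theorem setIntegral_bilin (hu : Smooth u) (hL : 0 < L) (A : E d →L[ℝ] E d) (p : E d) (m : ℕ)
    (k : Fin d → Fin (2 ^ m)) :
    ∫ y in cube a L m k, ⟪A (∇ u y), y - p⟫ =
      ⟪A (cint u a L m k), ctr a L m k - p⟫ + mom A u a L m k := by
  have h1 : IntegrableOn (fun y => ⟪A (∇ u y), ctr a L m k - p⟫) (cube a L m k) :=
    ((A.integrable_comp hu.integrable_grad).inner_const _).integrableOn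
  have h2 : IntegrableOn (fun y => ⟪A (∇ u y), y - ctr a L m k⟫) (cube a L m k) :=
    (integrableOn_bilin hu hL A _).mono_set (cube_subset_window hL m k)
  rw [← inner_map_cint hu, mom, ← integral_add h1 h2]
  refine setIntegral_congr_fun (measurableSet_cube m k) fun y _ => ?_
  simp only [inner_sub_right]
  ring

theorem sum_weight_norm_cint (e : E d) (m : ℕ) (w : (Fin d → Fin (2 ^ m)) → ℝ) :
    ∑ k, w k * ‖cint u a L m k‖ =
      ∑ k, w k * ⟪e, cint u a L m k⟫ + ∑ k, w k * defect u a L e m k := by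
  rw [← Finset.sum_add_distrib]
  exact Finset.sum_congr rfl fun k _ => by simp only [defect]; ring

theorem mom_step (hu : Smooth u) (hL : 0 < L) (hA : ∀ v, ‖A v‖ ≤ ‖v‖) (m : ℕ)
    (w : (Fin d → Fin (2 ^ m)) → ℝ) (hw : ∀ k, 0 ≤ w k) :
    ∑ j, w j * |mom A u a L m j| ≤ ∑ k : Fin d → Fin (2 ^ (m + 1)), w (parent k) *
      (Real.sqrt d * (side L m / 4) * ‖cint u a L (m + 1) k‖ + |mom A u a L (m + 1) k|) := by
  have hex : ∀ j, ∃ s : ℝ, |s| ≤ w j ∧ w j * |mom A u a L m j| = s * mom A u a L m j := by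
    intro j
    rcases le_total 0 (mom A u a L m j) with h | h
    · exact ⟨w j, (abs_of_nonneg (hw j)).le, by rw [abs_of_nonneg h]⟩
    · exact ⟨-w j, by rw [abs_neg, abs_of_nonneg (hw j)], by rw [abs_of_nonpos h]; ring⟩
  choose s hs1 hs2 using hex
  have h := children_sum (a := a) hL m
    (v := fun j y => s j * ⟪A (∇ u y), y - ctr a L m j⟫)
    fun j => (integrableOn_bilin hu hL A _).const_mul _
  simp only [integral_const_mul, setIntegral_bilin hu hL] at h
  have hrhs : ∑ j, w j * |mom A u a L m j| =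
      ∑ j, s j * (⟪A (cint u a L m j), ctr a L m j - ctr a L m j⟫ + mom A u a L m j) :=
    Finset.sum_congr rfl fun j _ => by rw [hs2 j, sub_self, inner_zero_right, zero_add]
  rw [hrhs, ← h]
  refine Finset.sum_le_sum fun k _ => (le_abs_self _).trans ?_
  rw [abs_mul]
  refine mul_le_mul (hs1 _) ((abs_add_le _ _).trans (add_le_add ?_ le_rfl)) (abs_nonneg _) (hw _)
  rw [mul_comm _ ‖cint u a L (m + 1) k‖]
  exact (abs_real_inner_le_norm _ _).trans
    (mul_le_mul (hA _) (dy_norm_ctr_sub_ctr_parent hL m k) (norm_nonneg _) (norm_nonneg _))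

theorem mom_iterate (hu : Smooth u) (he : ‖e‖ = 1) (hL : 0 < L) (hA : ∀ v, ‖A v‖ ≤ ‖v‖) {B : ℝ}
    (n : ℕ) : ∀ (m : ℕ) (w : (Fin d → Fin (2 ^ m)) → ℝ), (∀ k, 0 ≤ w k) → (∀ k, w k ≤ B) →
    ∑ k, w k * |mom A u a L m k| ≤
      Real.sqrt d / 4 * ((∑ i ∈ Finset.range n, side L (m + i)) *
          (∑ k, w k * ⟪e, cint u a L m k⟫) +
        B * ∑ i ∈ Finset.range n, side L (m + i) * lvl u a L e (m + i + 1)) +
      B * (Real.sqrt d * side L (m + n)) * gnorm u := by
  induction n with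
  | zero =>
    intro m w hw hwB
    have hB : 0 ≤ B := (hw fun _ => 0).trans (hwB _)
    simp only [Finset.range_zero, Finset.sum_empty, zero_mul, mul_zero, add_zero, zero_add]
    have hs := dy_side_pos hL m
    calc ∑ k, w k * |mom A u a L m k|
        ≤ ∑ k, B * (Real.sqrt d * side L m) * ∫ y in cube a L m k, ‖∇ u y‖ := by
          refine Finset.sum_le_sum fun k _ => ?_
          rw [mul_assoc B]
          refine mul_le_mul (hwB k) ?_ (abs_nonneg _) hB
          rw [← integral_const_mul]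
          refine (abs_integral_le_integral_abs).trans
            (integral_mono_of_nonneg (Eventually.of_forall fun y => abs_nonneg _)
              (hu.integrable_grad.norm.const_mul _).integrableOn ?_)
          filter_upwards [ae_restrict_mem (measurableSet_cube m k)] with y hy
          rw [mul_comm]
          refine (abs_real_inner_le_norm _ _).trans
            (mul_le_mul (hA _) ((norm_sub_ctr_le hL m k hy).trans ?_) (norm_nonneg _)
              (norm_nonneg _))
          nlinarith [Real.sqrt_nonneg (d : ℝ)]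
      _ = B * (Real.sqrt d * side L m) * ∑ k, ∫ y in cube a L m k, ‖∇ u y‖ :=
          (Finset.mul_sum _ _ _).symm
      _ ≤ _ := mul_le_mul_of_nonneg_left (sum_norm_setIntegral_le hu hL m) (by positivity)
  | succ n ih =>
    intro m w hw hwB
    have hB : 0 ≤ B := (hw fun _ => 0).trans (hwB _)
    have hs := dy_side_pos hL m
    have hE : ∑ k : Fin d → Fin (2 ^ (m + 1)), w (parent k) * ⟪e, cint u a L (m + 1) k⟫ =
        ∑ j, w j * ⟪e, cint u a L m j⟫ := by
      have h := children_sum (a := a) hL m (v := fun j y => w j * ⟪e, ∇ u y⟫)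
        fun j => (integrableOn_inner_dir hu e _).const_mul _
      simpa only [integral_const_mul, inner_cint hu] using h
    have hA' : ∑ k : Fin d → Fin (2 ^ (m + 1)), w (parent k) * ‖cint u a L (m + 1) k‖ ≤
        (∑ j, w j * ⟪e, cint u a L m j⟫) + B * lvl u a L e (m + 1) := by
      rw [sum_weight_norm_cint e, hE, lvl, Finset.mul_sum]
      exact add_le_add le_rfl (Finset.sum_le_sum fun k _ =>
        mul_le_mul_of_nonneg_right (hwB _) (defect_nonneg he _ k))
    have h1 := mom_step (a := a) hu hL hA m w hw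
    simp only [mul_add, Finset.sum_add_distrib, ← mul_assoc] at h1
    have h2 : ∑ k : Fin d → Fin (2 ^ (m + 1)),
        w (parent k) * Real.sqrt d * (side L m / 4) * ‖cint u a L (m + 1) k‖ =
        Real.sqrt d / 4 * side L m *
          ∑ k : Fin d → Fin (2 ^ (m + 1)), w (parent k) * ‖cint u a L (m + 1) k‖ := by
      rw [Finset.mul_sum]
      exact Finset.sum_congr rfl fun k _ => by ring
    rw [h2] at h1
    have h3 := ih (m + 1) (fun k => w (parent k)) (fun k => hw _) (fun k => hwB _)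
    rw [hE] at h3
    have h4 := mul_le_mul_of_nonneg_left hA' (show 0 ≤ Real.sqrt d / 4 * side L m by positivity)
    have i1 : ∀ i, m + (i + 1) = m + 1 + i := fun i => by omega
    have e1 : ∑ i ∈ Finset.range (n + 1), side L (m + i) =
        side L m + ∑ i ∈ Finset.range n, side L (m + 1 + i) := by
      rw [Finset.sum_range_succ', add_comm]
      exact congrArg₂ (· + ·) rfl (Finset.sum_congr rfl fun i _ => by rw [i1 i])
    have e2 : ∑ i ∈ Finset.range (n + 1), side L (m + i) * lvl u a L e (m + i + 1) =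
        side L m * lvl u a L e (m + 1) +
          ∑ i ∈ Finset.range n, side L (m + 1 + i) * lvl u a L e (m + 1 + i + 1) := by
      rw [Finset.sum_range_succ', add_comm]
      exact congrArg₂ (· + ·) rfl (Finset.sum_congr rfl fun i _ => by rw [i1 i])
    rw [e1, e2, show m + (n + 1) = m + 1 + n from i1 n]
    linarith

theorem side_mul_lvl_le (he : ‖e‖ = 1) (hL : 0 < L) (m i : ℕ) :
    side L (m + i) * lvl u a L e (m + i + 1) ≤
      2 * L * qdec ^ (3 * m) * (qdec ^ (m + i + 1) * lvl u a L e (m + i + 1)) := by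
  rw [← mul_assoc]
  refine mul_le_mul_of_nonneg_right ?_ (lvl_nonneg he _)
  have h1 : side L (m + i) = 2 * L * qdec ^ (4 * (m + i + 1)) := by
    rw [pow_mul, dy_qdec_pow_four]
    unfold side
    rw [div_pow, one_pow, pow_succ]
    field_simp
  rw [h1, mul_assoc (2 * L), ← pow_add]
  exact mul_le_mul_of_nonneg_left
    (pow_le_pow_of_le_one dy_qdec_pos.le qdec_lt_one.le (by omega)) (by positivity)

theorem mom_weight_le (hu : Smooth u) (he : ‖e‖ = 1) (hL : 0 < L) (hA : ∀ v, ‖A v‖ ≤ ‖v‖) {B : ℝ}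
    (m : ℕ) (w : (Fin d → Fin (2 ^ m)) → ℝ) (hw : ∀ k, 0 ≤ w k) (hwB : ∀ k, w k ≤ B) :
    ∑ k, w k * |mom A u a L m k| ≤
      Real.sqrt d / 2 * (side L m * ∑ k, w k * ‖cint u a L m k‖) +
        Real.sqrt d / 2 * (B * (L * (qdec ^ (3 * m) * phi0 u a L e))) := by
  have hB : 0 ≤ B := (hw fun _ => 0).trans (hwB _)
  have hs := dy_side_pos hL m
  set S := ∑ k, w k * ‖cint u a L m k‖ with hS
  have hS0 : 0 ≤ S := Finset.sum_nonneg fun k _ => mul_nonneg (hw k) (norm_nonneg _)
  have hlim : Tendsto (fun n => Real.sqrt d / 2 * (side L m * S) +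
      Real.sqrt d / 2 * (B * (L * (qdec ^ (3 * m) * phi0 u a L e))) +
      B * (Real.sqrt d * side L (m + n)) * gnorm u) atTop
      (𝓝 (Real.sqrt d / 2 * (side L m * S) +
        Real.sqrt d / 2 * (B * (L * (qdec ^ (3 * m) * phi0 u a L e))))) := by
    have h := ((((tendsto_side L).comp (tendsto_add_atTop_nat m)).const_mul
      (Real.sqrt d)).const_mul B).mul_const (gnorm u)
    have h' := h.const_add (Real.sqrt d / 2 * (side L m * S) +
      Real.sqrt d / 2 * (B * (L * (qdec ^ (3 * m) * phi0 u a L e))))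
    simp only [mul_zero, zero_mul, add_zero, Function.comp_apply] at h'
    exact h'.congr fun n => by rw [add_comm m n]
  refine ge_of_tendsto' hlim fun n => (mom_iterate hu he hL hA n m w hw hwB).trans ?_
  have hsum : ∀ n, ∑ i ∈ Finset.range n, side L (m + i) = 2 * side L m - 2 * side L (m + n) := by
    intro n
    induction n with
    | zero => simp
    | succ n ih => rw [Finset.sum_range_succ, ih, ← add_assoc, dy_side_succ]; ring
  have hE : ∑ k, w k * ⟪e, cint u a L m k⟫ ≤ S := by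
    rw [hS, sum_weight_norm_cint e]
    exact le_add_of_nonneg_right
      (Finset.sum_nonneg fun k _ => mul_nonneg (hw k) (defect_nonneg he m k))
  have h0 : 0 ≤ ∑ i ∈ Finset.range n, side L (m + i) :=
    Finset.sum_nonneg fun i _ => (dy_side_pos hL _).le
  have h1 : (∑ i ∈ Finset.range n, side L (m + i)) * (∑ k, w k * ⟪e, cint u a L m k⟫) ≤
      2 * side L m * S := by
    refine (mul_le_mul_of_nonneg_left hE h0).trans (mul_le_mul_of_nonneg_right ?_ hS0)
    rw [hsum n]
    linarith [dy_side_pos hL (m + n)]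
  have h2 : ∑ i ∈ Finset.range n, side L (m + i) * lvl u a L e (m + i + 1) ≤
      2 * L * (qdec ^ (3 * m) * phi0 u a L e) := by
    refine (Finset.sum_le_sum fun i _ => side_mul_lvl_le he hL m i).trans ?_
    rw [← Finset.mul_sum, ← mul_assoc (2 * L)]
    refine mul_le_mul_of_nonneg_left ?_
      (mul_nonneg (by positivity) (pow_nonneg dy_qdec_pos.le _))
    refine le_trans (le_of_eq ?_) ((summable_phi0 hu he hL).sum_le_tsum
      ((Finset.range n).image fun i => m + i + 1) fun j _ =>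
      mul_nonneg (pow_nonneg dy_qdec_pos.le j) (lvl_nonneg he j))
    rw [Finset.sum_image fun x _ y _ h => by simpa using h]
  have hd0 := Real.sqrt_nonneg (d : ℝ)
  have h3 := mul_le_mul_of_nonneg_left (add_le_add h1 (mul_le_mul_of_nonneg_left h2 hB))
    (show 0 ≤ Real.sqrt d / 4 by positivity)
  linarith

/-- The constant which absorbs the moment errors of all generations. -/
def momC (d : ℕ) : ℝ := Real.sqrt d / 2 * (1 - qdec ^ 3)⁻¹

theorem momC_nonneg (d : ℕ) : 0 ≤ momC d :=
  mul_nonneg (by positivity)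
    (inv_nonneg.2 (sub_nonneg.2 (pow_le_one₀ dy_qdec_pos.le qdec_lt_one.le)))

theorem sum_phi0_err_le (he : ‖e‖ = 1) (hL : 0 < L) {B : ℝ} (hB : 0 ≤ B) (N : ℕ) :
    ∑ m ∈ Finset.range N,
        Real.sqrt d / 2 * (B * (L * (qdec ^ (3 * m) * phi0 u a L e))) ≤
      momC d * L * (B * phi0 u a L e) := by
  have hq0 : (0 : ℝ) ≤ qdec ^ 3 := pow_nonneg dy_qdec_pos.le 3
  have hq1 : qdec ^ 3 < 1 := pow_lt_one₀ dy_qdec_pos.le qdec_lt_one (by norm_num)
  have h : ∑ m ∈ Finset.range N, (qdec ^ 3) ^ m ≤ (1 - qdec ^ 3)⁻¹ := by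
    rw [← tsum_geometric_of_lt_one hq0 hq1]
    exact (summable_geometric_of_lt_one hq0 hq1).sum_le_tsum _ fun m _ => pow_nonneg hq0 m
  have h0 : 0 ≤ Real.sqrt d / 2 * L * (B * phi0 u a L e) :=
    mul_nonneg (by positivity) (mul_nonneg hB (phi0_nonneg he))
  have h2 := mul_le_mul_of_nonneg_left h h0
  rw [Finset.mul_sum] at h2
  calc ∑ m ∈ Finset.range N, Real.sqrt d / 2 * (B * (L * (qdec ^ (3 * m) * phi0 u a L e)))
      = ∑ m ∈ Finset.range N, Real.sqrt d / 2 * L * (B * phi0 u a L e) * (qdec ^ 3) ^ m :=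
        Finset.sum_congr rfl fun m _ => by rw [← pow_mul]; ring
    _ ≤ _ := h2
    _ = momC d * L * (B * phi0 u a L e) := by unfold momC; ring

theorem mom_inc_le (hu : Smooth u) (he : ‖e‖ = 1) (hL : 0 < L) (hA : ∀ v, ‖A v‖ ≤ ‖v‖)
    {H : E d → ℝ} {B : ℝ} (hH : Kern H a L B) (N : ℕ) :
    ∑ m ∈ Finset.range N, ∑ k, inc H a L (Kc d) m k * |mom A u a L m k| ≤
      (∑ m ∈ Finset.range N, ∑ k, inc H a L (Kc d) m k *
        (Real.sqrt d / 2 * side L m * ‖cint u a L m k‖)) + momC d * L * (B * phi0 u a L e) := by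
  refine (Finset.sum_le_sum fun m _ => mom_weight_le hu he hL hA m _
    (fun k => inc_nonneg hL hH m k) (fun k => inc_le hL hH m k)).trans ?_
  rw [Finset.sum_add_distrib]
  refine add_le_add (le_of_eq ?_) (sum_phi0_err_le he hL hH.B_nonneg N)
  refine Finset.sum_congr rfl fun m _ => ?_
  rw [← mul_assoc, Finset.mul_sum]
  exact Finset.sum_congr rfl fun k _ => by ring

end Moment

/-! ### Bounds for first moments against a kernel -/

theorem vector_upper (d : ℕ) : ∃ C, 0 ≤ C ∧ ∀ (u : E d → ℝ) (a e p : E d) (L B Berr D : ℝ)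
    (H : E d → ℝ), Smooth u → ‖e‖ = 1 → 0 < L → Kern H a L B →
    ErrLE u H a L (Kc d) e Berr → 0 ≤ D → (∀ y ∈ window a L, ‖y - p‖ ≤ D) →
    |∫ y, H y * ⟪∇ u y, y - p⟫| ≤
      C * (L + D) * ((∫ y, H y * ⟪e, ∇ u y⟫) + Berr + B * phi0 u a L e) := by
  refine ⟨1 + Real.sqrt d / 2 + momC d,
    add_nonneg (by positivity) (momC_nonneg d), fun u a e p L B Berr D H hu he hL hH herr hD hp => ?_⟩
  have hlim1 := tendsto_incSum hL hH
    (integrableOn_bilin (a := a) hu hL (ContinuousLinearMap.id ℝ (E d)) p)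
  simp only [ContinuousLinearMap.id_apply] at hlim1
  have hlim2 := ((((tendsto_incSum_dir hu hL hH e).add_const Berr).add_const
    (B * phi0 u a L e)).const_mul ((1 + Real.sqrt d / 2 + momC d) * (L + D)))
  refine le_of_tendsto_of_tendsto' hlim1.abs hlim2 fun N => ?_
  have hBphi : 0 ≤ B * phi0 u a L e := mul_nonneg hH.B_nonneg (phi0_nonneg he)
  have hmom := mom_inc_le (A := ContinuousLinearMap.id ℝ (E d)) hu he hL (fun v => le_rfl) hH (N + 1)
  set T := ∑ m ∈ Finset.range (N + 1), ∑ k, inc H a L (Kc d) m k * ‖cint u a L m k‖ with hT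
  have hT1 : T ≤ (∑ m ∈ Finset.range (N + 1), ∑ k,
      inc H a L (Kc d) m k * ⟪e, cint u a L m k⟫) + Berr := by
    rw [hT, Finset.sum_congr rfl fun m _ => sum_weight_norm_cint e m (inc H a L (Kc d) m),
      Finset.sum_add_distrib]
    exact add_le_add le_rfl (herr (N + 1))
  have hT0 : 0 ≤ T := Finset.sum_nonneg fun m _ => Finset.sum_nonneg fun k _ =>
    mul_nonneg (inc_nonneg hL hH m k) (norm_nonneg _)
  have hmain : |∑ m ∈ Finset.range (N + 1), ∑ k,
      inc H a L (Kc d) m k * ∫ y in cube a L m k, ⟪∇ u y, y - p⟫| ≤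
      (D + Real.sqrt d / 2 * L) * T + momC d * L * (B * phi0 u a L e) := by
    have hsd : ∑ m ∈ Finset.range (N + 1), ∑ k, inc H a L (Kc d) m k *
        (Real.sqrt d / 2 * side L m * ‖cint u a L m k‖) ≤ Real.sqrt d / 2 * L * T := by
      rw [hT, Finset.mul_sum]
      refine Finset.sum_le_sum fun m _ => ?_
      rw [Finset.mul_sum]
      refine Finset.sum_le_sum fun k _ => ?_
      rw [mul_left_comm]
      exact mul_le_mul_of_nonneg_right (mul_le_mul_of_nonneg_left (side_le hL m) (by positivity))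
        (mul_nonneg (inc_nonneg hL hH m k) (norm_nonneg _))
    calc _ ≤ ∑ m ∈ Finset.range (N + 1), ∑ k, inc H a L (Kc d) m k *
          (D * ‖cint u a L m k‖ + |mom (ContinuousLinearMap.id ℝ (E d)) u a L m k|) := by
          refine (Finset.abs_sum_le_sum_abs _ _).trans (Finset.sum_le_sum fun m _ =>
            (Finset.abs_sum_le_sum_abs _ _).trans (Finset.sum_le_sum fun k _ => ?_))
          rw [abs_mul, abs_of_nonneg (inc_nonneg hL hH m k)]
          refine mul_le_mul_of_nonneg_left ?_ (inc_nonneg hL hH m k)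
          have h := setIntegral_bilin (a := a) hu hL (ContinuousLinearMap.id ℝ (E d)) p m k
          simp only [ContinuousLinearMap.id_apply] at h
          rw [h]
          refine (abs_add_le _ _).trans (add_le_add ((abs_real_inner_le_norm _ _).trans ?_) le_rfl)
          rw [mul_comm D]
          exact mul_le_mul_of_nonneg_left (hp _ (cube_subset_window hL m k (ctr_mem_cube hL m k)))
            (norm_nonneg _)
      _ ≤ D * T + (∑ m ∈ Finset.range (N + 1), ∑ k, inc H a L (Kc d) m k *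
          |mom (ContinuousLinearMap.id ℝ (E d)) u a L m k|) := by
          rw [hT, Finset.mul_sum, ← Finset.sum_add_distrib]
          refine Finset.sum_le_sum fun m _ => ?_
          rw [Finset.mul_sum, ← Finset.sum_add_distrib]
          exact Finset.sum_le_sum fun k _ => (by ring_nf; exact le_rfl)
      _ ≤ _ := by linarith
  refine hmain.trans ?_
  have hd0 := Real.sqrt_nonneg (d : ℝ)
  have hM := momC_nonneg d
  have k1 : D + Real.sqrt d / 2 * L ≤ (1 + Real.sqrt d / 2 + momC d) * (L + D) := by nlinarith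
  have k2 : momC d * L ≤ (1 + Real.sqrt d / 2 + momC d) * (L + D) := by nlinarith
  have k3 : 0 ≤ (1 + Real.sqrt d / 2 + momC d) * (L + D) := by positivity
  nlinarith [mul_le_mul k1 hT1 hT0 k3, mul_le_mul_of_nonneg_right k2 hBphi]

/-- The estimate on one cube in step 1(C). -/
theorem cube_lower (he : ‖e‖ = 1) {v I : E d} {l Cp : ℝ} (hl : 0 ≤ l) (hCp : 0 ≤ Cp)
    (hh : 8 * (Real.sqrt d * l) ≤ ⟪e, v⟫) (hpar : ‖v‖ ^ 2 ≤ Cp * ⟪e, v⟫) :
    1 / 2 * (⟪e, v⟫ * ⟪e, I⟫) + 3 / 4 * (Real.sqrt d * l * ‖I‖) - 3 * Cp * (‖I‖ - ⟪e, I⟫) ≤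
      ⟪I, v⟫ := by
  have hdl : 0 ≤ Real.sqrt d * l := by positivity
  set h := ⟪e, v⟫ with hh'
  have hh0 : 0 ≤ h := by linarith
  have hIe : ⟪e, I⟫ ≤ ‖I‖ := by
    have := real_inner_le_norm e I
    rwa [he, one_mul] at this
  have hIe' : -‖I‖ ≤ ⟪e, I⟫ := by
    have := (abs_le.1 (abs_real_inner_le_norm e I)).1
    rwa [he, one_mul] at this
  set x := ‖I‖ - ⟪e, I⟫ with hx
  have hx0 : 0 ≤ x := by linarith
  have hn := norm_nonneg I
  have hCph : h ≤ Cp := by
    rcases eq_or_lt_of_le hh0 with h1 | h1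
    · linarith
    · have h2 : h ≤ ‖v‖ := by
        have := real_inner_le_norm e v
        rwa [he, one_mul] at this
      nlinarith [norm_nonneg v]
  have hdec : ⟪I, v⟫ = h * ⟪e, I⟫ + ⟪I - ⟪e, I⟫ • e, v⟫ := by
    rw [inner_sub_left, real_inner_smul_left, hh']
    ring
  have hperp : ‖I - ⟪e, I⟫ • e‖ ^ 2 ≤ 2 * ‖I‖ * x := by
    rw [norm_sub_sq_real, norm_smul, he, mul_one, real_inner_smul_right, real_inner_comm I e,
      Real.norm_eq_abs, sq_abs, hx]
    nlinarith [real_inner_comm I e, sq_nonneg (‖I‖ - ⟪e, I⟫)]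
  set P := ⟪I - ⟪e, I⟫ • e, v⟫ with hP
  have hP2 : P ^ 2 ≤ 2 * Cp * h * ‖I‖ * x := by
    have h1 := abs_real_inner_le_norm (I - ⟪e, I⟫ • e) v
    rw [← hP] at h1
    have h2 : P ^ 2 ≤ ‖I - ⟪e, I⟫ • e‖ ^ 2 * ‖v‖ ^ 2 := by
      rw [← mul_pow, ← sq_abs P]
      exact pow_le_pow_left₀ (abs_nonneg _) h1 2
    have h3 := mul_le_mul hperp hpar (sq_nonneg _) (by positivity)
    linarith
  have hPlow : -(h * ‖I‖ / 4 + 2 * Cp * x) ≤ P := by
    have hs : P ^ 2 ≤ (h * ‖I‖ / 4 + 2 * Cp * x) ^ 2 := by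
      nlinarith [sq_nonneg (h * ‖I‖ / 4 - 2 * Cp * x)]
    exact (abs_le.1 (abs_le_of_sq_le_sq hs (by positivity))).1
  have hb : 8 * (Real.sqrt d * l * ‖I‖) ≤ h * ‖I‖ := by nlinarith
  nlinarith [mul_le_mul_of_nonneg_right hCph hx0, mul_nonneg hCp hx0]

/-- Step 1(C). `Cp` is the paraboloid constant. -/
theorem vector_lower (d : ℕ) : ∃ C, 0 ≤ C ∧ ∀ (u : E d → ℝ) (a e p : E d) (L B Berr Cp : ℝ)
    (H : E d → ℝ), Smooth u → ‖e‖ = 1 → 0 < L → Kern H a L B →
    ErrLE u H a L (Kc d) e Berr → 0 ≤ Cp →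
    (∀ y, 0 < H y → 0 < ⟪e, y - p⟫ ∧ ‖y - p‖ ^ 2 ≤ Cp * ⟪e, y - p⟫) →
    (1 / 2) * (∫ y, H y * (⟪e, y - p⟫ * ⟪e, ∇ u y⟫)) - C * (1 + Cp + L) * (Berr + B * phi0 u a L e)
      ≤ ∫ y, H y * ⟪∇ u y, y - p⟫ := by
  refine ⟨3 + 2 * momC d, by linarith [momC_nonneg d],
    fun u a e p L B Berr Cp H hu he hL hH herr hCp hpar => ?_⟩
  set P : E d →L[ℝ] E d := (innerSL ℝ e).smulRight e with hP
  have hPap : ∀ g, P g = ⟪e, g⟫ • e := fun g => rfl
  have hPn : ∀ g, ‖P g‖ ≤ ‖g‖ := fun g => by
    rw [hPap, norm_smul, he, mul_one, Real.norm_eq_abs]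
    exact (abs_real_inner_le_norm _ _).trans_eq (by rw [he, one_mul])
  have hPi : ∀ g w : E d, ⟪P g, w⟫ = ⟪e, w⟫ * ⟪e, g⟫ := fun g w => by
    rw [hPap, real_inner_smul_left, mul_comm]
  have hlim1 := tendsto_incSum hL hH
    (integrableOn_bilin (a := a) hu hL (ContinuousLinearMap.id ℝ (E d)) p)
  simp only [ContinuousLinearMap.id_apply] at hlim1
  have hlim2 := tendsto_incSum hL hH (integrableOn_bilin (a := a) hu hL P p)
  simp only [hPi] at hlim2
  refine le_of_tendsto_of_tendsto'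
    ((hlim2.const_mul (1 / 2)).sub_const
      ((3 + 2 * momC d) * (1 + Cp + L) * (Berr + B * phi0 u a L e))) hlim1 fun N => ?_
  have hBphi : 0 ≤ B * phi0 u a L e := mul_nonneg hH.B_nonneg (phi0_nonneg he)
  have hB0 := errLE_nonneg herr
  have hM := momC_nonneg d
  set R := Finset.range (N + 1)
  have hstep : ∀ m k, inc H a L (Kc d) m k *
      ((1 / 2) * (∫ y in cube a L m k, ⟪e, y - p⟫ * ⟪e, ∇ u y⟫)) +
      inc H a L (Kc d) m k * (3 / 2 * (Real.sqrt d / 2 * side L m * ‖cint u a L m k‖)) -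
      3 * Cp * (inc H a L (Kc d) m k * defect u a L e m k) -
      inc H a L (Kc d) m k * |mom (ContinuousLinearMap.id ℝ (E d)) u a L m k| -
      1 / 2 * (inc H a L (Kc d) m k * |mom P u a L m k|) ≤
      inc H a L (Kc d) m k * ∫ y in cube a L m k, ⟪∇ u y, y - p⟫ := by
    intro m k
    rcases eq_or_lt_of_le (inc_nonneg hL hH m k) with h0 | h0
    · rw [← h0]; simp
    have h1 := setIntegral_bilin (a := a) hu hL (ContinuousLinearMap.id ℝ (E d)) p m k
    simp only [ContinuousLinearMap.id_apply] at h1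
    have h2 := setIntegral_bilin (a := a) hu hL P p m k
    simp only [hPi] at h2
    have hs := dy_side_pos hL m
    set c := ctr a L m k
    have hcen := hpar c (pos_of_inc_pos hH (dy_ctr_mem_ball hL m k) h0)
    have hlow : c - (Kc d * side L m) • e ∈ closedBall c (Kc d * side L m) := by
      rw [mem_closedBall, dist_eq_norm, sub_sub_cancel_left, norm_neg, norm_smul, he, mul_one,
        Real.norm_of_nonneg (mul_nonneg (by linarith [(Kc_ge d).2]) hs.le)]
    have hK := (hpar _ (pos_of_inc_pos hH hlow h0)).1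
    rw [show c - (Kc d * side L m) • e - p = (c - p) - (Kc d * side L m) • e by abel,
      inner_sub_right, real_inner_smul_right, real_inner_self_eq_norm_sq, he] at hK
    have hh : 8 * (Real.sqrt d * side L m) ≤ ⟪e, c - p⟫ := by nlinarith [(Kc_ge d).1]
    have hc := cube_lower (I := cint u a L m k) he hs.le hCp hh hcen.2
    have hm1 := (abs_le.1 (le_refl |mom (ContinuousLinearMap.id ℝ (E d)) u a L m k|)).1
    have hm2 := le_abs_self (mom P u a L m k)
    have key : (1 / 2) * (∫ y in cube a L m k, ⟪e, y - p⟫ * ⟪e, ∇ u y⟫) +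
        3 / 2 * (Real.sqrt d / 2 * side L m * ‖cint u a L m k‖) -
        3 * Cp * defect u a L e m k - |mom (ContinuousLinearMap.id ℝ (E d)) u a L m k| -
        1 / 2 * |mom P u a L m k| ≤ ∫ y in cube a L m k, ⟪∇ u y, y - p⟫ := by
      rw [h1, h2, defect]
      linarith
    calc _ = inc H a L (Kc d) m k * ((1 / 2) * (∫ y in cube a L m k, ⟪e, y - p⟫ * ⟪e, ∇ u y⟫) +
          3 / 2 * (Real.sqrt d / 2 * side L m * ‖cint u a L m k‖) -
          3 * Cp * defect u a L e m k - |mom (ContinuousLinearMap.id ℝ (E d)) u a L m k| -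
          1 / 2 * |mom P u a L m k|) := by ring
      _ ≤ _ := mul_le_mul_of_nonneg_left key h0.le
  have hsum := Finset.sum_le_sum fun m (_ : m ∈ R) => Finset.sum_le_sum
    fun k (_ : k ∈ (Finset.univ : Finset (Fin d → Fin (2 ^ m)))) => hstep m k
  simp only [Finset.sum_add_distrib, Finset.sum_sub_distrib, ← Finset.mul_sum,
    mul_left_comm (inc H a L (Kc d) _ _) (1 / 2 : ℝ),
    mul_left_comm (inc H a L (Kc d) _ _) (3 / 2 : ℝ)] at hsum
  have hm1 := mom_inc_le (A := ContinuousLinearMap.id ℝ (E d)) hu he hL (fun v => le_rfl) hH (N + 1)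
  have hm2 := mom_inc_le (A := P) hu he hL hPn hH (N + 1)
  have he1 := mul_le_mul_of_nonneg_left (herr (N + 1)) (by linarith : 0 ≤ 3 * Cp)
  have k1 : 3 * Cp ≤ (3 + 2 * momC d) * (1 + Cp + L) := by nlinarith
  have k2 : 3 / 2 * (momC d * L) ≤ (3 + 2 * momC d) * (1 + Cp + L) := by nlinarith
  nlinarith [mul_le_mul_of_nonneg_right k1 hB0, mul_le_mul_of_nonneg_right k2 hBphi]

end

end Vale.Agent.P137.Unc
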