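import Vale.Agent.P137.Unc.Limit

/-!
# P137, uncentred operator: nesting and covering properties of the shifted grids
-/

open MeasureTheory Metric Set Filter
open scoped ENNReal RealInnerProductSpace

namespace Vale.Agent.P137.Unc

noncomputable section

variable {d : ℕ}

/-- The corner of a grid cube. -/
def gcorner (s : Fin d → Fin 3) (n : ℤ) (k : Fin d → ℤ) : E d :=
  WithLp.toLp 2 fun i => (2 : ℝ) ^ n * ((k i : ℝ) + (-1 : ℝ) ^ n * ((s i : ℕ) : ℝ) / 3)

theorem gcube_eq_window (s : Fin d → Fin 3) (n : ℤ) (k : Fin d → ℤ) :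
    gcube s n k = window (gcorner s n k) ((2 : ℝ) ^ n) := rfl

lemma grid_neg_one_zpow (n : ℤ) : ∃ σ : ℤ, (σ = 1 ∨ σ = -1) ∧ ((σ : ℝ) = (-1 : ℝ) ^ n) := by
  rcases Int.even_or_odd n with h | h
  · exact ⟨1, Or.inl rfl, by simp [h.neg_one_zpow]⟩
  · exact ⟨-1, Or.inr rfl, by simp [h.neg_one_zpow]⟩

theorem scale_window_exists (hd : 1 ≤ d) (c : E d) (n : ℤ) :
    ∃ s k, ball c (Rwin d * (2 : ℝ) ^ n) ⊆ gcube s (n + (Nat.clog 2 (8000 * d) : ℕ)) k := by
  set N : ℤ := n + (Nat.clog 2 (8000 * d) : ℕ) with hN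
  set S : ℝ := (2 : ℝ) ^ N
  set ρ : ℝ := Rwin d * (2 : ℝ) ^ n
  have hS : 0 < S := zpow_pos two_pos N
  have hρ : 8 * ρ ≤ S := by
    have h1 : (8000 * d : ℕ) ≤ 2 ^ Nat.clog 2 (8000 * d) := Nat.le_pow_clog (by norm_num) _
    have h2 : (8000 : ℝ) * d ≤ 2 ^ Nat.clog 2 (8000 * d) := by exact_mod_cast h1
    have h3 : S = (2 : ℝ) ^ n * 2 ^ Nat.clog 2 (8000 * d) := by
      simp only [S, hN, zpow_add₀ (two_ne_zero (α := ℝ)), zpow_natCast]
    have h4 : (0 : ℝ) < 2 ^ n := zpow_pos two_pos n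
    rw [h3]
    simp only [ρ, Rwin]
    nlinarith [mul_le_mul_of_nonneg_left h2 h4.le]
  have hd' : (1 : ℝ) ≤ d := by exact_mod_cast hd
  have hρ0 : 0 < ρ := mul_pos (by rw [Rwin]; linarith) (zpow_pos two_pos n)
  obtain ⟨σ, hσ, hσN⟩ := grid_neg_one_zpow N
  let m : Fin d → ℤ := fun i => ⌊3 * (c i - ρ) / S⌋
  have hmod : ∀ i, ((σ * m i) % 3).toNat < 3 := fun i => by omega
  refine ⟨fun i => ⟨_, hmod i⟩, fun i => σ * ((σ * m i) / 3), fun y hy i => ?_⟩
  rw [mem_ball, dist_eq_norm] at hy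
  have hy' : |y i - c i| < ρ := by
    refine lt_of_le_of_lt ?_ hy
    simpa [Real.norm_eq_abs] using PiLp.norm_apply_le (y - c) i
  obtain ⟨hy1, hy2⟩ := abs_lt.1 hy'
  have hcast : ((((σ * m i) % 3).toNat : ℕ) : ℝ) = (((σ * m i) % 3 : ℤ) : ℝ) := by
    rw [← Int.cast_natCast, Int.toNat_of_nonneg (Int.emod_nonneg _ (by norm_num))]
  have hkey : ((σ * ((σ * m i) / 3) : ℤ) : ℝ) + (σ : ℝ) * (((σ * m i) % 3 : ℤ) : ℝ) / 3
      = (m i : ℝ) / 3 := by
    have h1 : ((3 : ℤ) * ((σ * m i) / 3) + (σ * m i) % 3 : ℤ) = σ * m i :=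
      Int.mul_ediv_add_emod _ _
    have h2 : (3 : ℝ) * (((σ * m i) / 3 : ℤ) : ℝ) + (((σ * m i) % 3 : ℤ) : ℝ)
        = (σ : ℝ) * (m i : ℝ) := by exact_mod_cast h1
    have hσ2 : (σ : ℝ) * (σ : ℝ) = 1 := by rcases hσ with h | h <;> simp [h]
    push_cast
    linear_combination (σ : ℝ) / 3 * h2 + (m i : ℝ) / 3 * hσ2
  show (2 : ℝ) ^ N * (((σ * ((σ * m i) / 3) : ℤ) : ℝ) +
      (-1 : ℝ) ^ N * ((((σ * m i) % 3).toNat : ℕ) : ℝ) / 3) ≤ y i ∧
    y i < (2 : ℝ) ^ N * (((σ * ((σ * m i) / 3) : ℤ) : ℝ) +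
      (-1 : ℝ) ^ N * ((((σ * m i) % 3).toNat : ℕ) : ℝ) / 3) + (2 : ℝ) ^ N
  rw [← hσN, hcast, hkey]
  have hm1 := Int.floor_le (3 * (c i - ρ) / S)
  have hm2 := Int.lt_floor_add_one (3 * (c i - ρ) / S)
  rw [le_div_iff₀ hS] at hm1
  rw [div_lt_iff₀ hS] at hm2
  show S * ((m i : ℝ) / 3) ≤ y i ∧ y i < S * ((m i : ℝ) / 3) + S
  constructor <;> linarith

/-- The shift between a cube of level `N` and the cubes of level `N - m`. -/
lemma grid_shift (m : ℕ) (N : ℤ) : ∃ t : ℤ,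
    (2 : ℝ) ^ m * (-1 : ℝ) ^ N = 3 * (t : ℝ) + (-1 : ℝ) ^ (N - m) := by
  obtain ⟨σ, -, hσ⟩ := grid_neg_one_zpow (N - m)
  obtain ⟨q, hq⟩ : (3 : ℤ) ∣ (-2) ^ m - 1 := by
    simpa using (show (3 : ℤ) ∣ -2 - 1 by norm_num).trans (sub_dvd_pow_sub_pow (-2 : ℤ) 1 m)
  refine ⟨σ * q, ?_⟩
  have hq' : ((-2 : ℝ)) ^ m - 1 = 3 * (q : ℝ) := by exact_mod_cast congrArg (Int.cast : ℤ → ℝ) hq
  have h2 : (-1 : ℝ) ^ N = (-1 : ℝ) ^ (N - m) * (-1) ^ m := by
    rw [← zpow_natCast, ← zpow_add₀ (by norm_num : (-1 : ℝ) ≠ 0), sub_add_cancel]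
  push_cast
  rw [h2, hσ]
  have h3 : (2 : ℝ) ^ m * (-1) ^ m = (-2) ^ m := by rw [← mul_pow]; norm_num
  linear_combination (-1 : ℝ) ^ (N - m) * h3 + (-1 : ℝ) ^ (N - m) * hq'

theorem scale_children (g : E d → E d) (hg : Integrable g) (s : Fin d → Fin 3) (N : ℤ) (m : ℕ) :
    ∑' k, ∑ j : Fin d → Fin (2 ^ m),
        ‖∫ y in cube (gcorner s N k) ((2 : ℝ) ^ N) m j, g y‖ₑ = gridE g s (N - m) := by
  have _ := hg
  obtain ⟨t, ht⟩ := grid_shift m N
  have : NeZero (2 ^ m) := ⟨pow_ne_zero _ two_ne_zero⟩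
  let e : (Fin d → ℤ) × (Fin d → Fin (2 ^ m)) ≃ (Fin d → ℤ) :=
    ((Equiv.arrowProdEquivProdArrow _ _ _).symm.trans
      (Equiv.piCongrRight fun _ => (Int.divModEquiv (2 ^ m)).symm)).trans
      (Equiv.piCongrRight fun i => Equiv.addRight (t * ((s i : ℕ) : ℤ)))
  have he : ∀ k j, cube (gcorner s N k) ((2 : ℝ) ^ N) m j = gcube s (N - m) (e (k, j)) := by
    intro k j
    have hside : side ((2 : ℝ) ^ N) m = (2 : ℝ) ^ (N - m) := by
      rw [side, zpow_sub₀ (two_ne_zero (α := ℝ)), zpow_natCast]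
    have hpow : (2 : ℝ) ^ N = (2 : ℝ) ^ (N - m) * 2 ^ m := by
      rw [← zpow_natCast, ← zpow_add₀ (two_ne_zero (α := ℝ)), sub_add_cancel]
    ext y
    refine forall_congr' fun i => ?_
    have hE : ((e (k, j) i : ℤ) : ℝ) =
        ((j i : ℕ) : ℝ) + (k i : ℝ) * 2 ^ m + (t : ℝ) * ((s i : ℕ) : ℝ) := by
      simp [e, Equiv.piCongrRight, Equiv.arrowProdEquivProdArrow, Int.divModEquiv]
      ring
    have hcorner : gcorner s N k i + side ((2 : ℝ) ^ N) m * ((j i : ℕ) : ℝ) =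
        gcorner s (N - m) (e (k, j)) i := by
      show (2 : ℝ) ^ N * ((k i : ℝ) + (-1 : ℝ) ^ N * ((s i : ℕ) : ℝ) / 3) + _ =
        (2 : ℝ) ^ (N - m) * ((e (k, j) i : ℝ) + (-1 : ℝ) ^ (N - m) * ((s i : ℕ) : ℝ) / 3)
      rw [hside, hE, hpow]
      linear_combination ((2 : ℝ) ^ (N - m) * ((s i : ℕ) : ℝ) / 3) * ht
    show _ ↔ gcorner s (N - m) (e (k, j)) i ≤ y i ∧
      y i < gcorner s (N - m) (e (k, j)) i + (2 : ℝ) ^ (N - m)
    rw [← hcorner, ← hside]
    constructor <;> rintro ⟨h1, h2⟩ <;> constructor <;> linarith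
  simp only [he]
  rw [gridE, ← e.tsum_eq (fun k => ‖∫ y in gcube s (N - m) k, g y‖ₑ), ENNReal.tsum_prod']
  exact tsum_congr fun k => (tsum_fintype _).symm

lemma grid_integral_children {g : E d → E d} (hg : Integrable g) (a : E d) (L : ℝ) (hL : 0 < L)
    (m : ℕ) : ‖∫ y in window a L, g y‖ₑ ≤
      ∑ j : Fin d → Fin (2 ^ m), ‖∫ y in cube a L m j, g y‖ₑ := by
  have hs : 0 < side L m := by rw [side]; positivity
  have hm : ∀ j : Fin d → Fin (2 ^ m), MeasurableSet (cube a L m j) := fun j => by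
    have : cube a L m j = window (WithLp.toLp 2 fun i => a i + side L m * ((j i : ℕ) : ℝ))
        (side L m) := by
      ext y
      refine forall_congr' fun i => ?_
      show _ ↔ a i + side L m * ((j i : ℕ) : ℝ) ≤ y i ∧
        y i < a i + side L m * ((j i : ℕ) : ℝ) + side L m
      constructor <;> rintro ⟨h1, h2⟩ <;> constructor <;> linarith
    rw [this]; exact measurableSet_window
  have hLm : side L m * 2 ^ m = L := by
    rw [side, div_mul_cancel₀]; positivity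
  have hcast : ∀ j : Fin (2 ^ m), ((j : ℕ) : ℝ) + 1 ≤ 2 ^ m := fun j => by
    have := j.isLt
    exact_mod_cast this
  have hu : window a L = ⋃ j : Fin d → Fin (2 ^ m), cube a L m j := by
    ext y
    rw [mem_iUnion]
    constructor
    · intro hy
      have h0 : ∀ i, 0 ≤ (y i - a i) / side L m := fun i => div_nonneg (by linarith [(hy i).1]) hs.le
      have hlt : ∀ i, ⌊(y i - a i) / side L m⌋₊ < 2 ^ m := fun i => by
        rw [Nat.floor_lt (h0 i), div_lt_iff₀ hs]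
        push_cast
        linarith [(hy i).2]
      refine ⟨fun i => ⟨_, hlt i⟩, fun i => ?_⟩
      have h1 := Nat.floor_le (h0 i)
      have h2 := Nat.lt_floor_add_one ((y i - a i) / side L m)
      rw [le_div_iff₀ hs] at h1
      rw [div_lt_iff₀ hs] at h2
      constructor <;> linarith
    · rintro ⟨j, hj⟩ i
      obtain ⟨h1, h2⟩ := hj i
      have h3 := mul_le_mul_of_nonneg_left (hcast (j i)) hs.le
      have h4 := mul_nonneg hs.le (Nat.cast_nonneg (α := ℝ) (j i : ℕ))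
      constructor <;> linarith
  have hdisj : Pairwise (Function.onFun Disjoint fun j => cube a L m j) := fun j j' hne =>
    Set.disjoint_left.2 fun y h h' => hne (funext fun i => Fin.ext (by
      obtain ⟨h1, h2⟩ := h i
      obtain ⟨h3, h4⟩ := h' i
      by_contra hij
      rcases Nat.lt_or_gt_of_ne hij with hlt | hlt
      · have h5 : ((j i : ℕ) : ℝ) + 1 ≤ ((j' i : ℕ) : ℝ) := by exact_mod_cast hlt
        nlinarith
      · have h5 : ((j' i : ℕ) : ℝ) + 1 ≤ ((j i : ℕ) : ℝ) := by exact_mod_cast hlt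
        nlinarith))
  rw [hu, integral_iUnion_fintype hm hdisj fun j => hg.integrableOn]
  exact enorm_sum_le _ _

lemma grid_mono {g : E d → E d} (hg : Integrable g) (s : Fin d → Fin 3) (N : ℤ) (m : ℕ) :
    gridE g s N ≤ gridE g s (N - m) := by
  rw [← scale_children g hg s N m]
  exact ENNReal.tsum_le_tsum fun k =>
    grid_integral_children hg (gcorner s N k) _ (zpow_pos two_pos N) m

lemma gridE_le_lintegral (g : E d → E d) (s : Fin d → Fin 3) (n : ℤ) :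
    gridE g s n ≤ ∫⁻ y, ‖g y‖ₑ := by
  rw [← tsum_setLIntegral_gcube s n fun y => ‖g y‖ₑ]
  exact ENNReal.tsum_le_tsum fun k => enorm_integral_le_lintegral_enorm _

lemma grid_telescope_sum {a : ℕ → ℝ≥0∞} (ha : Monotone a) (M : ℕ) :
    ∑ i ∈ Finset.range M, (a (i + 1) - a i) = a M - a 0 := by
  induction M with
  | zero => simp
  | succ M ih =>
    rw [Finset.sum_range_succ, ih, add_comm,
      tsub_add_tsub_cancel (ha (Nat.le_succ M)) (ha (Nat.zero_le M))]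

theorem scale_telescope (g : E d → E d) (hg : Integrable g) (s : Fin d → Fin 3) (m : ℕ) (N : ℤ) :
    ∑' i : ℕ, (gridE g s (N - i - m) - gridE g s (N - i)) ≤
      m * ((∫⁻ y, ‖g y‖ₑ) - gridE g s N) := by
  set a : ℕ → ℝ≥0∞ := fun i => gridE g s (N - i) with ha_def
  have ha : Monotone a := monotone_nat_of_le_succ fun i => by
    have h := grid_mono hg s (N - i) 1
    simp only [ha_def]
    rw [show (N - ((i + 1 : ℕ) : ℤ)) = N - i - ((1 : ℕ) : ℤ) by push_cast; ring]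
    exact h
  have hT : ∀ i, a i ≤ ∫⁻ y, ‖g y‖ₑ := fun i => gridE_le_lintegral g s _
  have e : ∀ i : ℕ, gridE g s (N - i - m) - gridE g s (N - i) = a (i + m) - a i := fun i => by
    simp only [ha_def]
    rw [show (N - ((i + m : ℕ) : ℤ)) = N - i - m by push_cast; ring]
  simp only [e]
  refine ENNReal.summable.tsum_le_of_sum_range_le fun M => ?_
  have h1 : ∀ i, a (i + m) - a i = ∑ l ∈ Finset.range m, (a (i + l + 1) - a (i + l)) := fun i => by
    have h := grid_telescope_sum (a := fun l => a (i + l)) (fun _ _ h => ha (by omega)) m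
    simp only [add_zero] at h
    rw [← h]
    exact Finset.sum_congr rfl fun l _ => by rw [← add_assoc]
  simp only [h1]
  rw [Finset.sum_comm]
  have h0 : a 0 = gridE g s N := by simp [ha_def]
  calc ∑ l ∈ Finset.range m, ∑ i ∈ Finset.range M, (a (i + l + 1) - a (i + l))
      ≤ ∑ l ∈ Finset.range m, ((∫⁻ y, ‖g y‖ₑ) - a 0) := Finset.sum_le_sum fun l _ => by
        have h := grid_telescope_sum (a := fun i => a (i + l)) (fun _ _ h => ha (by omega)) M
        simp only [zero_add] at h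
        calc ∑ i ∈ Finset.range M, (a (i + l + 1) - a (i + l))
            = ∑ i ∈ Finset.range M, (a (i + 1 + l) - a (i + l)) :=
              Finset.sum_congr rfl fun i _ => by rw [add_right_comm]
          _ = a (M + l) - a l := h
          _ ≤ _ := tsub_le_tsub (hT _) (ha (Nat.zero_le l))
    _ = _ := by rw [Finset.sum_const, Finset.card_range, nsmul_eq_mul, h0]

end

end Vale.Agent.P137.Unc
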