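import Vale.Agent.P137.Unc.Defs

/-!
# P137, uncentred operator: averaging the weight over vertical shifts
-/

open MeasureTheory Metric Set
open scoped ENNReal RealInnerProductSpace

namespace Vale.Agent.P137.Unc

noncomputable section

variable {d : ℕ}

lemma measurable_lat (e : E d) : Measurable (fun v : E d => lat e v) := by
  unfold lat
  fun_prop

lemma measurable_wgtT (e : E d) (l : ℝ) : Measurable (fun v : E d => wgtT e l v) := by
  unfold wgtT
  have h1 : Measurable (fun v : E d => Real.sqrt |⟪e, v⟫|) :=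
    (continuous_abs.comp (continuous_const.inner continuous_id)).sqrt.measurable
  have h2 : Measurable (fun v : E d => ‖lat e v‖) := (measurable_lat e).norm
  exact measurable_const.min ((measurable_const.div h1.ennreal_ofReal).min
    (measurable_const.div h2.ennreal_ofReal))

lemma inner_lat {e : E d} (he : ‖e‖ = 1) (v : E d) : ⟪e, lat e v⟫ = 0 := by
  simp [lat, inner_sub_right, inner_smul_right, he]

lemma lat_sub_smul {e : E d} (he : ‖e‖ = 1) (v : E d) (t : ℝ) : lat e (v - t • e) = lat e v := by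
  simp only [lat, inner_sub_right, inner_smul_right, real_inner_self_eq_norm_sq, he, one_pow,
    mul_one, sub_smul]
  abel

lemma lat_add (e u v : E d) : lat e (u + v) = lat e u + lat e v := by
  simp only [lat, inner_add_right, add_smul]
  abel

lemma norm_sq_lat {e : E d} (he : ‖e‖ = 1) (v : E d) :
    ‖lat e v‖ ^ 2 = ‖v‖ ^ 2 - ⟪e, v⟫ ^ 2 := by
  rw [lat, norm_sub_sq_real, inner_smul_right, real_inner_comm v e, norm_smul, he,
    Real.norm_eq_abs, mul_one, sq_abs]
  ring

/-- `∫` over `|s| ≤ T` of `|s|^(-1/2)`. -/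
lemma lintegral_inv_sqrt_abs {T : ℝ} (hT : 0 < T) :
    ∫⁻ s in Icc (-T) T, (ENNReal.ofReal (Real.sqrt |s|))⁻¹ ≤ ENNReal.ofReal (4 * Real.sqrt T) := by
  have hpos : ∫⁻ s in Ioc 0 T, (ENNReal.ofReal (Real.sqrt |s|))⁻¹
      = ENNReal.ofReal (2 * Real.sqrt T) := by
    have hint : IntervalIntegrable (fun s : ℝ => s ^ (-(1 / 2) : ℝ)) volume 0 T :=
      intervalIntegral.intervalIntegrable_rpow' (by norm_num)
    have h1 : ∫⁻ s in Ioc 0 T, (ENNReal.ofReal (Real.sqrt |s|))⁻¹
        = ∫⁻ s in Ioc 0 T, ENNReal.ofReal (s ^ (-(1 / 2) : ℝ)) := by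
      refine setLIntegral_congr_fun measurableSet_Ioc fun s hs => ?_
      rw [abs_of_pos hs.1, ← ENNReal.ofReal_inv_of_pos (Real.sqrt_pos.2 hs.1),
        Real.sqrt_eq_rpow, ← Real.rpow_neg hs.1.le]
    rw [h1, ← ofReal_integral_eq_lintegral_ofReal hint.1
      ((ae_restrict_iff' measurableSet_Ioc).2 (.of_forall fun s hs => Real.rpow_nonneg hs.1.le _)),
      ← intervalIntegral.integral_of_le hT.le, integral_rpow (Or.inl (by norm_num))]
    congr 1
    rw [Real.sqrt_eq_rpow, show (-(1 / 2) : ℝ) + 1 = 1 / 2 by norm_num,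
      Real.zero_rpow (by norm_num)]
    ring
  have hneg : ∫⁻ s in Ico (-T) 0, (ENNReal.ofReal (Real.sqrt |s|))⁻¹
      = ∫⁻ s in Ioc 0 T, (ENNReal.ofReal (Real.sqrt |s|))⁻¹ := by
    have := (Measure.measurePreserving_neg (volume : Measure ℝ)).setLIntegral_comp_preimage
      (measurableSet_Ico (a := -T) (b := 0))
      (f := fun s => (ENNReal.ofReal (Real.sqrt |s|))⁻¹) (by fun_prop)
    rw [← this]
    have he : (Neg.neg ⁻¹' Ico (-T) (0 : ℝ)) = Ioc 0 T := by
      ext s; simp [and_comm]
    rw [he]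
    exact setLIntegral_congr_fun measurableSet_Ioc fun s _ => by simp
  have hzero : ∫⁻ s in ({0} : Set ℝ), (ENNReal.ofReal (Real.sqrt |s|))⁻¹ = 0 :=
    setLIntegral_measure_zero _ _ (measure_singleton _)
  calc ∫⁻ s in Icc (-T) T, (ENNReal.ofReal (Real.sqrt |s|))⁻¹
      ≤ ∫⁻ s in (Ico (-T) 0 ∪ {0}) ∪ Ioc 0 T, (ENNReal.ofReal (Real.sqrt |s|))⁻¹ := by
        refine lintegral_mono_set fun s hs => ?_
        rcases lt_trichotomy s 0 with h | h | h
        · exact Or.inl (Or.inl ⟨hs.1, h⟩)
        · exact Or.inl (Or.inr h)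
        · exact Or.inr ⟨h, hs.2⟩
    _ ≤ _ := by
        refine (lintegral_union_le _ _ _).trans ?_
        refine (add_le_add_left (lintegral_union_le _ _ _) _).trans ?_
        rw [hneg, hzero, add_zero, hpos, ← ENNReal.ofReal_add (by positivity) (by positivity)]
        exact ENNReal.ofReal_le_ofReal (by linarith)

/-- A translate of `|s|^(-1/2)` integrates over an interval of length `T` to at most `5 √T`. -/
lemma lintegral_inv_sqrt_shift {T : ℝ} (hT : 0 < T) (h : ℝ) :
    ∫⁻ t in Icc 0 T, (ENNReal.ofReal (Real.sqrt |h - t|))⁻¹ ≤ ENNReal.ofReal (5 * Real.sqrt T) := by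
  set G : ℝ → ℝ≥0∞ := fun s => (Icc (-T) T).indicator
    (fun s => (ENNReal.ofReal (Real.sqrt |s|))⁻¹) s with hG
  have hGm : Measurable G := Measurable.indicator (by fun_prop) measurableSet_Icc
  have hle : ∀ t, (ENNReal.ofReal (Real.sqrt |h - t|))⁻¹
      ≤ G (h - t) + (ENNReal.ofReal (Real.sqrt T))⁻¹ := fun t => by
    by_cases hc : h - t ∈ Icc (-T) T
    · simp [hG, indicator_of_mem hc]
    · refine le_add_left (ENNReal.inv_le_inv.2 (ENNReal.ofReal_le_ofReal (Real.sqrt_le_sqrt ?_)))
      by_contra hcon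
      exact hc ⟨by linarith [neg_abs_le (h - t)], by linarith [le_abs_self (h - t)]⟩
  calc ∫⁻ t in Icc 0 T, (ENNReal.ofReal (Real.sqrt |h - t|))⁻¹
      ≤ ∫⁻ t in Icc 0 T, (G (h - t) + (ENNReal.ofReal (Real.sqrt T))⁻¹) :=
        lintegral_mono fun t => hle t
    _ ≤ ENNReal.ofReal (4 * Real.sqrt T) + ENNReal.ofReal (Real.sqrt T) := by
        rw [lintegral_add_right _ measurable_const, setLIntegral_const, Real.volume_Icc, sub_zero]
        refine add_le_add ?_ ?_
        · refine (setLIntegral_le_lintegral _ _).trans ?_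
          rw [(Measure.measurePreserving_sub_left (volume : Measure ℝ) h).lintegral_comp hGm,
            hG, lintegral_indicator measurableSet_Icc]
          exact lintegral_inv_sqrt_abs hT
        · rw [← ENNReal.ofReal_inv_of_pos (Real.sqrt_pos.2 hT),
            ← ENNReal.ofReal_mul (by positivity)]
          refine ENNReal.ofReal_le_ofReal (le_of_eq ?_)
          field_simp
          exact (Real.sq_sqrt hT.le).symm
    _ = _ := by
        rw [← ENNReal.ofReal_add (by positivity) (by positivity)]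
        congr 1; ring

/-- Mean over shifts of the weight, forgetting the lateral part. -/
lemma lintegral_wgtT_le {e : E d} (he : ‖e‖ = 1) {T : ℝ} (hT : 0 < T) (l : ℝ) (v : E d) :
    ∫⁻ t in Icc 0 T, wgtT e l (v - t • e) ≤
      ENNReal.ofReal (5 * Real.sqrt l * Real.sqrt T) := by
  have hi : ∀ t, ⟪e, v - t • e⟫ = ⟪e, v⟫ - t := fun t => by
    simp [inner_sub_right, inner_smul_right, he]
  calc ∫⁻ t in Icc 0 T, wgtT e l (v - t • e)
      ≤ ∫⁻ t in Icc 0 T, ENNReal.ofReal (Real.sqrt l) *
          (ENNReal.ofReal (Real.sqrt |⟪e, v⟫ - t|))⁻¹ := by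
        refine lintegral_mono fun t => ?_
        rw [← hi t, ← div_eq_mul_inv]
        exact (min_le_right _ _).trans (min_le_left _ _)
    _ ≤ ENNReal.ofReal (Real.sqrt l) * ENNReal.ofReal (5 * Real.sqrt T) := by
        rw [lintegral_const_mul' _ _ ENNReal.ofReal_ne_top]
        exact mul_le_mul le_rfl (lintegral_inv_sqrt_shift hT _) zero_le zero_le
    _ = _ := by
        rw [← ENNReal.ofReal_mul (Real.sqrt_nonneg l)]
        congr 1; ring

/-- The mean over shifts of the weight is at most the weight seen from the line through `x`. -/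
lemma lintegral_wgtT_le_wgtX {e : E d} (he : ‖e‖ = 1) {T K : ℝ} (hT : 0 < T) (hK : 1 ≤ K) {l : ℝ}
    (hl : 0 < l) {v w : E d} (hw : ‖lat e w‖ ≤ K * Real.sqrt T) :
    ∫⁻ t in Icc 0 T, wgtT e l (v - t • e) ≤
      ENNReal.ofReal (12 * K * T) * wgtX e l (v + w) := by
  set ρ := ‖lat e (v + w)‖ with hρ
  set D := ‖lat e v‖ with hD
  have hρD : ρ ≤ D + K * Real.sqrt T := by
    rw [hρ, lat_add]
    exact (norm_add_le _ _).trans (by linarith)
  have hsl : 0 < Real.sqrt l := Real.sqrt_pos.2 hl
  have hsT : 0 < Real.sqrt T := Real.sqrt_pos.2 hT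
  by_cases hc : ρ ≤ Real.sqrt l
  · have hone : wgtX e l (v + w) = 1 := by
      refine min_eq_left ?_
      rw [← hρ]
      rcases (norm_nonneg (lat e (v + w))).lt_or_eq with hp | hp
      · rw [ENNReal.le_div_iff_mul_le (Or.inl (by
          simpa using Real.sqrt_pos.2 (hρ ▸ hp))) (Or.inl ENNReal.ofReal_ne_top), one_mul]
        exact ENNReal.ofReal_le_ofReal (Real.sqrt_le_sqrt hc)
      · rw [hρ, ← hp, Real.sqrt_zero, ENNReal.ofReal_zero,
          ENNReal.div_zero (by simpa using Real.sqrt_pos.2 hsl)]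
        exact le_top
    rw [hone, mul_one]
    calc ∫⁻ t in Icc 0 T, wgtT e l (v - t • e) ≤ ∫⁻ _t in Icc 0 T, (1 : ℝ≥0∞) :=
          lintegral_mono fun t => min_le_left _ _
      _ ≤ ENNReal.ofReal (12 * K * T) := by
          rw [setLIntegral_const, one_mul, Real.volume_Icc, sub_zero]
          exact ENNReal.ofReal_le_ofReal (by nlinarith)
  · push Not at hc
    have hρ0 : 0 < ρ := hsl.trans hc
    -- the target weight dominates `√l / ρ`
    have htarget : ENNReal.ofReal (Real.sqrt l / ρ) ≤ wgtX e l (v + w) := by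
      have hq : Real.sqrt l / ρ ≤ 1 := (div_le_one hρ0).2 hc.le
      refine le_min (by simpa using ENNReal.ofReal_le_ofReal hq) ?_
      rw [← hρ, ← ENNReal.ofReal_div_of_pos (Real.sqrt_pos.2 hρ0),
        ← Real.sqrt_div' _ hρ0.le]
      exact ENNReal.ofReal_le_ofReal (Real.le_sqrt_of_sq_le (by
        nlinarith [div_nonneg (Real.sqrt_nonneg l) hρ0.le]))
    refine le_trans ?_ (mul_le_mul le_rfl htarget zero_le zero_le)
    rw [← ENNReal.ofReal_mul (by positivity)]
    by_cases hD2 : ρ / 2 ≤ D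
    · have hD0 : 0 < D := by linarith
      calc ∫⁻ t in Icc 0 T, wgtT e l (v - t • e)
          ≤ ∫⁻ _t in Icc 0 T, ENNReal.ofReal (Real.sqrt l / D) := by
            refine lintegral_mono fun t => ?_
            rw [ENNReal.ofReal_div_of_pos hD0]
            refine ((min_le_right _ _).trans (min_le_right _ _)).trans (le_of_eq ?_)
            rw [lat_sub_smul he]
        _ = ENNReal.ofReal (Real.sqrt l / D * T) := by
            rw [setLIntegral_const, Real.volume_Icc, sub_zero, ← ENNReal.ofReal_mul (by positivity)]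
        _ ≤ _ := by
            refine ENNReal.ofReal_le_ofReal ?_
            have h2 : Real.sqrt l / D ≤ 2 * (Real.sqrt l / ρ) := by
              rw [mul_div, div_le_div_iff₀ hD0 hρ0]
              nlinarith
            calc Real.sqrt l / D * T ≤ 2 * (Real.sqrt l / ρ) * T :=
                  mul_le_mul_of_nonneg_right h2 hT.le
              _ = 2 * T * (Real.sqrt l / ρ) := by ring
              _ ≤ 12 * K * T * (Real.sqrt l / ρ) :=
                  mul_le_mul_of_nonneg_right (by nlinarith) (by positivity)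
    · push Not at hD2
      refine (lintegral_wgtT_le he hT l v).trans (ENNReal.ofReal_le_ofReal ?_)
      rw [mul_div, le_div_iff₀ hρ0]
      have h3 : ρ ≤ 2 * (K * Real.sqrt T) := by linarith
      calc 5 * Real.sqrt l * Real.sqrt T * ρ
          ≤ 5 * Real.sqrt l * Real.sqrt T * (2 * (K * Real.sqrt T)) :=
            mul_le_mul_of_nonneg_left h3 (by positivity)
        _ = 10 * K * T * Real.sqrt l := by
            linear_combination (10 * K * Real.sqrt l) * Real.mul_self_sqrt hT.le
        _ ≤ _ := mul_le_mul_of_nonneg_right (by nlinarith) (Real.sqrt_nonneg l)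

end

end Vale.Agent.P137.Unc
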