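import Mathlib

/-!
# P137, uncentred operator: definitions

Shared definitions for the proof of the endpoint gradient bound for the uncentred maximal
function. See notes/P137-helper8.md, section COMPLETE PAPER PROOF.
-/

open MeasureTheory Metric Set
open scoped ENNReal RealInnerProductSpace Gradient

namespace Vale.Agent.P137.Unc

noncomputable section

/-- Euclidean `d`-space. -/
abbrev E (d : ℕ) : Type := EuclideanSpace ℝ (Fin d)

variable {d : ℕ}

/-- A nonnegative `C^1` input with integrable value and gradient. -/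
structure Smooth (u : E d → ℝ) : Prop where
  contDiff : ContDiff ℝ 1 u
  nonneg : ∀ x, 0 ≤ u x
  integrable : Integrable u
  integrable_grad : Integrable (fun x => ∇ u x)

/-- The gradient `L^1` norm. -/
def gnorm (u : E d → ℝ) : ℝ := ∫ x, ‖∇ u x‖

/-- Average of `u` over the open ball. -/
def ballAvg (u : E d → ℝ) (z : E d) (r : ℝ) : ℝ :=
  (volume.real (ball z r))⁻¹ * ∫ y in ball z r, u y

/-- The real uncentred maximal function (used for smooth inputs only, where it is finite). -/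
def umax (u : E d → ℝ) (x : E d) : ℝ :=
  sSup {a | ∃ (z : E d) (r : ℝ), 0 < r ∧ x ∈ ball z r ∧ a = ballAvg u z r}

/-- An optimal ball for `x`. -/
def IsOpt (u : E d → ℝ) (x z : E d) (r : ℝ) : Prop :=
  0 < r ∧ ‖x - z‖ ≤ r ∧ ballAvg u z r = umax u x

/-! ## Cubes below a window -/

/-- Side length of a cube of generation `m` below a window of side `L`. -/
def side (L : ℝ) (m : ℕ) : ℝ := L / 2 ^ m

/-- The cube number `k` of generation `m` in the window with corner `a` and side `L`. -/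
def cube (a : E d) (L : ℝ) (m : ℕ) (k : Fin d → Fin (2 ^ m)) : Set (E d) :=
  {y | ∀ i, a i + side L m * ((k i : ℕ) : ℝ) ≤ y i ∧ y i < a i + side L m * (((k i : ℕ) : ℝ) + 1)}

/-- The whole window. -/
def window (a : E d) (L : ℝ) : Set (E d) := {y | ∀ i, a i ≤ y i ∧ y i < a i + L}

/-- The centre of a cube. -/
def ctr (a : E d) (L : ℝ) (m : ℕ) (k : Fin d → Fin (2 ^ m)) : E d :=
  WithLp.toLp 2 fun i => a i + side L m * (((k i : ℕ) : ℝ) + 1 / 2)

/-- The parent cube. -/
def parent {m : ℕ} (k : Fin d → Fin (2 ^ (m + 1))) : Fin d → Fin (2 ^ m) :=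
  fun i => ⟨(k i : ℕ) / 2, by
    have h : (k i : ℕ) < 2 ^ m * 2 := lt_of_lt_of_eq (k i).isLt (pow_succ 2 m)
    omega⟩

/-- Integral of the gradient over a cube. -/
def cint (u : E d → ℝ) (a : E d) (L : ℝ) (m : ℕ) (k : Fin d → Fin (2 ^ m)) : E d :=
  ∫ y in cube a L m k, ∇ u y

/-- The defect `|I| - e.I` of a cube. -/
def defect (u : E d → ℝ) (a : E d) (L : ℝ) (e : E d) (m : ℕ) (k : Fin d → Fin (2 ^ m)) : ℝ :=
  ‖cint u a L m k‖ - ⟪e, cint u a L m k⟫

/-- The total defect of generation `m`. -/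
def lvl (u : E d → ℝ) (a : E d) (L : ℝ) (e : E d) (m : ℕ) : ℝ :=
  ∑ k : Fin d → Fin (2 ^ m), defect u a L e m k

/-- The decay ratio `2^(-1/4)`. -/
def qdec : ℝ := (2 : ℝ) ^ (-(1 / 4) : ℝ)

/-- The basic error of a window. -/
def phi0 (u : E d → ℝ) (a : E d) (L : ℝ) (e : E d) : ℝ := ∑' m : ℕ, qdec ^ m * lvl u a L e m

/-- `e` is a unit vector and the integral of the gradient over the window points along it. -/
def IsDir (u : E d → ℝ) (a : E d) (L : ℝ) (e : E d) : Prop :=
  ‖e‖ = 1 ∧ (∫ y in window a L, ∇ u y) = ‖∫ y in window a L, ∇ u y‖ • e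

/-! ## Lower approximations of a kernel -/

/-- The enlargement factor used for lower approximations. -/
def Kc (d : ℕ) : ℝ := 8 * Real.sqrt d + 8

/-- A kernel supported in the window. -/
structure Kern (H : E d → ℝ) (a : E d) (L B : ℝ) : Prop where
  nonneg : ∀ y, 0 ≤ H y
  le : ∀ y, H y ≤ B
  meas : Measurable H
  aecont : ∀ᵐ y, ContinuousAt H y
  supp : ∀ y, H y ≠ 0 → y ∈ window a L

/-- Infimum of `H` over the enlarged cube. -/
def low (H : E d → ℝ) (a : E d) (L K : ℝ) (m : ℕ) (k : Fin d → Fin (2 ^ m)) : ℝ :=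
  sInf (H '' closedBall (ctr a L m k) (K * side L m))

/-- Increments of the lower approximations. -/
def inc (H : E d → ℝ) (a : E d) (L K : ℝ) : (m : ℕ) → (Fin d → Fin (2 ^ m)) → ℝ
  | 0, k => low H a L K 0 k
  | m + 1, k => low H a L K (m + 1) k - low H a L K m (parent k)

/-- `B` bounds all partial sums of increment times defect. -/
def ErrLE (u : E d → ℝ) (H : E d → ℝ) (a : E d) (L K : ℝ) (e : E d) (B : ℝ) : Prop :=
  ∀ N : ℕ, ∑ m ∈ Finset.range N, ∑ k : Fin d → Fin (2 ^ m),
    inc H a L K m k * defect u a L e m k ≤ B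

/-! ## Kernels -/

/-- Kernel of a homothety of a ball about `p`, dilation parameters in `[t1, t2]`. -/
def homKer (p z : E d) (r t1 t2 : ℝ) (y : E d) : ℝ :=
  (volume.real (ball z r))⁻¹ *
    ∫ t in Icc t1 t2, if ‖y - (p + t • (z - p))‖ < t * r then (t ^ (d + 1))⁻¹ else 0

/-- Kernel of a translation of a ball by `t • e`. -/
def chord (e z : E d) (r t : ℝ) (y : E d) : ℝ :=
  (volume.real (ball z r))⁻¹ *
    volume.real {s : ℝ | s ∈ Icc 0 t ∧ ‖y - (z + s • e)‖ < r}

/-! ## Weights -/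

/-- The part of `v` orthogonal to the unit vector `e`. -/
def lat (e v : E d) : E d := v - ⟪e, v⟫ • e

/-- Weight of a cube at fixed vertical shift: `min 1 (sqrt (l/|h|)) (sqrt l / D)`. -/
def wgtT (e : E d) (l : ℝ) (v : E d) : ℝ≥0∞ :=
  min 1 (min (ENNReal.ofReal (Real.sqrt l) / ENNReal.ofReal (Real.sqrt |⟪e, v⟫|))
    (ENNReal.ofReal (Real.sqrt l) / ENNReal.ofReal ‖lat e v‖))

/-- Weight of a cube seen from a line in direction `e`: `min 1 (sqrt (sqrt l / rho))`. -/
def wgtX (e : E d) (l : ℝ) (v : E d) : ℝ≥0∞ :=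
  min 1 (ENNReal.ofReal (Real.sqrt (Real.sqrt l)) / ENNReal.ofReal (Real.sqrt ‖lat e v‖))

/-- The error at a point, constant along lines in direction `e`. -/
def phi (u : E d → ℝ) (a : E d) (L : ℝ) (e x : E d) : ℝ≥0∞ :=
  ENNReal.ofReal (phi0 u a L e) + ∑' m : ℕ, ∑ k : Fin d → Fin (2 ^ m),
    wgtX e (side L m) (ctr a L m k - x) * ENNReal.ofReal (defect u a L e m k)

/-! ## Grids -/

/-- Cube of level `n` in the grid with shift `s / 3`; the grids are nested in `n`. -/
def gcube (s : Fin d → Fin 3) (n : ℤ) (k : Fin d → ℤ) : Set (E d) :=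
  window (WithLp.toLp 2 fun i => (2 : ℝ) ^ n * ((k i : ℝ) + (-1 : ℝ) ^ n * ((s i : ℕ) : ℝ) / 3))
    ((2 : ℝ) ^ n)

/-- Sum over the cubes of one level of the norms of the integrals. -/
def gridE (g : E d → E d) (s : Fin d → Fin 3) (n : ℤ) : ℝ≥0∞ :=
  ∑' k : Fin d → ℤ, ‖∫ y in gcube s n k, g y‖ₑ

/-- What the grids do not see of `g` above level `N`; it tends to zero as `N → -∞`. -/
def tail (g : E d → E d) (N : ℤ) : ℝ≥0∞ :=
  ∑ s : Fin d → Fin 3, ((∫⁻ y, ‖g y‖ₑ) - gridE g s N)

/-- The window side used in dimension `d`. -/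
def Lwin (d : ℕ) : ℝ := 2 ^ Nat.clog 2 (8000 * d)

/-- The radius around a cell which contains every ball of the argument. -/
def Rwin (d : ℕ) : ℝ := 1000 * d

end

end Vale.Agent.P137.Unc
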