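import Mathlib
import Vale.Agent.P137.Unc.Defs

/-!
# P137, uncentred operator: averaging over lines

The bound by the length of the value interval along lines, and the averaged bounds on the weights.
-/

open MeasureTheory Metric Set Filter
open scoped ENNReal NNReal RealInnerProductSpace Gradient

namespace Vale.Agent.P137.Unc

noncomputable section

variable {d : ℕ}

/-- Averaging a function on a ball over the lines in a unit direction. -/
theorem lines_average (c0 ν : E d) {ρ : ℝ} (hν : ‖ν‖ = 1) {F : E d → ℝ≥0∞} (hF : Measurable F) :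
    ENNReal.ofReal (4 * ρ) * ∫⁻ x in ball c0 ρ, F x ≤
      ∫⁻ x in ball c0 (3 * ρ), ∫⁻ s : ℝ, (ball c0 ρ).indicator F (x + s • ν) := by
  set G := (ball c0 ρ).indicator F with hG
  have hGm : Measurable G := hF.indicator measurableSet_ball
  have hjoint : Measurable (Function.uncurry fun (x : E d) (s : ℝ) => G (x + s • ν)) :=
    hGm.comp (by fun_prop)
  rw [lintegral_lintegral_swap hjoint.aemeasurable]
  calc ENNReal.ofReal (4 * ρ) * ∫⁻ x in ball c0 ρ, F x
      = ∫⁻ _s in Icc (-(2 * ρ)) (2 * ρ), ∫⁻ x in ball c0 ρ, F x := by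
        rw [setLIntegral_const, Real.volume_Icc, mul_comm]
        congr 2
        ring
    _ ≤ ∫⁻ s in Icc (-(2 * ρ)) (2 * ρ), ∫⁻ x in ball c0 (3 * ρ), G (x + s • ν) := by
        refine setLIntegral_mono' measurableSet_Icc fun s hs => ?_
        have hsupp : ∀ x, x ∉ ball c0 (3 * ρ) → G (x + s • ν) = 0 := by
          intro x hx
          apply indicator_of_notMem
          intro hy
          apply hx
          rw [mem_ball, dist_eq_norm] at hy ⊢
          have h1 : ‖x - c0‖ ≤ ‖x + s • ν - c0‖ + ‖s • ν‖ := by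
            have h := norm_sub_le (x + s • ν - c0) (s • ν)
            rwa [show x + s • ν - c0 - s • ν = x - c0 by abel] at h
          have h2 : ‖s • ν‖ ≤ 2 * ρ := by
            rw [norm_smul, hν, mul_one, Real.norm_eq_abs]
            exact abs_le.2 ⟨hs.1, hs.2⟩
          linarith
        rw [setLIntegral_eq_of_support_subset (f := fun x => G (x + s • ν))
          (fun x hx => by_contra fun hc => hx (hsupp x hc)),
          lintegral_add_right_eq_self G (s • ν), hG, lintegral_indicator measurableSet_ball]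
    _ ≤ ∫⁻ s : ℝ, ∫⁻ x in ball c0 (3 * ρ), G (x + s • ν) := setLIntegral_le_lintegral _ _

/-- Line lemma by averaging over translates, no disintegration. -/
theorem lintegral_dir_le (d : ℕ) (ρ : ℝ) (hρ : 0 < ρ) : ∃ C : ℝ≥0∞, C ≠ ⊤ ∧
    ∀ (M : E d → ℝ) (ν c0 : E d) (S : Set (E d)) (Φ : E d → ℝ≥0∞),
    LocallyLipschitz M → ‖ν‖ = 1 → MeasurableSet S → S ⊆ ball c0 ρ →
    (∀ x ∈ S, DifferentiableAt ℝ M x) →
    (∀ x ∈ S, ∀ s : ℝ, s ≠ 0 → x + s • ν ∈ S → M (x + s • ν) ≠ M x) →
    Measurable Φ → (∀ x (s : ℝ), Φ (x + s • ν) = Φ x) →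
    (∀ x ∈ S, ∀ s : ℝ, x + s • ν ∈ S → ENNReal.ofReal (M x - M (x + s • ν)) ≤ Φ x) →
    ∫⁻ x in S, ENNReal.ofReal |fderiv ℝ M x ν| ≤ C * ∫⁻ x in ball c0 (3 * ρ), Φ x := by
  have h4 : ENNReal.ofReal (4 * ρ) ≠ 0 := by
    rw [Ne, ENNReal.ofReal_eq_zero, not_le]
    linarith
  refine ⟨(ENNReal.ofReal (4 * ρ))⁻¹, ENNReal.inv_ne_top.2 h4, ?_⟩
  intro M ν c0 S Φ _hM hν hS hSsub hdiff hinj _hΦm hΦc hval
  set F : E d → ℝ≥0∞ := S.indicator (fun x => ENNReal.ofReal |fderiv ℝ M x ν|) with hF
  have hFm : Measurable F :=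
    ((measurable_fderiv_apply_const ℝ M ν).abs.ennreal_ofReal).indicator hS
  have hFball : (ball c0 ρ).indicator F = F := by
    rw [hF, indicator_indicator, inter_eq_right.2 hSsub]
  have hline : ∀ x, ∫⁻ s : ℝ, F (x + s • ν) ≤ Φ x := by
    intro x
    set T : Set ℝ := (fun s : ℝ => x + s • ν) ⁻¹' S with hT
    have hTm : MeasurableSet T := hS.preimage (by fun_prop)
    have hd : ∀ s ∈ T, HasDerivWithinAt (fun s : ℝ => M (x + s • ν))
        (fderiv ℝ M (x + s • ν) ν) T s := by
      intro s hs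
      have h1 : HasDerivAt (fun s : ℝ => x + s • ν) ν s := by
        simpa using ((hasDerivAt_id s).smul_const ν).const_add x
      exact ((hdiff _ hs).hasFDerivAt.comp_hasDerivAt s h1).hasDerivWithinAt
    have hIO : InjOn (fun s : ℝ => M (x + s • ν)) T := by
      intro s hs t ht heq
      by_contra hne
      have hsub : t - s ≠ 0 := sub_ne_zero.2 (Ne.symm hne)
      have hpt : x + s • ν + (t - s) • ν = x + t • ν := by module
      refine hinj (x + s • ν) hs (t - s) hsub ?_ ?_
      · rw [hpt]; exact ht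
      · rw [hpt]; exact heq.symm
    have hA := lintegral_image_eq_lintegral_abs_deriv_mul hTm hd hIO (fun _ => 1)
    simp only [lintegral_const, Measure.restrict_apply, MeasurableSet.univ, univ_inter, one_mul,
      mul_one] at hA
    have hind : (fun s : ℝ => F (x + s • ν))
        = T.indicator (fun s => ENNReal.ofReal |fderiv ℝ M (x + s • ν) ν|) := by
      funext s
      by_cases hs : s ∈ T
      · rw [hF, indicator_of_mem (show x + s • ν ∈ S from hs), indicator_of_mem hs]
      · rw [hF, indicator_of_notMem (show x + s • ν ∉ S from hs), indicator_of_notMem hs]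
    rw [hind, lintegral_indicator hTm, ← hA]
    refine (Real.volume_le_diam _).trans (Metric.ediam_le ?_)
    rintro a ⟨s, hs, rfl⟩ b ⟨t, ht, rfl⟩
    have key : ∀ p q : ℝ, p ∈ T → q ∈ T →
        ENNReal.ofReal (M (x + p • ν) - M (x + q • ν)) ≤ Φ x := by
      intro p q hp hq
      have hpt : x + p • ν + (q - p) • ν = x + q • ν := by module
      have h := hval (x + p • ν) hp (q - p) (by rw [hpt]; exact hq)
      rwa [hpt, hΦc] at h
    rw [edist_dist, Real.dist_eq, abs_eq_max_neg, ENNReal.ofReal_max, neg_sub]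
    exact max_le (key s t hs ht) (key t s ht hs)
  have h := lines_average c0 ν (ρ := ρ) hν hFm
  rw [hFball] at h
  have hball : ∫⁻ x in ball c0 ρ, F x = ∫⁻ x in S, ENNReal.ofReal |fderiv ℝ M x ν| := by
    rw [← lintegral_indicator measurableSet_ball, hFball, hF, lintegral_indicator hS]
  rw [hball] at h
  have h' := h.trans (lintegral_mono fun x => hline x)
  calc ∫⁻ x in S, ENNReal.ofReal |fderiv ℝ M x ν|
      = (ENNReal.ofReal (4 * ρ))⁻¹
          * (ENNReal.ofReal (4 * ρ) * ∫⁻ x in S, ENNReal.ofReal |fderiv ℝ M x ν|) := by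
        rw [← mul_assoc, ENNReal.inv_mul_cancel h4 ENNReal.ofReal_ne_top, one_mul]
    _ ≤ _ := by gcongr

/-- The reciprocal square root, valued in the extended nonnegative reals. -/
def invRoot (t : ℝ) : ℝ≥0∞ := (ENNReal.ofReal (Real.sqrt |t|))⁻¹

theorem measurable_invRoot : Measurable invRoot := by
  unfold invRoot
  fun_prop

theorem lintegral_invRoot_ne_top : ∫⁻ t in Icc (-1 : ℝ) 1, invRoot t ≠ ⊤ := by
  set A : ℝ → ℝ≥0∞ := (Ioc (0 : ℝ) 1).indicator invRoot with hA
  have hAm : Measurable A := measurable_invRoot.indicator measurableSet_Ioc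
  have hAfin : ∫⁻ t, A t ≠ ⊤ := by
    rw [hA, lintegral_indicator measurableSet_Ioc]
    have hint : IntegrableOn (fun t : ℝ => t ^ (-(1 / 2) : ℝ)) (Ioc 0 1) :=
      (intervalIntegrable_iff_integrableOn_Ioc_of_le (zero_le_one' ℝ)).1
        (intervalIntegral.intervalIntegrable_rpow' (by norm_num))
    have heq : ∫⁻ t in Ioc (0 : ℝ) 1, invRoot t
        = ∫⁻ t in Ioc (0 : ℝ) 1, ENNReal.ofReal (t ^ (-(1 / 2) : ℝ)) := by
      refine setLIntegral_congr_fun measurableSet_Ioc fun t ht => ?_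
      rw [invRoot, abs_of_pos ht.1, ← ENNReal.ofReal_inv_of_pos (Real.sqrt_pos.2 ht.1),
        Real.rpow_neg ht.1.le, Real.sqrt_eq_rpow]
    rw [heq]
    exact (hint.lintegral_lt_top).ne
  have hle : ∫⁻ t in Icc (-1 : ℝ) 1, invRoot t ≤ (∫⁻ t, A t) + ∫⁻ t, A (-t) := by
    rw [← lintegral_add_left hAm, ← lintegral_indicator measurableSet_Icc]
    refine lintegral_mono_ae ?_
    filter_upwards [Measure.ae_ne volume (0 : ℝ)] with t ht0
    by_cases htI : t ∈ Icc (-1 : ℝ) 1
    · rw [indicator_of_mem htI]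
      rcases lt_or_gt_of_ne ht0 with hneg | hpos
      · have hm : -t ∈ Ioc (0 : ℝ) 1 := ⟨neg_pos.2 hneg, by linarith [htI.1]⟩
        refine le_trans (le_of_eq ?_) (le_add_left le_rfl)
        rw [hA, indicator_of_mem hm, invRoot, invRoot, abs_neg]
      · have hm : t ∈ Ioc (0 : ℝ) 1 := ⟨hpos, htI.2⟩
        refine le_trans (le_of_eq ?_) (le_add_right le_rfl)
        rw [hA, indicator_of_mem hm]
    · rw [indicator_of_notMem htI]
      exact zero_le
  have hneg : ∫⁻ t, A (-t) = ∫⁻ t, A t :=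
    (Measure.measurePreserving_neg (volume : Measure ℝ)).lintegral_comp hAm
  rw [hneg] at hle
  exact ne_top_of_le_ne_top (ENNReal.add_ne_top.2 ⟨hAfin, hAfin⟩) hle

/-- The bound for the integral of the shifted reciprocal root over an interval. -/
theorem lintegral_invRoot_shift {a b : ℝ} (t : ℝ) :
    ∫⁻ s in Icc a b, invRoot (t - s) ≤
      (∫⁻ s in Icc (-1 : ℝ) 1, invRoot s) + ENNReal.ofReal (b - a) := by
  set B : ℝ → ℝ≥0∞ := (Icc (-1 : ℝ) 1).indicator invRoot with hB
  have hBm : Measurable B := measurable_invRoot.indicator measurableSet_Icc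
  have hpt : ∀ u, invRoot u ≤ B u + 1 := by
    intro u
    by_cases hu : u ∈ Icc (-1 : ℝ) 1
    · rw [hB, indicator_of_mem hu]
      exact le_add_right le_rfl
    · refine le_add_left ?_
      rw [invRoot, ENNReal.inv_le_one, ENNReal.one_le_ofReal, Real.one_le_sqrt]
      rw [mem_Icc, ← abs_le, not_le] at hu
      exact hu.le
  calc ∫⁻ s in Icc a b, invRoot (t - s) ≤ ∫⁻ s in Icc a b, (B (t - s) + 1) :=
        lintegral_mono fun s => hpt _
    _ = (∫⁻ s in Icc a b, B (t - s)) + ENNReal.ofReal (b - a) := by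
        rw [lintegral_add_right _ measurable_const, setLIntegral_const, Real.volume_Icc, one_mul]
    _ ≤ (∫⁻ s, B (t - s)) + ENNReal.ofReal (b - a) := by
        gcongr
        exact Measure.restrict_le_self
    _ = _ := by
        rw [(Measure.measurePreserving_sub_left (volume : Measure ℝ) t).lintegral_comp hBm, hB,
          lintegral_indicator measurableSet_Icc]

theorem exists_unit_orth (hd : 2 ≤ d) (e : E d) :
    ∃ f : E d, ‖f‖ = 1 ∧ ⟪f, e⟫ = 0 := by
  have h1 := Submodule.finrank_add_finrank_orthogonal (ℝ ∙ e)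
  have h2 : Module.finrank ℝ (ℝ ∙ e : Submodule ℝ (E d)) ≤ 1 := by
    simpa using finrank_span_le_card ({e} : Set (E d))
  have h3 : Module.finrank ℝ (E d) = d := finrank_euclideanSpace_fin
  have h4 : (ℝ ∙ e : Submodule ℝ (E d))ᗮ ≠ ⊥ := by
    intro hbot
    rw [hbot, finrank_bot, h3] at h1
    omega
  obtain ⟨v, hv, hv0⟩ := Submodule.exists_mem_ne_zero_of_ne_bot h4
  refine ⟨‖v‖⁻¹ • v, norm_smul_inv_norm hv0, ?_⟩
  rw [real_inner_smul_left, Submodule.inner_left_of_mem_orthogonal
    (Submodule.mem_span_singleton_self e) hv, mul_zero]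

theorem lintegral_wgtX (d : ℕ) (hd : 2 ≤ d) (ρ : ℝ) : ∃ C : ℝ≥0∞, C ≠ ⊤ ∧
    ∀ (e c0 c : E d) (l : ℝ), ‖e‖ = 1 → 0 < l →
    ∫⁻ x in ball c0 ρ, wgtX e l (c - x) ≤ C * ENNReal.ofReal (l ^ (1 / 4 : ℝ)) := by
  rcases le_or_gt ρ 0 with hρ | hρ
  · exact ⟨0, ENNReal.zero_ne_top, fun e c0 c l _ _ => by simp [ball_eq_empty.2 hρ]⟩
  set K : ℝ≥0∞ := (∫⁻ s in Icc (-1 : ℝ) 1, invRoot s) + ENNReal.ofReal (8 * ρ) with hK
  set V : ℝ≥0∞ := volume (ball (0 : E d) (3 * ρ)) with hV
  have h4 : ENNReal.ofReal (4 * ρ) ≠ 0 := by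
    rw [Ne, ENNReal.ofReal_eq_zero, not_le]
    linarith
  refine ⟨(ENNReal.ofReal (4 * ρ))⁻¹ * (K * V),
    ENNReal.mul_ne_top (ENNReal.inv_ne_top.2 h4) (ENNReal.mul_ne_top
      (ENNReal.add_ne_top.2 ⟨lintegral_invRoot_ne_top, ENNReal.ofReal_ne_top⟩)
      measure_ball_lt_top.ne), ?_⟩
  intro e c0 c l _he hl
  obtain ⟨f, hf, hfe⟩ := exists_unit_orth hd e
  set H : E d → ℝ≥0∞ := fun x => invRoot ⟪f, c - x⟫ with hH
  have hHm : Measurable H := measurable_invRoot.comp (by fun_prop)
  have hpt : ∀ x, wgtX e l (c - x) ≤ ENNReal.ofReal (l ^ (1 / 4 : ℝ)) * H x := by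
    intro x
    have hroot : Real.sqrt (Real.sqrt l) = l ^ (1 / 4 : ℝ) := by
      rw [Real.sqrt_eq_rpow, Real.sqrt_eq_rpow, ← Real.rpow_mul hl.le]
      norm_num
    have hlat : |⟪f, c - x⟫| ≤ ‖lat e (c - x)‖ := by
      have heq : ⟪f, c - x⟫ = ⟪f, lat e (c - x)⟫ := by
        rw [lat, inner_sub_right f (c - x), real_inner_smul_right, hfe, mul_zero, sub_zero]
      rw [heq]
      calc |⟪f, lat e (c - x)⟫| ≤ ‖f‖ * ‖lat e (c - x)‖ := abs_real_inner_le_norm _ _
        _ = ‖lat e (c - x)‖ := by rw [hf, one_mul]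
    refine (min_le_right _ _).trans ?_
    rw [hroot, div_eq_mul_inv]
    simp only [hH, invRoot]
    gcongr
  have hball : ∫⁻ x in ball c0 ρ, H x ≤ (ENNReal.ofReal (4 * ρ))⁻¹ * (K * V) := by
    have hline : ∀ x ∈ ball c0 (3 * ρ), ∫⁻ s : ℝ, (ball c0 ρ).indicator H (x + s • f) ≤ K := by
      intro x hx
      calc ∫⁻ s : ℝ, (ball c0 ρ).indicator H (x + s • f)
          ≤ ∫⁻ s : ℝ, (Icc (-(4 * ρ)) (4 * ρ)).indicator
              (fun s => invRoot (⟪f, c - x⟫ - s)) s := by
            refine lintegral_mono fun s => ?_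
            by_cases hs : x + s • f ∈ ball c0 ρ
            · have hmem : s ∈ Icc (-(4 * ρ)) (4 * ρ) := by
                rw [mem_ball, dist_eq_norm] at hs hx
                have h1 : ‖s • f‖ ≤ ‖x + s • f - c0‖ + ‖x - c0‖ := by
                  have h := norm_sub_le (x + s • f - c0) (x - c0)
                  rwa [show x + s • f - c0 - (x - c0) = s • f by abel] at h
                rw [norm_smul, hf, mul_one, Real.norm_eq_abs] at h1
                exact abs_le.1 (by linarith)
              rw [indicator_of_mem hs, indicator_of_mem hmem, hH]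
              refine le_of_eq (congrArg invRoot ?_)
              rw [show c - (x + s • f) = (c - x) - s • f by abel, inner_sub_right f (c - x),
                real_inner_smul_right, real_inner_self_eq_norm_sq, hf]
              ring
            · rw [indicator_of_notMem hs]
              exact zero_le
        _ = ∫⁻ s in Icc (-(4 * ρ)) (4 * ρ), invRoot (⟪f, c - x⟫ - s) :=
            lintegral_indicator measurableSet_Icc _
        _ ≤ _ := lintegral_invRoot_shift _
        _ = K := by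
            rw [hK]
            congr 2
            ring
    have h := lines_average c0 f (ρ := ρ) hf hHm
    have h' : ENNReal.ofReal (4 * ρ) * ∫⁻ x in ball c0 ρ, H x ≤ K * V := by
      refine h.trans ?_
      refine (setLIntegral_mono' measurableSet_ball hline).trans ?_
      rw [setLIntegral_const, hV, Measure.addHaar_ball_center]
    calc ∫⁻ x in ball c0 ρ, H x
        = (ENNReal.ofReal (4 * ρ))⁻¹ * (ENNReal.ofReal (4 * ρ) * ∫⁻ x in ball c0 ρ, H x) := by
          rw [← mul_assoc, ENNReal.inv_mul_cancel h4 ENNReal.ofReal_ne_top, one_mul]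
      _ ≤ _ := by gcongr
  calc ∫⁻ x in ball c0 ρ, wgtX e l (c - x)
      ≤ ∫⁻ x in ball c0 ρ, ENNReal.ofReal (l ^ (1 / 4 : ℝ)) * H x := lintegral_mono fun x => hpt x
    _ = ENNReal.ofReal (l ^ (1 / 4 : ℝ)) * ∫⁻ x in ball c0 ρ, H x := lintegral_const_mul _ hHm
    _ ≤ ENNReal.ofReal (l ^ (1 / 4 : ℝ)) * ((ENNReal.ofReal (4 * ρ))⁻¹ * (K * V)) := by gcongr
    _ = _ := by ring

theorem measurable_wgtX (e c : E d) (l : ℝ) : Measurable fun x => wgtX e l (c - x) := by
  unfold wgtX lat
  fun_prop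

theorem measurable_phi (u : E d → ℝ) (a e : E d) (L : ℝ) : Measurable (phi u a L e) := by
  unfold phi
  refine measurable_const.add (Measurable.ennreal_tsum fun m => ?_)
  exact Finset.measurable_sum _ fun k _ => (measurable_wgtX e _ _).mul_const _

theorem phi_add_smul (u : E d → ℝ) (a e : E d) (L : ℝ) (he : ‖e‖ = 1) (x : E d) (s : ℝ) :
    phi u a L e (x + s • e) = phi u a L e x := by
  have h : ∀ c : E d, lat e (c - (x + s • e)) = lat e (c - x) := by
    intro c
    rw [lat, lat, show c - (x + s • e) = (c - x) - s • e by abel, inner_sub_right e (c - x),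
      real_inner_smul_right, real_inner_self_eq_norm_sq, he]
    module
  simp only [phi, wgtX, h]

theorem lines_measurableSet_cube (a : E d) (L : ℝ) (m : ℕ) (k : Fin d → Fin (2 ^ m)) :
    MeasurableSet (cube a L m k) := by
  have h : cube a L m k = ⋂ i : Fin d,
      ({y : E d | a i + side L m * ((k i : ℕ) : ℝ) ≤ y i} ∩
        {y : E d | y i < a i + side L m * (((k i : ℕ) : ℝ) + 1)}) := by
    ext y
    simp [cube]
  rw [h]
  exact MeasurableSet.iInter fun i => (measurableSet_le measurable_const (by fun_prop)).inter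
    (measurableSet_lt (by fun_prop) measurable_const)

theorem lines_disjoint_cube (a : E d) {L : ℝ} (hL : 0 < L) (m : ℕ) :
    Pairwise (Function.onFun Disjoint fun k : Fin d → Fin (2 ^ m) => cube a L m k) := by
  intro k k' hne
  rw [Function.onFun, Set.disjoint_left]
  intro y hy hy'
  refine hne (funext fun i => Fin.ext ?_)
  have hl : 0 < side L m := div_pos hL (by positivity)
  have h1 := hy i
  have h2 := hy' i
  have key : ∀ p q : ℕ, a i + side L m * (p : ℝ) ≤ y i →
      y i < a i + side L m * ((q : ℝ) + 1) → p ≤ q := by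
    intro p q hp hq
    have h : side L m * (p : ℝ) < side L m * ((q : ℝ) + 1) := by linarith
    have h' : p < q + 1 := by exact_mod_cast lt_of_mul_lt_mul_left h hl.le
    omega
  exact le_antisymm (key _ _ h1.1 h2.2) (key _ _ h2.1 h1.2)

theorem lines_defect_nonneg (u : E d → ℝ) (a : E d) (L : ℝ) {e : E d} (he : ‖e‖ = 1) (m : ℕ)
    (k : Fin d → Fin (2 ^ m)) : 0 ≤ defect u a L e m k := by
  rw [defect, sub_nonneg]
  simpa [he] using real_inner_le_norm e (cint u a L m k)

theorem lines_lvl_le {u : E d → ℝ} {a e : E d} {L : ℝ} (hu : Smooth u) (he : ‖e‖ = 1)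
    (hL : 0 < L) (m : ℕ) : lvl u a L e m ≤ 2 * gnorm u := by
  have hint : Integrable fun y => ‖∇ u y‖ := hu.integrable_grad.norm
  calc lvl u a L e m ≤ ∑ k : Fin d → Fin (2 ^ m), 2 * ∫ y in cube a L m k, ‖∇ u y‖ := by
        refine Finset.sum_le_sum fun k _ => ?_
        have h1 : |⟪e, cint u a L m k⟫| ≤ ‖cint u a L m k‖ := by
          simpa [he] using abs_real_inner_le_norm e (cint u a L m k)
        have h2 : ‖cint u a L m k‖ ≤ ∫ y in cube a L m k, ‖∇ u y‖ :=
          norm_integral_le_integral_norm _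
        rw [defect]
        linarith [neg_le_of_abs_le h1]
    _ = 2 * ∫ y in ⋃ k : Fin d → Fin (2 ^ m), cube a L m k, ‖∇ u y‖ := by
        rw [integral_iUnion_fintype (fun k => lines_measurableSet_cube a L m k)
          (lines_disjoint_cube a hL m) (fun k => hint.integrableOn), Finset.mul_sum]
    _ ≤ 2 * gnorm u := by
        have := setIntegral_le_integral (s := ⋃ k : Fin d → Fin (2 ^ m), cube a L m k) hint
          (Filter.Eventually.of_forall fun y => norm_nonneg (∇ u y))
        rw [gnorm]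
        linarith

theorem lines_summable {u : E d → ℝ} {a e : E d} {L : ℝ} (hu : Smooth u) (he : ‖e‖ = 1)
    (hL : 0 < L) : Summable fun m => qdec ^ m * lvl u a L e m := by
  have h0 : 0 < qdec := Real.rpow_pos_of_pos two_pos _
  have h1 : qdec < 1 := Real.rpow_lt_one_of_one_lt_of_neg one_lt_two (by norm_num)
  refine Summable.of_nonneg_of_le
    (fun m => mul_nonneg (pow_nonneg h0.le m)
      (Finset.sum_nonneg fun k _ => lines_defect_nonneg u a L he m k))
    (fun m => mul_le_mul_of_nonneg_left (lines_lvl_le hu he hL m) (pow_nonneg h0.le m))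
    ((summable_geometric_of_lt_one h0.le h1).mul_right _)

theorem lintegral_phi (d : ℕ) (hd : 2 ≤ d) (ρ : ℝ) : ∃ C : ℝ≥0∞, C ≠ ⊤ ∧
    ∀ (u : E d → ℝ) (a e c0 : E d), Smooth u → ‖e‖ = 1 →
    ∫⁻ x in ball c0 ρ, phi u a (Lwin d) e x ≤ C * ENNReal.ofReal (phi0 u a (Lwin d) e) := by
  obtain ⟨C, hC, hw⟩ := lintegral_wgtX d hd ρ
  refine ⟨volume (ball (0 : E d) ρ) + C * ENNReal.ofReal (Lwin d ^ (1 / 4 : ℝ)),
    ENNReal.add_ne_top.2 ⟨measure_ball_lt_top.ne, ENNReal.mul_ne_top hC ENNReal.ofReal_ne_top⟩,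
    ?_⟩
  intro u a e c0 hu he
  have hL : 0 < Lwin d := by
    rw [Lwin]
    positivity
  have hq : 0 ≤ qdec := (Real.rpow_pos_of_pos two_pos _).le
  have hside : ∀ m, side (Lwin d) m ^ (1 / 4 : ℝ) = Lwin d ^ (1 / 4 : ℝ) * qdec ^ m := by
    intro m
    rw [side, Real.div_rpow hL.le (by positivity), qdec, div_eq_mul_inv]
    congr 1
    rw [← Real.rpow_natCast (2 : ℝ) m,
      ← Real.rpow_natCast ((2 : ℝ) ^ (-(1 / 4) : ℝ)) m, ← Real.rpow_mul zero_le_two,
      ← Real.rpow_mul zero_le_two, ← Real.rpow_neg zero_le_two]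
    congr 1
    ring
  set w : ℕ → E d → ℝ≥0∞ := fun m x => ∑ k : Fin d → Fin (2 ^ m),
    wgtX e (side (Lwin d) m) (ctr a (Lwin d) m k - x) *
      ENNReal.ofReal (defect u a (Lwin d) e m k) with hwdef
  have hwm : ∀ m, Measurable (w m) := fun m =>
    Finset.measurable_sum _ fun k _ => (measurable_wgtX e _ _).mul_const _
  have hlvl : ∀ m, ∫⁻ x in ball c0 ρ, w m x ≤
      C * ENNReal.ofReal (Lwin d ^ (1 / 4 : ℝ)) *
        ENNReal.ofReal (qdec ^ m * lvl u a (Lwin d) e m) := by
    intro m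
    calc ∫⁻ x in ball c0 ρ, w m x
        = ∑ k : Fin d → Fin (2 ^ m),
            (∫⁻ x in ball c0 ρ, wgtX e (side (Lwin d) m) (ctr a (Lwin d) m k - x)) *
              ENNReal.ofReal (defect u a (Lwin d) e m k) := by
          rw [hwdef, lintegral_finsetSum _ fun k _ => (measurable_wgtX e _ _).mul_const _]
          exact Finset.sum_congr rfl fun k _ => lintegral_mul_const _ (measurable_wgtX e _ _)
      _ ≤ ∑ k : Fin d → Fin (2 ^ m), C * ENNReal.ofReal (side (Lwin d) m ^ (1 / 4 : ℝ)) *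
            ENNReal.ofReal (defect u a (Lwin d) e m k) := by
          refine Finset.sum_le_sum fun k _ => ?_
          gcongr
          exact hw e c0 _ _ he (div_pos hL (by positivity))
      _ = _ := by
          rw [← Finset.mul_sum,
            ← ENNReal.ofReal_sum_of_nonneg fun k _ => lines_defect_nonneg u a (Lwin d) he m k,
            hside, ENNReal.ofReal_mul (Real.rpow_nonneg hL.le _),
            ENNReal.ofReal_mul (pow_nonneg hq m), lvl]
          ring
  calc ∫⁻ x in ball c0 ρ, phi u a (Lwin d) e x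
      = ∫⁻ x in ball c0 ρ, (ENNReal.ofReal (phi0 u a (Lwin d) e) + ∑' m, w m x) := rfl
    _ = ENNReal.ofReal (phi0 u a (Lwin d) e) * volume (ball (0 : E d) ρ)
          + ∑' m, ∫⁻ x in ball c0 ρ, w m x := by
        rw [lintegral_add_left measurable_const, lintegral_tsum fun m => (hwm m).aemeasurable,
          setLIntegral_const, Measure.addHaar_ball_center]
    _ ≤ ENNReal.ofReal (phi0 u a (Lwin d) e) * volume (ball (0 : E d) ρ)
          + ∑' m, C * ENNReal.ofReal (Lwin d ^ (1 / 4 : ℝ)) *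
              ENNReal.ofReal (qdec ^ m * lvl u a (Lwin d) e m) :=
        add_le_add_right (ENNReal.tsum_le_tsum hlvl) _
    _ = _ := by
        have hnn : ∀ m, 0 ≤ qdec ^ m * lvl u a (Lwin d) e m := fun m => mul_nonneg (pow_nonneg hq m)
          (Finset.sum_nonneg fun k _ => lines_defect_nonneg u a (Lwin d) he m k)
        rw [ENNReal.tsum_mul_left, phi0,
          ENNReal.ofReal_tsum_of_nonneg hnn (lines_summable hu he hL)]
        ring

end

end Vale.Agent.P137.Unc
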