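import Vale.Agent.P137.Unc.Compare
import Vale.Agent.P137.Unc.Lines

/-!
# P137, uncentred operator: the gradient of the maximal function in one cell
-/

open MeasureTheory Metric Set
open scoped ENNReal NNReal RealInnerProductSpace Gradient

namespace Vale.Agent.P137.Unc

noncomputable section

variable {d : ℕ} {u : E d → ℝ}

lemma measurable_gradient_fun (M : E d → ℝ) : Measurable (fun x => ∇ M x) :=
  (InnerProductSpace.toDual ℝ (E d)).symm.continuous.measurable.comp (measurable_fderiv ℝ M)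

/-- The active points of a cell at scale `[2d, 4d]`. -/
def active (u : E d → ℝ) (c0 : E d) : Set (E d) :=
  ball c0 (Real.sqrt d) ∩ {x | ∃ z r, 2 * (d : ℝ) ≤ r ∧ r ≤ 4 * d ∧ IsOpt u x z r} ∩
    {x | DifferentiableAt ℝ (umax u) x ∧ ∇ (umax u) x ≠ 0}

lemma measurableSet_active (hd : 2 ≤ d) (hu : Smooth u) (c0 : E d) :
    MeasurableSet (active u c0) := by
  have hd2 : (2 : ℝ) ≤ d := by exact_mod_cast hd
  refine (measurableSet_ball.inter
    (isClosed_optSet (by omega) hu (by linarith : (0 : ℝ) < 2 * d)).measurableSet).inter ?_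
  exact (measurableSet_of_differentiableAt ℝ (umax u)).inter
    (measurable_gradient_fun (umax u) (measurableSet_singleton (0 : E d)).compl)

/-- One bin: points where the gradient has a definite component along `ν`. -/
lemma bin_bound (d : ℕ) (hd : 2 ≤ d) : ∃ C : ℝ≥0∞, C ≠ ⊤ ∧
    ∀ (u : E d → ℝ) (c0 ν : E d) (c : ℝ) (S : Set (E d)) (Φ : E d → ℝ≥0∞), Smooth u →
    ‖ν‖ = 1 → 0 < c → c ≤ 1 → Real.sqrt d < 2 * d * c → MeasurableSet S → S ⊆ active u c0 →
    (∀ x ∈ S, c * ‖∇ (umax u) x‖ ≤ ⟪∇ (umax u) x, ν⟫) →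
    Measurable Φ → (∀ x (s : ℝ), Φ (x + s • ν) = Φ x) →
    (∀ x ∈ S, ∀ y ∈ S, ENNReal.ofReal (umax u x - umax u y) ≤ Φ y) →
    ∫⁻ x in S, ‖∇ (umax u) x‖ₑ ≤
      ENNReal.ofReal c⁻¹ * (C * ∫⁻ x in ball c0 (3 * Real.sqrt d), Φ x) := by
  have hd2 : (2 : ℝ) ≤ d := by exact_mod_cast hd
  obtain ⟨C, hC, h⟩ := lintegral_dir_le d (Real.sqrt d) (Real.sqrt_pos.2 (by linarith))
  refine ⟨C, hC, fun u c0 ν c S Φ hu hν hc hc1 hcd hSm hS hgrad hΦm hΦ hval => ?_⟩
  have hd1 : 1 ≤ d := by omega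
  set M := umax u with hM
  have hnext : ∀ x ∈ S, ∀ s : ℝ, 0 < s → x + s • ν ∈ S → M (x + s • ν) ≠ M x := by
    intro x hx s hs hy heq
    obtain ⟨⟨hxb, z, r, hr, -, hopt⟩, hdiff, hne⟩ := hS hx
    obtain ⟨⟨hyb, -⟩, hdy, hney⟩ := hS hy
    obtain ⟨hsph, hg⟩ := umax_grad_of_isOpt hd1 hu hopt hdiff hne
    have hr0 : 0 < r := hopt.1
    have hs2 : s < 2 * Real.sqrt d := by
      have := norm_sub_le_norm_sub_add_norm_sub (x + s • ν) c0 x
      rw [add_sub_cancel_left, norm_smul, hν, Real.norm_eq_abs, abs_of_pos hs, mul_one,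
        norm_sub_rev c0 x] at this
      linarith [mem_ball_iff_norm.1 hxb, mem_ball_iff_norm.1 hyb]
    have hin : ⟪x - z, ν⟫ ≤ -(c * r) := by
      have h1 := hgrad x hx
      rw [hg, real_inner_smul_left, ← hg] at h1
      have hgp : 0 < ‖∇ (umax u) x‖ := norm_pos_iff.2 hne
      have h2 : c ≤ -(⟪x - z, ν⟫ / r) := by
        refine le_of_mul_le_mul_left ?_ hgp
        calc ‖∇ (umax u) x‖ * c = c * ‖∇ (umax u) x‖ := mul_comm _ _
          _ ≤ -(‖∇ (umax u) x‖ / r) * ⟪x - z, ν⟫ := h1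
          _ = _ := by ring
      rw [le_neg, div_le_iff₀ hr0] at h2
      linarith
    have hyball : x + s • ν ∈ ball z r := by
      refine mem_ball_iff_norm.2 (lt_of_pow_lt_pow_left₀ 2 hr0.le ?_)
      rw [show x + s • ν - z = (x - z) + s • ν by abel, norm_add_sq_real, hsph, inner_smul_right,
        norm_smul, hν, Real.norm_eq_abs, mul_one, sq_abs]
      have h3 : 2 * (s * ⟪x - z, ν⟫) + s * s < 0 := by
        have : s < 2 * c * r := by
          have := mul_le_mul_of_nonneg_left hr (by positivity : (0 : ℝ) ≤ 2 * c)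
          linarith
        have h4 := mul_le_mul_of_nonneg_left hin hs.le
        have h5 := mul_lt_mul_of_pos_left this hs
        linarith
      linarith [sq s]
    exact hney (umax_eq_at_local_min hd1 hu hopt hyball hdy heq)
  have hinj : ∀ x ∈ S, ∀ s : ℝ, s ≠ 0 → x + s • ν ∈ S → M (x + s • ν) ≠ M x := by
    intro x hx s hs hy
    rcases hs.lt_or_gt with hneg | hpos
    · have hback : x + s • ν + (-s) • ν = x := by module
      have := hnext (x + s • ν) hy (-s) (by linarith) (by rwa [hback])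
      rw [hback] at this
      exact fun h => this h.symm
    · exact hnext x hx s hpos hy
  have hmain := h M ν c0 S Φ (locallyLipschitz_umax hd1 hu) hν hSm
    (fun x hx => (hS hx).1.1) (fun x hx => (hS hx).2.1) hinj hΦm hΦ
    (fun x hx s hy => (hval x hx _ hy).trans (le_of_eq (hΦ x s)))
  calc ∫⁻ x in S, ‖∇ (umax u) x‖ₑ
      ≤ ∫⁻ x in S, ENNReal.ofReal c⁻¹ * ENNReal.ofReal |fderiv ℝ M x ν| := by
        refine setLIntegral_mono' hSm fun x hx => ?_
        rw [← ofReal_norm, ← ENNReal.ofReal_mul (inv_pos.2 hc).le, ← inner_grad]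
        refine ENNReal.ofReal_le_ofReal ?_
        rw [inv_mul_eq_div, le_div_iff₀ hc, mul_comm]
        exact (hgrad x hx).trans (le_abs_self _)
    _ ≤ _ := by
        rw [lintegral_const_mul' _ _ ENNReal.ofReal_ne_top]
        exact mul_le_mul le_rfl hmain zero_le zero_le

/-- The cell bound. -/
theorem cell_bound (d : ℕ) (hd : 2 ≤ d) : ∃ C : ℝ≥0∞, C ≠ ⊤ ∧
    ∀ (u : E d → ℝ) (a c0 e : E d), Smooth u → ball c0 (Rwin d) ⊆ window a (Lwin d) →
    IsDir u a (Lwin d) e →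
    ∫⁻ x in ball c0 (Real.sqrt d) ∩ {x | ∃ z r, 2 * (d : ℝ) ≤ r ∧ r ≤ 4 * d ∧ IsOpt u x z r},
      ‖∇ (umax u) x‖ₑ ≤ C * ENNReal.ofReal (phi0 u a (Lwin d) e) := by
  obtain ⟨C1, hC1, hcmp⟩ := compare d hd
  obtain ⟨C2, hC2, hbin⟩ := bin_bound d hd
  obtain ⟨C3, hC3, hphi⟩ := lintegral_phi d hd (3 * Real.sqrt d)
  have hd2 : (2 : ℝ) ≤ d := by exact_mod_cast hd
  have hd1 : 1 ≤ d := by omega
  set V : ℝ≥0∞ := volume (ball (0 : E d) (3 * Real.sqrt d)) with hV
  have hVtop : V ≠ ⊤ := measure_ball_lt_top.ne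
  refine ⟨ENNReal.ofReal 2 * (C2 * (C1 * C3)) +
    2 * d * (ENNReal.ofReal (Real.sqrt d) * (C2 * (C1 * V))), by finiteness,
    fun u a c0 e hu hwin hdir => ?_⟩
  obtain ⟨he, -⟩ := hdir
  set M := umax u with hM
  set G := fun x => ∇ M x with hG
  have hGm : Measurable G := measurable_gradient_fun M
  set D := active u c0 with hD
  have hDm : MeasurableSet D := measurableSet_active hd hu c0
  set S0 := ball c0 (Real.sqrt d) ∩
    {x | ∃ z r, 2 * (d : ℝ) ≤ r ∧ r ≤ 4 * d ∧ IsOpt u x z r}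
  have hS0m : MeasurableSet S0 :=
    measurableSet_ball.inter (isClosed_optSet hd1 hu (by linarith : (0 : ℝ) < 2 * d)).measurableSet
  have hSD : ∫⁻ x in S0, ‖∇ M x‖ₑ ≤ ∫⁻ x in D, ‖∇ M x‖ₑ := by
    rw [← lintegral_indicator hS0m, ← lintegral_indicator hDm]
    refine lintegral_mono fun x => ?_
    by_cases hx : x ∈ S0
    · rw [indicator_of_mem hx]
      by_cases h0 : ∇ M x = 0
      · simp [h0]
      · have hdiff : DifferentiableAt ℝ M x := by
          by_contra hh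
          exact h0 (gradient_eq_zero_of_not_differentiableAt hh)
        have hxD : x ∈ D := ⟨hx, hdiff, h0⟩
        rw [indicator_of_mem hxD]
    · rw [indicator_of_notMem hx]
      exact zero_le
  set P := D ∩ {x | ‖G x‖ / 2 < ⟪G x, e⟫} with hP
  have hPm : MeasurableSet P :=
    hDm.inter (measurableSet_lt (hGm.norm.div_const 2) (hGm.inner measurable_const))
  set ν : Fin d × Bool → E d := fun i => (if i.2 then (1 : ℝ) else -1) • EuclideanSpace.single i.1 1
    with hν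
  have hνn : ∀ i, ‖ν i‖ = 1 := fun i => by
    simp only [hν, norm_smul, PiLp.norm_single, norm_one, mul_one]
    split_ifs <;> simp
  set c := (Real.sqrt d)⁻¹ with hc
  have hsd : 0 < Real.sqrt d := Real.sqrt_pos.2 (by linarith)
  set S : Fin d × Bool → Set (E d) := fun i =>
    (D \ P) ∩ {x | c * ‖G x‖ ≤ ⟪G x, ν i⟫} with hS
  have hSm : ∀ i, MeasurableSet (S i) := fun i =>
    (hDm.diff hPm).inter (measurableSet_le (hGm.norm.const_mul c) (hGm.inner measurable_const))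
  have hcover : D ⊆ P ∪ ⋃ i, S i := by
    intro x hx
    by_cases hxP : x ∈ P
    · exact Or.inl hxP
    refine Or.inr (mem_iUnion.2 ?_)
    have : Nonempty (Fin d) := ⟨⟨0, by omega⟩⟩
    obtain ⟨i, -, hi⟩ := Finset.exists_max_image Finset.univ (fun i : Fin d => |G x i|)
      Finset.univ_nonempty
    have hmax : c * ‖G x‖ ≤ |G x i| := by
      rw [hc, inv_mul_le_iff₀ hsd, EuclideanSpace.norm_eq, Real.sqrt_le_iff]
      refine ⟨by positivity, ?_⟩
      rw [mul_pow, Real.sq_sqrt (by linarith)]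
      calc ∑ j, ‖G x j‖ ^ 2 ≤ ∑ _j : Fin d, |G x i| ^ 2 :=
            Finset.sum_le_sum fun j hj => by
              rw [Real.norm_eq_abs]; exact pow_le_pow_left₀ (abs_nonneg _) (hi j hj) 2
        _ = _ := by simp
    rcases le_total 0 (G x i) with hpos | hneg
    · refine ⟨(i, true), ⟨hx, hxP⟩, ?_⟩
      show c * ‖G x‖ ≤ ⟪G x, ν (i, true)⟫
      rw [abs_of_nonneg hpos] at hmax
      simpa [hν, EuclideanSpace.inner_single_right] using hmax
    · refine ⟨(i, false), ⟨hx, hxP⟩, ?_⟩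
      show c * ‖G x‖ ≤ ⟪G x, ν (i, false)⟫
      rw [abs_of_nonpos hneg] at hmax
      simpa [hν, EuclideanSpace.inner_single_right] using hmax
  have hboth : ∀ x ∈ D, ∀ y ∈ D,
      ENNReal.ofReal (M x - M y) ≤ C1 * phi u a (Lwin d) e y ∧
      (y ∉ P → ENNReal.ofReal (M x - M y) ≤ C1 * ENNReal.ofReal (phi0 u a (Lwin d) e)) := by
    intro x hx y hy
    obtain ⟨⟨hxb, z0, r0, h01, h02, hopt0⟩, -, -⟩ := hx
    obtain ⟨⟨hyb, z1, r1, h11, h12, hopt1⟩, hdy, hne⟩ := hy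
    obtain ⟨hsph, hg⟩ := umax_grad_of_isOpt hd1 hu hopt1 hdy hne
    obtain ⟨ha, hb⟩ := hcmp u a c0 e x z0 y z1 r0 r1 hu hwin he (mem_ball_iff_norm.1 hxb).le
      (mem_ball_iff_norm.1 hyb).le h01 h02 hopt0 h11 h12 hopt1 hsph
    refine ⟨ha, fun hyP => hb ?_⟩
    have hyD : y ∈ D := ⟨⟨hyb, z1, r1, h11, h12, hopt1⟩, hdy, hne⟩
    have hle : ⟪G y, e⟫ ≤ ‖G y‖ / 2 := not_lt.1 fun h => hyP ⟨hyD, h⟩
    have hgp : 0 < ‖∇ (umax u) y‖ := norm_pos_iff.2 hne
    simp only [hG, hM] at hle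
    rw [hg, real_inner_smul_left, ← hg, real_inner_comm e (y - z1)] at hle
    have h3 : -(⟪e, y - z1⟫ / r1) ≤ 1 / 2 := by
      refine le_of_mul_le_mul_left ?_ hgp
      calc _ = -(‖∇ (umax u) y‖ / r1) * ⟪e, y - z1⟫ := by ring
        _ ≤ _ := hle.trans (le_of_eq (by ring))
    rw [inner_smul_right, inv_mul_eq_div]
    linarith
  have hCphi : Measurable fun x => C1 * phi u a (Lwin d) e x :=
    (measurable_phi u a e (Lwin d)).const_mul C1
  have hPbound : ∫⁻ x in P, ‖∇ M x‖ₑ ≤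
      ENNReal.ofReal 2 * (C2 * (C1 * C3)) * ENNReal.ofReal (phi0 u a (Lwin d) e) := by
    refine (hbin u c0 e (1 / 2) P (fun x => C1 * phi u a (Lwin d) e x) hu he (by norm_num)
      (by norm_num) (by nlinarith [Real.sq_sqrt (by linarith : (0 : ℝ) ≤ d)]) hPm inter_subset_left
      (fun x hx => le_of_lt (lt_of_le_of_lt (le_of_eq (by ring)) hx.2)) hCphi
      (fun x s => by rw [phi_add_smul u a e _ he x s]) fun x hx y hy => (hboth x hx.1 y hy.1).1).trans ?_
    rw [lintegral_const_mul' _ _ hC1, show ((1 : ℝ) / 2)⁻¹ = 2 by norm_num]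
    calc ENNReal.ofReal 2 * (C2 * (C1 * ∫⁻ x in ball c0 (3 * Real.sqrt d), phi u a (Lwin d) e x))
        ≤ ENNReal.ofReal 2 * (C2 * (C1 * (C3 * ENNReal.ofReal (phi0 u a (Lwin d) e)))) :=
          mul_le_mul le_rfl (mul_le_mul le_rfl (mul_le_mul le_rfl (hphi u a e c0 hu he) zero_le
            zero_le) zero_le zero_le) zero_le zero_le
      _ = _ := by simp only [mul_assoc]
  have hSbound : ∀ i, ∫⁻ x in S i, ‖∇ M x‖ₑ ≤
      ENNReal.ofReal (Real.sqrt d) * (C2 * (C1 * V)) * ENNReal.ofReal (phi0 u a (Lwin d) e) := by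
    intro i
    refine (hbin u c0 (ν i) c (S i) (fun _ => C1 * ENNReal.ofReal (phi0 u a (Lwin d) e)) hu (hνn i)
      (inv_pos.2 hsd) (inv_le_one_of_one_le₀ (Real.one_le_sqrt.2 (by linarith))) ?_ (hSm i)
      (fun x hx => hx.1.1) (fun x hx => hx.2) measurable_const (fun _ _ => rfl)
      fun x hx y hy => (hboth x hx.1.1 y hy.1.1).2 hy.1.2).trans ?_
    · rw [hc, ← div_eq_mul_inv, lt_div_iff₀ hsd, Real.mul_self_sqrt (by linarith)]
      linarith
    · rw [setLIntegral_const, hc, inv_inv, Measure.addHaar_ball_center volume c0, ← hV]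
      exact le_of_eq (by ring)
  calc ∫⁻ x in S0, ‖∇ M x‖ₑ ≤ ∫⁻ x in P ∪ ⋃ i, S i, ‖∇ M x‖ₑ :=
        hSD.trans (lintegral_mono_set hcover)
    _ ≤ (∫⁻ x in P, ‖∇ M x‖ₑ) + ∫⁻ x in ⋃ i, S i, ‖∇ M x‖ₑ := lintegral_union_le _ _ _
    _ ≤ ENNReal.ofReal 2 * (C2 * (C1 * C3)) * ENNReal.ofReal (phi0 u a (Lwin d) e) +
        ∑' _i : Fin d × Bool, ENNReal.ofReal (Real.sqrt d) * (C2 * (C1 * V)) *
          ENNReal.ofReal (phi0 u a (Lwin d) e) :=
        add_le_add hPbound ((lintegral_iUnion_le S _).trans (ENNReal.tsum_le_tsum hSbound))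
    _ = _ := by
        rw [tsum_fintype, Finset.sum_const, Finset.card_univ, Fintype.card_prod, Fintype.card_fin,
          Fintype.card_bool, nsmul_eq_mul]
        push_cast
        ring

end

end Vale.Agent.P137.Unc
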