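import Vale.Agent.P137.Unc.KernelBasic

/-!
# P137, uncentred operator: the chord kernel
-/

open MeasureTheory Metric Set
open scoped ENNReal RealInnerProductSpace

namespace Vale.Agent.P137.Unc

noncomputable section

variable {d : ℕ}

theorem norm_lat_sq {e : E d} (he : ‖e‖ = 1) (v : E d) :
    ‖lat e v‖ ^ 2 = ‖v‖ ^ 2 - ⟪e, v⟫ ^ 2 := by
  rw [lat, norm_sub_sq_real, inner_smul_right, norm_smul, he, real_inner_comm e v,
    Real.norm_eq_abs, mul_one, sq_abs]
  ring

theorem norm_lat_le {e : E d} (he : ‖e‖ = 1) (v : E d) : ‖lat e v‖ ≤ ‖v‖ := by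
  nlinarith [norm_lat_sq he v, norm_nonneg v, norm_nonneg (lat e v), sq_nonneg ⟪e, v⟫]

theorem abs_inner_le {e : E d} (he : ‖e‖ = 1) (v : E d) : |⟪e, v⟫| ≤ ‖v‖ := by
  simpa [he] using abs_real_inner_le_norm e v

theorem sqrt_sub_sqrt_le {x y : ℝ} (hy : 0 ≤ y) :
    Real.sqrt x - Real.sqrt y ≤ Real.sqrt |x - y| := by
  have hx : x ≤ (Real.sqrt y + Real.sqrt |x - y|) ^ 2 := by
    rw [add_sq, Real.sq_sqrt hy, Real.sq_sqrt (abs_nonneg _)]
    nlinarith [Real.sqrt_nonneg y, Real.sqrt_nonneg |x - y|, le_abs_self (x - y)]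
  have := Real.sqrt_le_sqrt hx
  rw [Real.sqrt_sq (by positivity)] at this
  linarith

/-- Half length of the chord of a ball of radius `r` in direction `e`. -/
def halfChord (e : E d) (r : ℝ) (v : E d) : ℝ := Real.sqrt (r ^ 2 - min ‖lat e v‖ r ^ 2)

theorem halfChord_sub_le {e : E d} (he : ‖e‖ = 1) {r : ℝ} (hr : 0 ≤ r) (v v' : E d) :
    halfChord e r v - halfChord e r v' ≤ Real.sqrt (2 * r) * Real.sqrt ‖v - v'‖ := by
  have m0 : ∀ w : E d, 0 ≤ min ‖lat e w‖ r := fun w => le_min (norm_nonneg _) hr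
  have m1 : ∀ w : E d, min ‖lat e w‖ r ≤ r := fun w => min_le_right _ _
  refine (sqrt_sub_sqrt_le (by nlinarith [m0 v', m1 v'])).trans ?_
  rw [← Real.sqrt_mul (by positivity)]
  apply Real.sqrt_le_sqrt
  have h1 : |min ‖lat e v'‖ r - min ‖lat e v‖ r| ≤ ‖v - v'‖ := by
    refine (abs_min_sub_min_le_max _ _ _ _).trans ?_
    rw [sub_self, abs_zero, max_eq_left (abs_nonneg _)]
    refine (abs_norm_sub_norm_le _ _).trans ?_
    have : lat e v' - lat e v = lat e (v' - v) := by
      simp only [lat, inner_sub_right, sub_smul]; abel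
    rw [this, norm_sub_rev v v']
    exact norm_lat_le he _
  calc |r ^ 2 - min ‖lat e v‖ r ^ 2 - (r ^ 2 - min ‖lat e v'‖ r ^ 2)|
      = |min ‖lat e v'‖ r - min ‖lat e v‖ r| * (min ‖lat e v'‖ r + min ‖lat e v‖ r) := by
        rw [show r ^ 2 - min ‖lat e v‖ r ^ 2 - (r ^ 2 - min ‖lat e v'‖ r ^ 2)
          = (min ‖lat e v'‖ r - min ‖lat e v‖ r) * (min ‖lat e v'‖ r + min ‖lat e v‖ r) by ring,
          abs_mul, abs_of_nonneg (add_nonneg (m0 v') (m0 v))]
    _ ≤ ‖v - v'‖ * (2 * r) :=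
        mul_le_mul h1 (by linarith [m1 v, m1 v']) (add_nonneg (m0 _) (m0 _)) (norm_nonneg _)
    _ = _ := mul_comm _ _

theorem volume_real_Icc_inter_Ioo (t a b : ℝ) :
    volume.real (Icc 0 t ∩ Ioo a b) = max (min t b - max 0 a) 0 := by
  have h1 : Ioo (max 0 a) (min t b) ⊆ Icc 0 t ∩ Ioo a b := fun s hs =>
    ⟨⟨((le_max_left 0 a).trans_lt hs.1).le, (hs.2.trans_le (min_le_left _ _)).le⟩,
      (le_max_right 0 a).trans_lt hs.1, hs.2.trans_le (min_le_right _ _)⟩
  have h2 : Icc 0 t ∩ Ioo a b ⊆ Icc (max 0 a) (min t b) := fun s hs =>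
    ⟨max_le hs.1.1 hs.2.1.le, le_min hs.1.2 hs.2.2.le⟩
  have : volume (Icc 0 t ∩ Ioo a b) = ENNReal.ofReal (min t b - max 0 a) := by
    refine le_antisymm ((measure_mono h2).trans_eq Real.volume_Icc) ?_
    exact (Real.volume_Ioo (a := max 0 a) (b := min t b)).symm.trans_le (measure_mono h1)
  rw [Measure.real, this, ENNReal.toReal_ofReal']

theorem chord_formula {e : E d} (he : ‖e‖ = 1) {r : ℝ} (hr : 0 < r) (z : E d) (t : ℝ) (y : E d) :
    chord e z r t y = (volume.real (ball z r))⁻¹ *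
      max (min t (⟪e, y - z⟫ + halfChord e r (y - z))
        - max 0 (⟪e, y - z⟫ - halfChord e r (y - z))) 0 := by
  rw [chord, ← volume_real_Icc_inter_Ioo]
  congr 2
  ext s
  simp only [Set.mem_ofPred_eq, mem_inter_iff, and_congr_right_iff, mem_Ioo]
  intro _
  set v := y - z with hv
  have hy : y - (z + s • e) = v - s • e := by rw [hv]; abel
  have hn : ‖v - s • e‖ ^ 2 = ‖lat e v‖ ^ 2 + (s - ⟪e, v⟫) ^ 2 := by
    rw [norm_sub_sq_real, inner_smul_right, norm_smul, he, real_inner_comm e v,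
      Real.norm_eq_abs, mul_one, sq_abs, norm_lat_sq he]
    ring
  have key : ‖v - s • e‖ < r ↔ |s - ⟪e, v⟫| < halfChord e r v := by
    rw [halfChord, Real.lt_sqrt (abs_nonneg _), sq_abs]
    constructor
    · intro h
      have h' : ‖v - s • e‖ ^ 2 < r ^ 2 := pow_lt_pow_left₀ h (norm_nonneg _) two_ne_zero
      have : min ‖lat e v‖ r ^ 2 ≤ ‖lat e v‖ ^ 2 :=
        pow_le_pow_left₀ (le_min (norm_nonneg _) hr.le) (min_le_left _ _) 2
      linarith
    · intro h
      have : ‖lat e v‖ < r := by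
        by_contra hc
        rw [min_eq_right (not_lt.1 hc)] at h
        nlinarith [sq_nonneg (s - ⟪e, v⟫)]
      rw [min_eq_left this.le] at h
      exact lt_of_pow_lt_pow_left₀ 2 hr.le (by linarith)
  rw [hy, key, abs_lt]
  constructor <;> intro h <;> constructor <;> linarith [h.1, h.2]

theorem max_sub_max_le' (a b : ℝ) : max a 0 - max b 0 ≤ |a - b| :=
  (le_abs_self _).trans (by
    simpa using abs_max_sub_max_le_max a 0 b 0)

/-- The chord is a kernel with increments `O(sqrt side)`. -/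
theorem chord_kern (d : ℕ) (hd : 2 ≤ d) : ∃ C, 0 ≤ C ∧ ∀ (a e z : E d) (r t : ℝ),
    ‖e‖ = 1 → (d : ℝ) ≤ r → r ≤ 300 * d → 0 ≤ t → t ≤ 300 * d →
    (∀ y, ‖y - z‖ ≤ r + t → y ∈ window a (Lwin d)) →
    Kern (chord e z r t) a (Lwin d) C ∧
      ∀ m k, inc (chord e z r t) a (Lwin d) (Kc d) m k ≤ C * qdec ^ m := by
  set c := (volume.real (ball (0 : E d) 1))⁻¹ with hc
  have hc0 : 0 ≤ c := inv_nonneg.2 measureReal_nonneg
  set A := c * (2 + 2 * Real.sqrt (2 * (300 * d)))
  set B := c * (300 * d)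
  set C := max B (A * (3 * Kc d * Lwin d + Real.sqrt (3 * Kc d * Lwin d))) with hC
  have hA : 0 ≤ A := by positivity
  have hB : 0 ≤ B := by positivity
  refine ⟨C, hB.trans (le_max_left _ _), fun a e z r t he hr1 hr2 ht1 ht2 hwin => ?_⟩
  have hd' : (2 : ℝ) ≤ d := by exact_mod_cast hd
  have hr : 0 < r := by linarith
  have hcr : (volume.real (ball z r))⁻¹ ≤ c := ball_inv_le z (by linarith)
  have hcr0 : 0 ≤ (volume.real (ball z r))⁻¹ := inv_nonneg.2 measureReal_nonneg
  have h0 : ∀ y, 0 ≤ chord e z r t y := fun y => by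
    rw [chord_formula he hr]; exact mul_nonneg hcr0 (le_max_right _ _)
  have hle : ∀ y, chord e z r t y ≤ B := fun y => by
    rw [chord_formula he hr]
    refine mul_le_mul hcr (max_le ?_ (by linarith)) (le_max_right _ _) hc0
    have h1 := min_le_left t (⟪e, y - z⟫ + halfChord e r (y - z))
    have h2 := le_max_left 0 (⟪e, y - z⟫ - halfChord e r (y - z))
    linarith
  have hmod : ∀ y y', chord e z r t y - chord e z r t y'
      ≤ A * (‖y - y'‖ + Real.sqrt ‖y - y'‖) := by
    intro y y'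
    rw [chord_formula he hr, chord_formula he hr, ← mul_sub]
    set α := ⟪e, y - z⟫ with hα
    set α' := ⟪e, y' - z⟫ with hα'
    set h := halfChord e r (y - z) with hh
    set h' := halfChord e r (y' - z) with hh'
    have ha : |α - α'| ≤ ‖y - y'‖ := by
      rw [hα, hα', ← inner_sub_right]
      simpa using abs_inner_le he (y - y')
    have hk : |h - h'| ≤ Real.sqrt (2 * (300 * d)) * Real.sqrt ‖y - y'‖ := by
      have hs : Real.sqrt (2 * r) ≤ Real.sqrt (2 * (300 * d)) := Real.sqrt_le_sqrt (by linarith)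
      have hs' := mul_le_mul_of_nonneg_right hs (Real.sqrt_nonneg ‖y - y'‖)
      have e1 : y - z - (y' - z) = y - y' := by abel
      have e2 : y' - z - (y - z) = y' - y := by abel
      have h1 := halfChord_sub_le he hr.le (y - z) (y' - z)
      have h2 := halfChord_sub_le he hr.le (y' - z) (y - z)
      rw [e1] at h1
      rw [e2, norm_sub_rev] at h2
      rw [abs_le]; constructor <;> linarith
    have hdiff : max (min t (α + h) - max 0 (α - h)) 0 - max (min t (α' + h') - max 0 (α' - h')) 0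
        ≤ (2 + 2 * Real.sqrt (2 * (300 * d))) * (‖y - y'‖ + Real.sqrt ‖y - y'‖) := by
      refine (max_sub_max_le' _ _).trans ?_
      have q1 : |min t (α + h) - min t (α' + h')| ≤ |α - α'| + |h - h'| := by
        refine ((abs_min_sub_min_le_max _ _ _ _).trans ?_).trans (abs_add_le _ _)
        rw [sub_self, abs_zero]
        exact max_le (abs_nonneg _) (le_of_eq (by congr 1; ring))
      have q2 : |max 0 (α - h) - max 0 (α' - h')| ≤ |α - α'| + |h - h'| := by
        refine ((abs_max_sub_max_le_max _ _ _ _).trans ?_).trans (abs_sub _ _)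
        rw [sub_self, abs_zero]
        exact max_le (abs_nonneg _) (le_of_eq (by congr 1; ring))
      have q0 : |min t (α + h) - max 0 (α - h) - (min t (α' + h') - max 0 (α' - h'))|
          ≤ |min t (α + h) - min t (α' + h')| + |max 0 (α - h) - max 0 (α' - h')| := by
        refine le_trans (le_of_eq ?_) (abs_sub _ _)
        congr 1; ring
      nlinarith [norm_nonneg (y - y'), Real.sqrt_nonneg ‖y - y'‖,
        Real.sqrt_nonneg (2 * (300 * (d : ℝ)))]
    calc (volume.real (ball z r))⁻¹ *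
          (max (min t (α + h) - max 0 (α - h)) 0 - max (min t (α' + h') - max 0 (α' - h')) 0)
        ≤ (volume.real (ball z r))⁻¹ *
          ((2 + 2 * Real.sqrt (2 * (300 * d))) * (‖y - y'‖ + Real.sqrt ‖y - y'‖)) :=
          mul_le_mul_of_nonneg_left hdiff hcr0
      _ ≤ c * ((2 + 2 * Real.sqrt (2 * (300 * d))) * (‖y - y'‖ + Real.sqrt ‖y - y'‖)) :=
          mul_le_mul_of_nonneg_right hcr (by positivity)
      _ = A * (‖y - y'‖ + Real.sqrt ‖y - y'‖) := (mul_assoc _ _ _).symm
  have hcont : Continuous (chord e z r t) := by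
    rw [show chord e z r t = fun y => (volume.real (ball z r))⁻¹ *
      max (min t (⟪e, y - z⟫ + halfChord e r (y - z))
        - max 0 (⟪e, y - z⟫ - halfChord e r (y - z))) 0 from funext (chord_formula he hr z t)]
    simp only [halfChord, lat]
    fun_prop
  have hL : 0 < Lwin d := zero_lt_one.trans_le (Lwin_ge_one d)
  refine ⟨⟨h0, fun y => (hle y).trans (le_max_left _ _), hcont.measurable,
    Filter.Eventually.of_forall fun y => hcont.continuousAt, fun y hy => ?_⟩,
    fun m k => inc_le_qdec hL h0 hle hA hmod m k⟩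
  obtain ⟨s, hs⟩ : {s : ℝ | s ∈ Icc 0 t ∧ ‖y - (z + s • e)‖ < r}.Nonempty := by
    rw [nonempty_iff_ne_empty]
    intro h
    apply hy
    rw [chord, h, measureReal_empty, mul_zero]
  apply hwin
  have : y - z = (y - (z + s • e)) + s • e := by abel
  rw [this]
  refine (norm_add_le _ _).trans (add_le_add hs.2.le ?_)
  rw [norm_smul, he, mul_one, Real.norm_of_nonneg hs.1.1]
  exact hs.1.2

end
end Vale.Agent.P137.Unc
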