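import Vale.Agent.P137.Unc.KernelDil

/-!
# P137, uncentred operator: the comparison kernel (homothety about a deep point)
-/

open MeasureTheory Metric Set Filter
open scoped ENNReal RealInnerProductSpace Topology

namespace Vale.Agent.P137.Unc

noncomputable section

variable {d : ℕ}

/-- The ball of the homothety family at parameter `t` (gauge form). -/
theorem gauge_mono {q P y : E d} {R k : ℝ} (hk : k ≤ R - ‖P - q‖) {t t' : ℝ} (h : t ≤ t') :
    ‖y - (q + t' • (P - q))‖ - t' * R
      ≤ ‖y - (q + t • (P - q))‖ - t * R - (t' - t) * k := by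
  have h1 : ‖y - (q + t' • (P - q))‖
      ≤ ‖y - (q + t • (P - q))‖ + (t' - t) * ‖P - q‖ := by
    have : y - (q + t' • (P - q)) = (y - (q + t • (P - q))) - (t' - t) • (P - q) := by
      rw [sub_smul]; abel
    rw [this]
    refine (norm_sub_le _ _).trans_eq ?_
    rw [norm_smul, Real.norm_of_nonneg (sub_nonneg.2 h)]
  have h2 := mul_le_mul_of_nonneg_left hk (sub_nonneg.2 h)
  linarith

variable {q P e p : E d} {R k u0 : ℝ}

theorem hom_set_measurable (q P y : E d) (R : ℝ) :
    MeasurableSet {t : ℝ | ‖y - (q + t • (P - q))‖ < t * R} :=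
  measurableSet_lt (by fun_prop) (by fun_prop)

theorem inv_pow_mem' (d : ℕ) (hu : 1 / 64 ≤ u0) {t : ℝ} (ht : t ∈ Icc u0 1) :
    0 ≤ (t ^ (d + 1))⁻¹ ∧ (t ^ (d + 1))⁻¹ ≤ 64 ^ (d + 1) := by
  have ht0 : 0 < t := lt_of_lt_of_le (by norm_num) (hu.trans ht.1)
  refine ⟨inv_nonneg.2 (pow_nonneg ht0.le _), ?_⟩
  rw [← inv_pow]
  refine pow_le_pow_left₀ (inv_nonneg.2 ht0.le) ?_ _
  rw [inv_le_iff_one_le_mul₀ ht0]
  linarith [hu.trans ht.1]

/-- The homothety kernel about a deep point is Lipschitz. -/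
theorem hom_sub_le (hu : 1 / 64 ≤ u0) (hk0 : 0 < k) (hk : k ≤ R - ‖P - q‖) (y y' : E d) :
    homKer q P R u0 1 y - homKer q P R u0 1 y'
      ≤ (volume.real (ball P R))⁻¹ * (64 ^ (d + 1) * (‖y - y'‖ / k)) := by
  rw [homKer, homKer, ← mul_sub]
  refine mul_le_mul_of_nonneg_left ?_ (inv_nonneg.2 measureReal_nonneg)
  refine cut_sub_le _ _ (hom_set_measurable q P y R) (hom_set_measurable q P y' R) (by fun_prop)
    (fun t ht => (inv_pow_mem' d hu ht).1) (fun t ht => (inv_pow_mem' d hu ht).2) (by positivity)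
    (by positivity) ?_
  intro s _ s' _ h1 _ _ h4
  rcases le_total s' s with h | h
  · have : 0 ≤ ‖y - y'‖ / k := by positivity
    linarith
  · rw [le_div_iff₀ hk0]
    have hm := gauge_mono (y := y') hk h
    have h5 : ‖y' - (q + s • (P - q))‖ ≤ ‖y - (q + s • (P - q))‖ + ‖y - y'‖ := by
      have := norm_sub_le_norm_sub_add_norm_sub y' y (q + s • (P - q))
      rw [norm_sub_rev y' y] at this
      linarith
    linarith [not_lt.1 h4]

theorem hom_nonneg (hu : 1 / 64 ≤ u0) (y : E d) : 0 ≤ homKer q P R u0 1 y :=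
  mul_nonneg (inv_nonneg.2 measureReal_nonneg) (cut_nonneg _ fun _ ht => (inv_pow_mem' d hu ht).1)

theorem hom_le (hu : 1 / 64 ≤ u0) (y : E d) :
    homKer q P R u0 1 y ≤ (volume.real (ball P R))⁻¹ * 64 ^ (d + 1) := by
  rw [homKer]
  refine mul_le_mul_of_nonneg_left ?_ (inv_nonneg.2 measureReal_nonneg)
  have h := cut_sub_le (a := u0) (b := 1) (B := 64 ^ (d + 1)) (η := 1)
    (f := fun t => (t ^ (d + 1))⁻¹) (fun t => ‖y - (q + t • (P - q))‖ < t * R) (fun _ => False)
    (hom_set_measurable q P y R) (by simp) (by fun_prop)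
    (fun t ht => (inv_pow_mem' d hu ht).1) (fun t ht => (inv_pow_mem' d hu ht).2)
    (by positivity) zero_le_one
    (fun s hs s' hs' _ _ _ _ => by linarith [hs.1, hs'.2, show (0:ℝ) < 1 / 64 by norm_num])
  simpa using h

/-- Where the homothety kernel is nonzero, the point is in the outer ball. -/
theorem hom_ne_zero (hk0 : 0 < k) (hk : k ≤ R - ‖P - q‖) {y : E d}
    (h : homKer q P R u0 1 y ≠ 0) : ‖y - P‖ < R := by
  by_contra hc
  apply h
  rw [homKer, cut_eq_zero _ fun t ht hlt => ?_, mul_zero]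
  have hm := gauge_mono (y := y) hk ht.2
  rw [one_smul, add_sub_cancel, one_mul] at hm
  nlinarith [ht.2, not_lt.1 hc]

/-- The homothety kernel vanishes linearly at the boundary of the outer ball. -/
theorem hom_le_height (hu : 1 / 64 ≤ u0) (hk0 : 0 < k) (hk : k ≤ R - ‖P - q‖) (he : ‖e‖ = 1)
    (hP : P = p + R • e) (y : E d) :
    homKer q P R u0 1 y
      ≤ (volume.real (ball P R))⁻¹ * (64 ^ (d + 1) * (max ⟪e, y - p⟫ 0 / k)) := by
  rw [homKer]
  refine mul_le_mul_of_nonneg_left ?_ (inv_nonneg.2 measureReal_nonneg)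
  have h := cut_sub_le (a := u0) (b := 1) (B := 64 ^ (d + 1)) (η := max ⟪e, y - p⟫ 0 / k)
    (f := fun t => (t ^ (d + 1))⁻¹) (fun t => ‖y - (q + t • (P - q))‖ < t * R) (fun _ => False)
    (hom_set_measurable q P y R) (by simp) (by fun_prop)
    (fun t ht => (inv_pow_mem' d hu ht).1) (fun t ht => (inv_pow_mem' d hu ht).2)
    (by positivity) (by positivity) ?_
  · simpa using h
  intro s hs s' hs' h1 _ _ _
  rw [le_div_iff₀ hk0]
  have hm := gauge_mono (y := y) hk hs.2
  rw [one_smul, add_sub_cancel, one_mul] at hm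
  have h2 : R - ⟪e, y - p⟫ ≤ ‖y - P‖ := by
    have h3 := (le_abs_self _).trans (abs_inner_le he (P - y))
    have h4 : P - y = R • e - (y - p) := by rw [hP]; abel
    rw [norm_sub_rev y P]
    nth_rewrite 1 [h4] at h3
    rw [inner_sub_right, inner_smul_right, real_inner_self_eq_norm_sq, he] at h3
    linarith
  nlinarith [le_max_left ⟪e, y - p⟫ 0, hs'.2]

/-- The dilation kernel is bounded below on `ball (p + 32 r e) (32 r)`. -/
theorem dil_lower {r : ℝ} (he : ‖e‖ = 1) (hr : 0 < r) {y : E d}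
    (hy : ‖y - (p + (32 * r) • e)‖ < 32 * r) :
    (volume.real (ball (p + r • e) r))⁻¹ * (32 * (64 ^ (d + 1) : ℝ)⁻¹)
      ≤ homKer p (p + r • e) r 1 64 y := by
  rw [homKer_bottom he p hr]
  refine mul_le_mul_of_nonneg_left ?_ (inv_nonneg.2 measureReal_nonneg)
  have h1 : ‖y - p‖ ^ 2 < 64 * r * ⟪e, y - p⟫ := by
    have h2 : ‖y - (p + (32 * r) • e)‖ ^ 2 < (32 * r) ^ 2 :=
      pow_lt_pow_left₀ hy (norm_nonneg _) two_ne_zero
    rw [← sub_sub, norm_sub_sq_real, inner_smul_right, norm_smul, he, real_inner_comm e (y - p),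
      Real.norm_eq_abs, mul_one, sq_abs] at h2
    linarith
  have hα : 0 < ⟪e, y - p⟫ := by nlinarith [sq_nonneg ‖y - p‖]
  rw [if_pos hα]
  set θ := ‖y - p‖ ^ 2 / (2 * r * ⟪e, y - p⟫)
  have hθ : θ < 32 := by rw [div_lt_iff₀ (by positivity)]; linarith
  have hint : IntegrableOn (fun t : ℝ => if θ < t then (t ^ (d + 1))⁻¹ else 0) (Icc 1 64) := by
    refine IntegrableOn.of_bound measure_Icc_lt_top
      ((Measurable.ite measurableSet_Ioi (by fun_prop) measurable_const).aestronglyMeasurable)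
      1 (ae_restrict_of_forall_mem measurableSet_Icc fun t ht => ?_)
    by_cases h : θ < t
    · rw [if_pos h, Real.norm_of_nonneg (inv_pow_mem d ht).1]; exact (inv_pow_mem d ht).2
    · rw [if_neg h, norm_zero]; exact zero_le_one
  calc (32 : ℝ) * ((64 : ℝ) ^ (d + 1))⁻¹
      = ∫ _t in Icc (32 : ℝ) 64, ((64 : ℝ) ^ (d + 1))⁻¹ := by
        simp; norm_num
    _ ≤ ∫ t in Icc (32 : ℝ) 64, if θ < t then (t ^ (d + 1))⁻¹ else 0 := by
        refine setIntegral_mono_on (integrableOn_const measure_Icc_lt_top.ne)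
          (hint.mono_set (Icc_subset_Icc (by norm_num) le_rfl)) measurableSet_Icc fun t ht => ?_
        rw [if_pos (hθ.trans_le ht.1)]
        exact inv_anti₀ (pow_pos (by linarith [ht.1]) _)
          (pow_le_pow_left₀ (by linarith [ht.1]) ht.2 _)
    _ ≤ dilProfile d θ := by
        rw [dilProfile]
        refine setIntegral_mono_set hint (ae_restrict_of_forall_mem measurableSet_Icc fun t ht => ?_)
          (Eventually.of_forall (Icc_subset_Icc (by norm_num) le_rfl))
        show (0 : ℝ) ≤ if θ < t then (t ^ (d + 1))⁻¹ else 0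
        by_cases h : θ < t
        · rw [if_pos h]; exact (inv_pow_mem d ht).1
        · rw [if_neg h]

/-- Comparison of `ball w ρ` with the homothetic `ball (p + R e) R`, `R = 32 r`: the kernel is
dominated by the height times the dilation kernel, both with Lipschitz increments. -/
theorem cmp_kern (d : ℕ) (hd : 2 ≤ d) : ∃ A C, 0 < A ∧ 0 < C ∧ ∀ (a e p w : E d) (r ρ : ℝ),
    ‖e‖ = 1 → 2 * (d : ℝ) ≤ r → r ≤ 4 * d → 2 * (d : ℝ) ≤ ρ → ρ ≤ 4 * d →
    ‖w - (p + (32 * r) • e)‖ ≤ 10 * d →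
    (∀ y, ‖y - p‖ ≤ 128 * r → y ∈ window a (Lwin d)) →
    ∃ q : E d, (∀ y ∈ window a (Lwin d), ‖y - q‖ ≤ C) ∧
      q + (ρ / (32 * r)) • ((p + (32 * r) • e) - q) = w ∧
      let H := homKer q (p + (32 * r) • e) (32 * r) (ρ / (32 * r)) 1
      let H2 := fun y => A * (max ⟪e, y - p⟫ 0 * homKer p (p + r • e) r 1 64 y) - H y
      Kern H a (Lwin d) C ∧ (∀ m k, inc H a (Lwin d) (Kc d) m k ≤ C * qdec ^ m) ∧
      Kern H2 a (Lwin d) C ∧ (∀ m k, inc H2 a (Lwin d) (Kc d) m k ≤ C * qdec ^ m) := by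
  set c := (volume.real (ball (0 : E d) 1))⁻¹ with hcdef
  have hd' : (2 : ℝ) ≤ d := by exact_mod_cast hd
  have hc0 : 0 < c := inv_pos.2 (ENNReal.toReal_pos (measure_ball_pos volume _ one_pos).ne'
    measure_ball_lt_top.ne)
  set low2 := c * ((4 * (d : ℝ)) ^ d)⁻¹ * (32 * ((64 : ℝ) ^ (d + 1))⁻¹) with hlow
  have hlow0 : 0 < low2 := by positivity
  set B1 := c * 64 ^ (d + 1) with hB1
  set A := B1 / low2 with hA
  have hA0 : 0 < A := by positivity
  set B2 := A * (512 * d * (c * 63)) with hB2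
  set Lip := A * (c * 256) + B1 with hLip
  set LL := Lwin d
  have hL : 0 < LL := zero_lt_one.trans_le (Lwin_ge_one d)
  have hK := Kc_pos d
  set X := Lip * (3 * Kc d * LL + Real.sqrt (3 * Kc d * LL)) with hX
  set C := max (max B1 B2) X + Real.sqrt d * LL + 1 with hC
  have hB10 : 0 < B1 := by positivity
  have hB20 : 0 ≤ B2 := by positivity
  have hLip0 : 0 ≤ Lip := by positivity
  have hX0 : 0 ≤ X := by positivity
  have hdL : 0 ≤ Real.sqrt d * LL := by positivity
  have hC1 : max B1 X ≤ C := by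
    rw [hC]; linarith [max_le_max_right X (le_max_left B1 B2)]
  have hC2 : max B2 X ≤ C := by
    rw [hC]; linarith [max_le_max_right X (le_max_right B1 B2)]
  have hC0 : 0 < C := lt_of_lt_of_le hB10 ((le_max_left _ _).trans hC1)
  refine ⟨A, C, hA0, hC0, fun a e p w r ρ he hr1 hr2 hρ1 hρ2 hw hwin => ?_⟩
  have hr : 0 < r := by linarith
  set R := 32 * r with hR
  set P := p + R • e with hP
  set u0 := ρ / R with hu0
  have hR0 : 0 < R := by positivity
  have hu : 1 / 64 ≤ u0 := by rw [hu0, le_div_iff₀ hR0]; linarith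
  have hu' : u0 ≤ 1 / 16 := by rw [hu0, div_le_iff₀ hR0]; linarith
  have h1u : 0 < 1 - u0 := by linarith
  set q := (1 - u0)⁻¹ • (w - u0 • P) with hq
  have hcen : q + u0 • (P - q) = w := by
    rw [smul_sub, show q + (u0 • P - u0 • q) = (1 - u0) • q + u0 • P by
      rw [sub_smul, one_smul]; abel]
    rw [hq, smul_smul, mul_inv_cancel₀ h1u.ne', one_smul, sub_add_cancel]
  have hqP : ‖P - q‖ ≤ 11 * d := by
    have : q - P = (1 - u0)⁻¹ • (w - P) := by
      rw [hq, eq_inv_smul_iff₀ h1u.ne', smul_sub, smul_smul, mul_inv_cancel₀ h1u.ne', one_smul,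
        sub_smul, one_smul]
      abel
    rw [norm_sub_rev, this, norm_smul, Real.norm_of_nonneg (inv_nonneg.2 h1u.le),
      inv_mul_le_iff₀ h1u]
    nlinarith
  set k := R / 2 with hk
  have hk1 : 1 ≤ k := by rw [hk, hR]; linarith
  have hk0 : 0 < k := one_pos.trans_le hk1
  have hkR : k ≤ R - ‖P - q‖ := by rw [hk]; linarith
  have hwinP : ∀ y, ‖y - P‖ ≤ R → y ∈ window a LL := by
    intro y hy
    apply hwin
    have h1 : ‖R • e‖ = R := by rw [norm_smul, he, mul_one, Real.norm_of_nonneg hR0.le]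
    have : y - p = (y - P) + R • e := by rw [hP]; abel
    rw [this]
    refine (norm_add_le _ _).trans ?_
    rw [h1]; linarith
  refine ⟨q, fun y hy => ?_, hcen, ?_⟩
  · refine (norm_sub_le_of_mem_window hL.le hy (hwinP q ?_)).trans ?_
    · rw [norm_sub_rev]; linarith
    · rw [hC]
      linarith [le_max_right (max B1 B2) X]
  intro H H2
  have hcR : (volume.real (ball P R))⁻¹ ≤ c := ball_inv_le _ (by linarith)
  have hcr : (volume.real (ball (p + r • e) r))⁻¹ ≤ c := ball_inv_le _ (by linarith)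
  have h0 : ∀ y, 0 ≤ H y := fun y => hom_nonneg hu y
  have hle : ∀ y, H y ≤ B1 := fun y => (hom_le hu y).trans
    (mul_le_mul_of_nonneg_right hcR (by positivity))
  have hlip : ∀ y y', H y - H y' ≤ B1 * ‖y - y'‖ := fun y y' => by
    refine (hom_sub_le hu hk0 hkR y y').trans ?_
    rw [hB1, mul_assoc]
    exact mul_le_mul hcR (mul_le_mul_of_nonneg_left (div_le_self (norm_nonneg _) hk1)
      (by positivity)) (by positivity) hc0.le
  set G : E d → ℝ := fun y => max ⟪e, y - p⟫ 0 * homKer p (p + r • e) r 1 64 y with hG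
  have hG0 : ∀ y, 0 ≤ G y := fun y => mul_nonneg (le_max_right _ _) (dil_nonneg he hr y)
  have hGle : ∀ y, G y ≤ 512 * d * (c * 63) := fun y => by
    by_cases h : homKer p (p + r • e) r 1 64 y = 0
    · rw [hG]; simp only [h, mul_zero]; positivity
    · refine mul_le_mul (max_le ?_ (by positivity))
        ((dil_le he hr y).trans (mul_le_mul_of_nonneg_right hcr (by norm_num)))
        (dil_nonneg he hr y) (by positivity)
      linarith [dil_norm_le he hr h, (le_abs_self _).trans (abs_inner_le he (y - p))]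
  have hGlip : ∀ y y', G y - G y' ≤ c * 256 * ‖y - y'‖ := fun y y' =>
    (dil_weighted_sub_le he hr y y').trans
      (mul_le_mul_of_nonneg_right (by linarith) (norm_nonneg _))
  have hHG : ∀ y, H y ≤ A * G y := by
    intro y
    by_cases h : H y = 0
    · rw [h]; exact mul_nonneg hA0.le (hG0 y)
    have hy := hom_ne_zero hk0 hkR h
    have hlo : low2 ≤ homKer p (p + r • e) r 1 64 y := by
      refine le_trans ?_ (dil_lower he hr hy)
      refine mul_le_mul_of_nonneg_right ?_ (by positivity)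
      have hv : volume.real (ball (p + r • e) r) ≤ (4 * (d : ℝ)) ^ d * volume.real (ball (0 : E d) 1) := by
        rw [Measure.real, Measure.real, Measure.addHaar_ball_of_pos volume (p + r • e) hr,
          ENNReal.toReal_mul, finrank_euclideanSpace_fin,
          ENNReal.toReal_ofReal (by positivity)]
        exact mul_le_mul_of_nonneg_right (pow_le_pow_left₀ hr.le hr2 _) ENNReal.toReal_nonneg
      rw [hcdef, mul_comm, ← mul_inv]
      exact inv_anti₀ (ENNReal.toReal_pos (measure_ball_pos volume _ hr).ne'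
        measure_ball_lt_top.ne) hv
    calc H y ≤ (volume.real (ball P R))⁻¹ * (64 ^ (d + 1) * (max ⟪e, y - p⟫ 0 / k)) :=
          hom_le_height hu hk0 hkR he hP y
      _ ≤ c * (64 ^ (d + 1) * max ⟪e, y - p⟫ 0) :=
          mul_le_mul hcR (mul_le_mul_of_nonneg_left (div_le_self (le_max_right _ _) hk1)
            (by positivity)) (by positivity) hc0.le
      _ = A * (max ⟪e, y - p⟫ 0 * low2) := by rw [hA, hB1]; field_simp
      _ ≤ A * G y := mul_le_mul_of_nonneg_left
          (mul_le_mul_of_nonneg_left hlo (le_max_right _ _)) hA0.le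
  have h20 : ∀ y, 0 ≤ H2 y := fun y => sub_nonneg.2 (hHG y)
  have h2le : ∀ y, H2 y ≤ B2 := fun y => by
    have := mul_le_mul_of_nonneg_left (hGle y) hA0.le
    show A * G y - H y ≤ B2
    linarith [h0 y]
  have h2lip : ∀ y y', H2 y - H2 y' ≤ Lip * ‖y - y'‖ := fun y y' => by
    have h1 := mul_le_mul_of_nonneg_left (hGlip y y') hA0.le
    have h2 := hlip y' y
    rw [norm_sub_rev] at h2
    show A * G y - H y - (A * G y' - H y') ≤ _
    rw [hLip]
    linarith
  have mod : ∀ {F : E d → ℝ}, (∀ y y', F y - F y' ≤ Lip * ‖y - y'‖) →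
      ∀ y y', F y - F y' ≤ Lip * (‖y - y'‖ + Real.sqrt ‖y - y'‖) := fun h y y' =>
    (h y y').trans (mul_le_mul_of_nonneg_left (by linarith [Real.sqrt_nonneg ‖y - y'‖]) hLip0)
  have hlip' : ∀ y y', H y - H y' ≤ Lip * ‖y - y'‖ := fun y y' =>
    (hlip y y').trans (mul_le_mul_of_nonneg_right
      (by rw [hLip]; linarith [show 0 ≤ A * (c * 256) by positivity]) (norm_nonneg _))
  have cont : ∀ {F : E d → ℝ}, (∀ y y', F y - F y' ≤ Lip * ‖y - y'‖) → Continuous F := fun h =>
    (LipschitzWith.of_le_add_mul Lip.toNNReal fun x y => by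
      rw [Real.coe_toNNReal _ hLip0, dist_eq_norm]; linarith [h x y]).continuous
  refine ⟨⟨h0, fun y => (hle y).trans ((le_max_left _ _).trans hC1), (cont hlip').measurable,
      Eventually.of_forall fun y => (cont hlip').continuousAt,
      fun y hy => hwinP y (hom_ne_zero hk0 hkR hy).le⟩,
    fun m j => (inc_le_qdec hL h0 hle hLip0 (mod hlip') m j).trans
      (mul_le_mul_of_nonneg_right hC1 (pow_nonneg qdec_pos.le _)),
    ⟨h20, fun y => (h2le y).trans ((le_max_left _ _).trans hC2), (cont h2lip).measurable,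
      Eventually.of_forall fun y => (cont h2lip).continuousAt, fun y hy => ?_⟩,
    fun m j => (inc_le_qdec hL h20 h2le hLip0 (mod h2lip) m j).trans
      (mul_le_mul_of_nonneg_right hC2 (pow_nonneg qdec_pos.le _))⟩
  by_cases h : homKer p (p + r • e) r 1 64 y = 0
  · have hH : H y ≠ 0 := by
      intro hH
      exact hy (by simp [H2, h, hH])
    exact hwinP y (hom_ne_zero hk0 hkR hH).le
  · exact hwin y (dil_norm_le he hr h)

end
end Vale.Agent.P137.Unc
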