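import Vale.Agent.P137.Unc.KernelBasic
import Vale.Agent.P137.Unc.KernelChord

/-!
# P137, uncentred operator: the dilation kernel about the bottom point
-/

open MeasureTheory Metric Set Filter
open scoped ENNReal RealInnerProductSpace Topology

namespace Vale.Agent.P137.Unc

noncomputable section

variable {d : ℕ}

/-- The radial profile of the dilation kernel. -/
def dilProfile (d : ℕ) (θ : ℝ) : ℝ :=
  ∫ t in Icc (1 : ℝ) 64, if θ < t then (t ^ (d + 1))⁻¹ else 0

theorem inv_pow_mem (d : ℕ) {t : ℝ} (ht : t ∈ Icc (1 : ℝ) 64) :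
    0 ≤ (t ^ (d + 1))⁻¹ ∧ (t ^ (d + 1))⁻¹ ≤ 1 :=
  ⟨inv_nonneg.2 (pow_nonneg (zero_le_one.trans ht.1) _), inv_le_one_of_one_le₀ (one_le_pow₀ ht.1)⟩

theorem dilProfile_sub_le (d : ℕ) (θ θ' : ℝ) :
    dilProfile d θ - dilProfile d θ' ≤ max (θ' - θ) 0 := by
  refine (cut_sub_le (a := 1) (b := 64) (B := 1) (η := max (θ' - θ) 0) (fun t => θ < t)
    (fun t => θ' < t) measurableSet_Ioi measurableSet_Ioi (by fun_prop)
    (fun t ht => (inv_pow_mem d ht).1) (fun t ht => (inv_pow_mem d ht).2) zero_le_one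
    (le_max_right _ _) ?_).trans_eq (one_mul _)
  intro s _ s' _ h1 _ _ h4
  exact le_trans (by linarith [not_lt.1 h4]) (le_max_left _ _)

theorem dilProfile_nonneg (d : ℕ) (θ : ℝ) : 0 ≤ dilProfile d θ :=
  cut_nonneg _ fun _ ht => (inv_pow_mem d ht).1

theorem dilProfile_eq_zero (d : ℕ) {θ : ℝ} (h : 64 ≤ θ) : dilProfile d θ = 0 :=
  cut_eq_zero _ fun _ ht => not_lt.2 (ht.2.trans h)

theorem dilProfile_le (d : ℕ) (θ : ℝ) : dilProfile d θ ≤ 63 := by
  have h := cut_sub_le (a := 1) (b := 64) (B := 1) (η := 63) (fun t => θ < t) (fun _ => False)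
    measurableSet_Ioi (by simp) (f := fun t => (t ^ (d + 1))⁻¹) (by fun_prop)
    (fun t ht => (inv_pow_mem d ht).1) (fun t ht => (inv_pow_mem d ht).2) zero_le_one
    (by norm_num) (fun s hs s' hs' _ _ _ _ => by linarith [hs.1, hs'.2])
  simpa [dilProfile] using h

theorem continuous_dilProfile (d : ℕ) : Continuous (dilProfile d) := by
  refine (LipschitzWith.of_le_add_mul 1 fun x y => ?_).continuous
  rw [Real.dist_eq, NNReal.coe_one, one_mul]
  have := dilProfile_sub_le d x y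
  have h2 : max (y - x) 0 ≤ |x - y| := max_le (by rw [abs_sub_comm]; exact le_abs_self _)
    (abs_nonneg _)
  linarith

/-- The scalar inequality behind the Lipschitz bound for the weighted profile. -/
theorem profile_weighted_le (d : ℕ) {α β s s' δ r : ℝ} (hr : 0 < r) (hα : 0 < α) (hβ : 0 < β)
    (hs : 0 ≤ s) (hs128 : s ≤ 128 * r) (hβs : β ≤ s') (hd : s' - s ≤ δ) (ha : α - β ≤ δ)
    (hδ : 0 ≤ δ) :
    α * dilProfile d (s ^ 2 / (2 * r * α)) - β * dilProfile d (s' ^ 2 / (2 * r * β))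
      ≤ 256 * δ := by
  have hs' : 0 ≤ s' := hβ.le.trans hβs
  set θ := s ^ 2 / (2 * r * α) with hθdef
  set θ' := s' ^ 2 / (2 * r * β) with hθ'def
  set μ := min θ' 64 with hμ
  have hμ' : dilProfile d θ - dilProfile d θ' ≤ max (μ - θ) 0 := by
    rcases le_total θ' 64 with h | h
    · rw [hμ, min_eq_left h]; exact dilProfile_sub_le d θ θ'
    · have h64 := dilProfile_sub_le d θ 64
      rw [dilProfile_eq_zero d (le_refl 64)] at h64
      rw [hμ, min_eq_right h, dilProfile_eq_zero d h]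
      exact h64
  have hQ0 := dilProfile_nonneg d θ'
  have hQ1 := dilProfile_le d θ'
  have hμ0 : 0 ≤ μ := le_min (by positivity) (by norm_num)
  have hμ1 : μ ≤ 64 := min_le_right _ _
  have e1 : α * θ * (2 * r) = s ^ 2 := by rw [hθdef]; field_simp
  have e2 : β * μ * (2 * r) ≤ s' ^ 2 := by
    calc β * μ * (2 * r) ≤ β * θ' * (2 * r) := by gcongr; exact min_le_left _ _
      _ = s' ^ 2 := by rw [hθ'def]; field_simp
  have e3 : β * μ * (2 * r) ≤ 128 * r * s' := by
    calc β * μ * (2 * r) ≤ s' * 64 * (2 * r) := by gcongr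
      _ = 128 * r * s' := by ring
  have e4 : (β * μ - α * θ) * (2 * r) ≤ 256 * r * δ := by
    rw [sub_mul, e1]
    rcases le_total s' (128 * r) with h | h
    · have p1 : (s' - s) * (s' + s) ≤ δ * (s' + s) :=
        mul_le_mul_of_nonneg_right hd (by linarith)
      have p2 : δ * (s' + s) ≤ δ * (256 * r) := mul_le_mul_of_nonneg_left (by linarith) hδ
      nlinarith only [e2, p1, p2]
    · have p1 : 128 * r * (s' - s) ≤ 128 * r * δ := mul_le_mul_of_nonneg_left hd (by linarith)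
      have p2 : s * (128 * r - s) ≤ s * δ := mul_le_mul_of_nonneg_left (by linarith) hs
      have p3 : s * δ ≤ 128 * r * δ := mul_le_mul_of_nonneg_right hs128 hδ
      nlinarith only [e3, p1, p2, p3]
  have e5 : β * μ - α * θ ≤ 128 * δ := by
    refine le_of_mul_le_mul_right ?_ (show 0 < 2 * r by linarith)
    linarith only [e4]
  have e6 : α * max (μ - θ) 0 ≤ 192 * δ := by
    rcases le_total (μ - θ) 0 with h | h
    · rw [max_eq_right h, mul_zero]; linarith
    · rw [max_eq_left h]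
      have q1 : (α - β) * μ ≤ δ * μ := mul_le_mul_of_nonneg_right ha hμ0
      have q2 : δ * μ ≤ δ * 64 := mul_le_mul_of_nonneg_left hμ1 hδ
      linarith only [e5, q1, q2]
  have q1 : α * (dilProfile d θ - dilProfile d θ') ≤ α * max (μ - θ) 0 :=
    mul_le_mul_of_nonneg_left hμ' hα.le
  have q2 : (α - β) * dilProfile d θ' ≤ δ * dilProfile d θ' := mul_le_mul_of_nonneg_right ha hQ0
  have q3 : δ * dilProfile d θ' ≤ δ * 63 := mul_le_mul_of_nonneg_left hQ1 hδ
  linarith only [e6, q1, q2, q3, hδ]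

theorem homKer_bottom {e : E d} (he : ‖e‖ = 1) (p : E d) {r : ℝ} (hr : 0 < r) (y : E d) :
    homKer p (p + r • e) r 1 64 y = (volume.real (ball (p + r • e) r))⁻¹ *
      if 0 < ⟪e, y - p⟫ then dilProfile d (‖y - p‖ ^ 2 / (2 * r * ⟪e, y - p⟫)) else 0 := by
  rw [homKer]
  congr 1
  set α := ⟪e, y - p⟫ with hα
  have key : ∀ t : ℝ, 0 < t → (‖y - (p + t • (p + r • e - p))‖ < t * r ↔
      ‖y - p‖ ^ 2 < t * (2 * r * α)) := by
    intro t ht
    rw [add_sub_cancel_left, smul_smul, ← sub_sub, ← sq_lt_sq₀ (norm_nonneg _) (by positivity),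
      norm_sub_sq_real, inner_smul_right, norm_smul, he, real_inner_comm e (y - p), ← hα,
      Real.norm_eq_abs, mul_one, sq_abs]
    constructor <;> intro h <;> nlinarith
  by_cases h : 0 < α
  · rw [if_pos h, dilProfile]
    refine setIntegral_congr_fun measurableSet_Icc fun t ht => ?_
    simp only [key t (one_pos.trans_le ht.1), div_lt_iff₀ (show 0 < 2 * r * α by positivity)]
  · rw [if_neg h]
    refine cut_eq_zero _ fun t ht hlt => ?_
    have := (key t (one_pos.trans_le ht.1)).1 hlt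
    have h1 : t * (2 * r * α) ≤ 0 :=
      mul_nonpos_of_nonneg_of_nonpos (zero_le_one.trans ht.1)
        (mul_nonpos_of_nonneg_of_nonpos (by positivity) (not_lt.1 h))
    linarith [sq_nonneg ‖y - p‖]

variable {e p : E d} {r : ℝ}

theorem dil_nonneg (he : ‖e‖ = 1) (hr : 0 < r) (y : E d) :
    0 ≤ homKer p (p + r • e) r 1 64 y := by
  rw [homKer_bottom he p hr]
  refine mul_nonneg (inv_nonneg.2 measureReal_nonneg) ?_
  split
  · exact dilProfile_nonneg d _
  · exact le_rfl

theorem dil_le (he : ‖e‖ = 1) (hr : 0 < r) (y : E d) :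
    homKer p (p + r • e) r 1 64 y ≤ (volume.real (ball (p + r • e) r))⁻¹ * 63 := by
  rw [homKer_bottom he p hr]
  refine mul_le_mul_of_nonneg_left ?_ (inv_nonneg.2 measureReal_nonneg)
  split
  · exact dilProfile_le d _
  · norm_num

theorem dil_pos (he : ‖e‖ = 1) (hr : 0 < r) {y : E d}
    (h : homKer p (p + r • e) r 1 64 y ≠ 0) :
    0 < ⟪e, y - p⟫ ∧ ‖y - p‖ ^ 2 ≤ 128 * r * ⟪e, y - p⟫ := by
  rw [homKer_bottom he p hr] at h
  by_cases hα : 0 < ⟪e, y - p⟫
  · refine ⟨hα, ?_⟩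
    rw [if_pos hα] at h
    by_contra hc
    apply h
    rw [dilProfile_eq_zero, mul_zero]
    rw [le_div_iff₀ (by positivity)]
    linarith
  · simp [hα] at h

theorem dil_norm_le (he : ‖e‖ = 1) (hr : 0 < r) {y : E d}
    (h : homKer p (p + r • e) r 1 64 y ≠ 0) : ‖y - p‖ ≤ 128 * r := by
  obtain ⟨hα, hv⟩ := dil_pos he hr h
  have := abs_inner_le he (y - p)
  rw [abs_of_pos hα] at this
  by_contra hc
  nlinarith [norm_nonneg (y - p)]

/-- The height times the dilation kernel is Lipschitz. -/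
theorem dil_weighted_sub_le (he : ‖e‖ = 1) (hr : 0 < r) (y y' : E d) :
    max ⟪e, y - p⟫ 0 * homKer p (p + r • e) r 1 64 y
        - max ⟪e, y' - p⟫ 0 * homKer p (p + r • e) r 1 64 y'
      ≤ (volume.real (ball (p + r • e) r))⁻¹ * 256 * ‖y - y'‖ := by
  set c := (volume.real (ball (p + r • e) r))⁻¹ with hc
  have hc0 : 0 ≤ c := inv_nonneg.2 measureReal_nonneg
  have hR : 0 ≤ max ⟪e, y' - p⟫ 0 * homKer p (p + r • e) r 1 64 y' :=
    mul_nonneg (le_max_right _ _) (dil_nonneg he hr y')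
  by_cases h0 : homKer p (p + r • e) r 1 64 y = 0
  · rw [h0, mul_zero]
    nlinarith [norm_nonneg (y - y')]
  obtain ⟨hα, hv⟩ := dil_pos he hr h0
  have hnorm := dil_norm_le he hr h0
  have hdist : |‖y - p‖ - ‖y' - p‖| ≤ ‖y - y'‖ := by
    simpa using abs_norm_sub_norm_le (y - p) (y' - p)
  have hda : |⟪e, y - p⟫ - ⟪e, y' - p⟫| ≤ ‖y - y'‖ := by
    rw [← inner_sub_right]
    simpa using abs_inner_le he (y - y')
  have hα' := abs_inner_le he (y' - p)
  rw [max_eq_left hα.le, homKer_bottom he p hr, if_pos hα, homKer_bottom he p hr, ← hc]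
  obtain ⟨hd1, hd2⟩ := abs_le.1 hdist
  obtain ⟨ha1, ha2⟩ := abs_le.1 hda
  by_cases hβ : 0 < ⟪e, y' - p⟫
  · rw [max_eq_left hβ.le, if_pos hβ]
    have := profile_weighted_le d hr hα hβ (norm_nonneg (y - p)) hnorm
      ((le_abs_self _).trans hα') (δ := ‖y - y'‖) (by linarith) ha2 (norm_nonneg _)
    have := mul_le_mul_of_nonneg_left this hc0
    linarith
  · rw [max_eq_right (not_lt.1 hβ), zero_mul, sub_zero]
    have h1 : ⟪e, y - p⟫ * dilProfile d (‖y - p‖ ^ 2 / (2 * r * ⟪e, y - p⟫))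
        ≤ ⟪e, y - p⟫ * 63 := mul_le_mul_of_nonneg_left (dilProfile_le d _) hα.le
    have h2 : ⟪e, y - p⟫ * dilProfile d (‖y - p‖ ^ 2 / (2 * r * ⟪e, y - p⟫))
        ≤ 256 * ‖y - y'‖ := by linarith [not_lt.1 hβ]
    have := mul_le_mul_of_nonneg_left h2 hc0
    linarith

theorem continuousAt_dil (he : ‖e‖ = 1) (hr : 0 < r) {y : E d} (hy : y ≠ p) :
    ContinuousAt (homKer p (p + r • e) r 1 64) y := by
  by_cases hα : 0 < ⟪e, y - p⟫
  · have hev : ∀ᶠ w in 𝓝 y, homKer p (p + r • e) r 1 64 w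
        = (volume.real (ball (p + r • e) r))⁻¹ *
          dilProfile d (‖w - p‖ ^ 2 / (2 * r * ⟪e, w - p⟫)) := by
      have ho : IsOpen {w : E d | 0 < ⟪e, w - p⟫} := isOpen_lt continuous_const (by fun_prop)
      filter_upwards [ho.mem_nhds (show y ∈ {w : E d | 0 < ⟪e, w - p⟫} from hα)] with w hw
      rw [homKer_bottom he p hr, if_pos (show 0 < ⟪e, w - p⟫ from hw)]
    refine (continuousAt_congr hev).2 (continuousAt_const.mul ?_)
    exact (continuous_dilProfile d).continuousAt.comp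
      (ContinuousAt.div (by fun_prop) (by fun_prop) (by positivity))
  · have ho : IsOpen {w : E d | 128 * r * ⟪e, w - p⟫ < ‖w - p‖ ^ 2} :=
      isOpen_lt (by fun_prop) (by fun_prop)
    have hy' : y ∈ {w : E d | 128 * r * ⟪e, w - p⟫ < ‖w - p‖ ^ 2} := by
      have : 0 < ‖y - p‖ := norm_pos_iff.2 (sub_ne_zero.2 hy)
      show 128 * r * ⟪e, y - p⟫ < ‖y - p‖ ^ 2
      nlinarith [not_lt.1 hα]
    refine (continuousAt_congr (g := fun _ => (0 : ℝ)) ?_).2 continuousAt_const
    filter_upwards [ho.mem_nhds hy'] with w hw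
    by_contra hne
    linarith [(dil_pos he hr hne).2, show 128 * r * ⟪e, w - p⟫ < ‖w - p‖ ^ 2 from hw]

theorem measurable_dil (he : ‖e‖ = 1) (hr : 0 < r) :
    Measurable (homKer p (p + r • e) r 1 64) := by
  rw [show homKer p (p + r • e) r 1 64 = fun y => (volume.real (ball (p + r • e) r))⁻¹ *
      if 0 < ⟪e, y - p⟫ then dilProfile d (‖y - p‖ ^ 2 / (2 * r * ⟪e, y - p⟫)) else 0
    from funext (homKer_bottom he p hr)]
  refine measurable_const.mul (Measurable.ite ?_ ?_ measurable_const)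
  · exact measurableSet_lt measurable_const (by fun_prop : Measurable fun y : E d => ⟪e, y - p⟫)
  · exact (continuous_dilProfile d).measurable.comp (by fun_prop)

/-- The dilation kernel about the bottom point `p` of `ball (p + r e) r`, parameters in `[1, 64]`. -/
theorem dil_kern (d : ℕ) (hd : 2 ≤ d) : ∃ C, 0 ≤ C ∧ ∀ (a e p : E d) (r : ℝ),
    ‖e‖ = 1 → 2 * (d : ℝ) ≤ r → r ≤ 4 * d →
    (∀ y, ‖y - p‖ ≤ 128 * r → y ∈ window a (Lwin d)) →
    Kern (homKer p (p + r • e) r 1 64) a (Lwin d) C ∧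
    (∀ y, 0 < homKer p (p + r • e) r 1 64 y →
      0 < ⟪e, y - p⟫ ∧ ‖y - p‖ ^ 2 ≤ 128 * r * ⟪e, y - p⟫) ∧
    (∀ m k, ENNReal.ofReal (inc (homKer p (p + r • e) r 1 64) a (Lwin d) (Kc d) m k) ≤
      ENNReal.ofReal C * wgtT e (side (Lwin d) m) (ctr a (Lwin d) m k - p)) := by
  set c := (volume.real (ball (0 : E d) 1))⁻¹ with hcdef
  have hd' : (2 : ℝ) ≤ d := by exact_mod_cast hd
  have hc0 : 0 < c := inv_pos.2 (ENNReal.toReal_pos (measure_ball_pos volume _ one_pos).ne'
    measure_ball_lt_top.ne)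
  set B := c * 63 with hB
  set A := 3 * Kc d * (c * 256 + B) + B * (512 * d) with hA
  set C0 := Real.sqrt (B * A) with hC0
  set C := B + (1 + Real.sqrt (512 * d)) * C0 + 1 with hC
  have hKc := Kc_pos d
  have hB0 : 0 < B := by positivity
  have hA0 : 0 < A := by positivity
  have hC00 : 0 ≤ C0 := Real.sqrt_nonneg _
  have hBC : B ≤ C := by
    have : 0 ≤ (1 + Real.sqrt (512 * d)) * C0 := by positivity
    linarith
  have hCpos : 0 < C := hB0.trans_le hBC
  refine ⟨C, hCpos.le, fun a e p r he hr1 hr2 hwin => ?_⟩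
  have hr : 0 < r := by linarith
  have hcr : (volume.real (ball (p + r • e) r))⁻¹ ≤ c := ball_inv_le _ (by linarith)
  set H := homKer p (p + r • e) r 1 64 with hH
  have h0 : ∀ y, 0 ≤ H y := fun y => dil_nonneg he hr y
  have hle : ∀ y, H y ≤ B := fun y =>
    (dil_le he hr y).trans (mul_le_mul_of_nonneg_right hcr (by norm_num))
  have hpos : ∀ y, H y ≠ 0 → 0 < ⟪e, y - p⟫ ∧ ‖y - p‖ ^ 2 ≤ 128 * r * ⟪e, y - p⟫ :=
    fun y hy => dil_pos he hr hy
  refine ⟨⟨h0, fun y => (hle y).trans hBC, measurable_dil he hr, ?_,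
    fun y hy => hwin y (dil_norm_le he hr hy)⟩, fun y hy => hpos y hy.ne', fun m k => ?_⟩
  · have : ∀ᵐ y : E d, y ≠ p := by
      have : Nontrivial (E d) := Module.nontrivial_of_finrank_pos (R := ℝ)
        (by rw [finrank_euclideanSpace_fin]; omega)
      exact compl_mem_ae_iff.2 (measure_singleton p)
    filter_upwards [this] with y hy using continuousAt_dil he hr hy
  set I := inc H a (Lwin d) (Kc d) m k with hI
  have hL : 0 < Lwin d := zero_lt_one.trans_le (Lwin_ge_one d)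
  rcases le_or_gt I 0 with hI0 | hI0
  · rw [ENNReal.ofReal_eq_zero.2 hI0]; exact zero_le
  set y := ctr a (Lwin d) m k with hy
  set l := side (Lwin d) m with hl
  have hl0 : 0 < l := side_pos hL m
  have hIy : I ≤ H y := inc_le_apply h0 hL m k
  obtain ⟨hα, hv⟩ := hpos y (hI0.trans_le hIy).ne'
  have hIB : I ≤ B := hIy.trans (hle y)
  have hIA : I * ⟪e, y - p⟫ ≤ A * l := by
    cases m with
    | zero =>
      have h1 : ⟪e, y - p⟫ ≤ 512 * d := by
        have := dil_norm_le he hr (hI0.trans_le hIy).ne'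
        have h2 := (le_abs_self _).trans (abs_inner_le he (y - p))
        nlinarith
      have h3 : 1 ≤ l := by rw [hl, side, pow_zero, div_one]; exact Lwin_ge_one d
      calc I * ⟪e, y - p⟫ ≤ B * (512 * d) := mul_le_mul hIB h1 hα.le hB0.le
        _ ≤ A := by rw [hA]; nlinarith
        _ ≤ A * l := le_mul_of_one_le_right hA0.le h3
    | succ m =>
      rw [← le_div_iff₀ hα]
      refine inc_succ_le h0 hL m k _ fun w hw => ?_
      rw [← hy, le_div_iff₀ hα]
      rw [← hl, ← hy] at hw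
      have hG : max ⟪e, y - p⟫ 0 * H y - max ⟪e, w - p⟫ 0 * H w
          ≤ (volume.real (ball (p + r • e) r))⁻¹ * 256 * ‖y - w‖ := dil_weighted_sub_le he hr y w
      rw [max_eq_left hα.le] at hG
      have hda : max ⟪e, w - p⟫ 0 - ⟪e, y - p⟫ ≤ ‖y - w‖ := by
        rw [sub_le_iff_le_add]
        refine max_le ?_ (by linarith [norm_nonneg (y - w)])
        have := (le_abs_self _).trans (abs_inner_le he (w - y))
        rw [norm_sub_rev] at this
        rw [show w - p = (w - y) + (y - p) by abel, inner_add_right]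
        linarith
      have h5 : (volume.real (ball (p + r • e) r))⁻¹ * 256 * ‖y - w‖ ≤ c * 256 * ‖y - w‖ :=
        mul_le_mul_of_nonneg_right (by linarith) (norm_nonneg _)
      have h6 : (c * 256 + B) * ‖y - w‖ ≤ A * l := by
        calc _ ≤ (c * 256 + B) * (3 * Kc d * l) :=
              mul_le_mul_of_nonneg_left hw (by positivity)
          _ = 3 * Kc d * (c * 256 + B) * l := by ring
          _ ≤ A * l := by
              refine mul_le_mul_of_nonneg_right ?_ hl0.le
              rw [hA]; nlinarith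
      nlinarith [mul_le_mul_of_nonneg_left hda (h0 w),
        mul_le_mul_of_nonneg_right (hle w) (norm_nonneg (y - w))]
  have hroot : I * Real.sqrt ⟪e, y - p⟫ ≤ C0 * Real.sqrt l := by
    rw [hC0, ← Real.sqrt_mul (by positivity)]
    apply Real.le_sqrt_of_sq_le
    rw [mul_pow, Real.sq_sqrt hα.le]
    nlinarith only [mul_le_mul hIB hIA (by positivity) hB0.le]
  have hA1 : I * Real.sqrt |⟪e, y - p⟫| ≤ C * Real.sqrt l := by
    rw [abs_of_pos hα]
    refine hroot.trans (mul_le_mul_of_nonneg_right ?_ (Real.sqrt_nonneg _))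
    have h1 : 0 ≤ Real.sqrt (512 * (d : ℝ)) * C0 := by positivity
    rw [hC]; linarith
  have hA2 : I * ‖lat e (y - p)‖ ≤ C * Real.sqrt l := by
    have h1 : ‖lat e (y - p)‖ ≤ Real.sqrt (512 * d) * Real.sqrt ⟪e, y - p⟫ := by
      rw [← Real.sqrt_mul (by positivity)]
      apply Real.le_sqrt_of_sq_le
      nlinarith [norm_lat_le he (y - p), norm_nonneg (lat e (y - p))]
    calc I * ‖lat e (y - p)‖ ≤ Real.sqrt (512 * d) * (I * Real.sqrt ⟪e, y - p⟫) := by
          rw [mul_left_comm]; exact mul_le_mul_of_nonneg_left h1 hI0.le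
      _ ≤ Real.sqrt (512 * d) * (C0 * Real.sqrt l) :=
          mul_le_mul_of_nonneg_left hroot (Real.sqrt_nonneg _)
      _ ≤ _ := by
          rw [← mul_assoc]
          exact mul_le_mul_of_nonneg_right (by rw [hC]; linarith) (Real.sqrt_nonneg _)
  have conv : ∀ X : ℝ, 0 ≤ X → I * X ≤ C * Real.sqrt l → ENNReal.ofReal I
      ≤ ENNReal.ofReal C * (ENNReal.ofReal (Real.sqrt l) / ENNReal.ofReal X) := by
    intro X hX h
    rcases hX.eq_or_lt with rfl | hX'
    · rw [ENNReal.ofReal_zero,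
        ENNReal.div_zero (ENNReal.ofReal_pos.2 (Real.sqrt_pos.2 hl0)).ne',
        ENNReal.mul_top (ENNReal.ofReal_pos.2 hCpos).ne']
      exact le_top
    · rw [← ENNReal.ofReal_div_of_pos hX', ← ENNReal.ofReal_mul hCpos.le]
      apply ENNReal.ofReal_le_ofReal
      rw [← mul_div_assoc, le_div_iff₀ hX']
      exact h
  rw [wgtT, mul_min, mul_min, mul_one]
  exact le_min (ENNReal.ofReal_le_ofReal (hIB.trans hBC))
    (le_min (conv _ (Real.sqrt_nonneg _) hA1) (conv _ (norm_nonneg _) hA2))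

end
end Vale.Agent.P137.Unc
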