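import Vale.Agent.P137.Unc.KernelId
import Vale.Agent.P137.Unc.KernelChord
import Vale.Agent.P137.Unc.KernelDil
import Vale.Agent.P137.Unc.KernelCmp

/-!
# P137, uncentred operator: kernels

The two averaging identities, and the chord, dilation and comparison kernels.
-/
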