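import Vale.Agent.P137.Unc.Defs

/-!
# P137, uncentred operator: elementary facts on the maximal function of a smooth input
-/

open MeasureTheory Metric Set Filter Topology
open scoped ENNReal NNReal RealInnerProductSpace Gradient Pointwise

namespace Vale.Agent.P137.Unc

noncomputable section

variable {d : ℕ} {u : E d → ℝ}

theorem unitVol_pos : 0 < volume.real (ball (0 : E d) 1) :=
  ENNReal.toReal_pos (measure_ball_pos volume 0 one_pos).ne' measure_ball_lt_top.ne

theorem volume_real_ball (z : E d) {r : ℝ} (hr : 0 < r) :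
    volume.real (ball z r) = r ^ d * volume.real (ball (0 : E d) 1) := by
  simp only [Measure.real]
  rw [Measure.addHaar_ball_of_pos volume z hr, ENNReal.toReal_mul,
    ENNReal.toReal_ofReal (by positivity), finrank_euclideanSpace_fin]

theorem closedBall_ae_ball (z : E d) {r : ℝ} (hr : 0 < r) :
    (closedBall z r : Set (E d)) =ᵐ[volume] ball z r := by
  refine ae_eq_set.2 ⟨?_, ?_⟩
  · rw [closedBall_sdiff_ball]
    exact Measure.addHaar_sphere_of_ne_zero volume z hr.ne'
  · rw [Set.sdiff_eq_empty.2 ball_subset_closedBall, measure_empty]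

theorem volume_closedBall_one :
    volume.real (closedBall (0 : E d) 1) = volume.real (ball (0 : E d) 1) :=
  measureReal_congr (closedBall_ae_ball 0 one_pos)

theorem setIntegral_closedBall_eq (f : E d → ℝ) (z : E d) {r : ℝ} (hr : 0 < r) :
    ∫ y in closedBall z r, f y = ∫ y in ball z r, f y := by
  exact setIntegral_congr_set (closedBall_ae_ball z hr)

theorem setIntegral_scale (f : E d → ℝ) (z : E d) {r : ℝ} (hr : 0 < r) :
    ∫ w in closedBall (0 : E d) 1, f (z + r • w) = (r ^ d)⁻¹ * ∫ y in closedBall z r, f y := by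
  rw [Measure.setIntegral_comp_smul_of_pos volume (fun y => f (z + y)) _ hr,
    finrank_euclideanSpace_fin, smul_eq_mul]
  congr 1
  have e : r • closedBall (0 : E d) 1 = (fun y => z + y) ⁻¹' closedBall z r := by
    rw [_root_.smul_closedBall _ _ zero_le_one, smul_zero, Real.norm_eq_abs, abs_of_pos hr, mul_one,
      preimage_add_closedBall, sub_self]
  rw [e]
  exact (measurePreserving_add_left volume z).setIntegral_preimage_emb
    (measurableEmbedding_addLeft z) f _

/-- The average in normalised variables; it makes sense also for radius `0`. -/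
def nAvg (u : E d → ℝ) (z : E d) (r : ℝ) : ℝ :=
  (volume.real (ball (0 : E d) 1))⁻¹ * ∫ w in closedBall (0 : E d) 1, u (z + r • w)

theorem ballAvg_eq_nAvg (u : E d → ℝ) (z : E d) {r : ℝ} (hr : 0 < r) :
    ballAvg u z r = nAvg u z r := by
  rw [ballAvg, nAvg, setIntegral_scale u z hr, setIntegral_closedBall_eq u z hr,
    volume_real_ball z hr, mul_inv]
  ring

theorem continuous_nAvg (hu : Continuous u) : Continuous fun q : E d × ℝ => nAvg u q.1 q.2 := by
  refine continuous_const.mul ?_
  exact continuous_parametric_integral_of_continuous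
    (f := fun (q : E d × ℝ) w => u (q.1 + q.2 • w))
    (hu.comp (by fun_prop)) (isCompact_closedBall 0 1)

theorem nAvg_zero (u : E d → ℝ) (z : E d) : nAvg u z 0 = u z := by
  have hV := unitVol_pos (d := d)
  simp only [nAvg, zero_smul, add_zero, setIntegral_const, smul_eq_mul]
  rw [volume_closedBall_one]
  field_simp

theorem ballAvg_nonneg (hu : Smooth u) (z : E d) (r : ℝ) : 0 ≤ ballAvg u z r :=
  mul_nonneg (inv_nonneg.2 measureReal_nonneg)
    (setIntegral_nonneg measurableSet_ball fun y _ => hu.nonneg y)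

theorem ballAvg_le_of_large (hu : Smooth u) (z : E d) {r R : ℝ} (hR : 0 < R) (hr : R ≤ r) :
    ballAvg u z r ≤ (R ^ d * volume.real (ball (0 : E d) 1))⁻¹ * ∫ y, u y := by
  rw [ballAvg, volume_real_ball z (hR.trans_le hr)]
  have hV := unitVol_pos (d := d)
  refine mul_le_mul (inv_anti₀ (by positivity) ?_)
    (setIntegral_le_integral hu.integrable (Eventually.of_forall hu.nonneg))
    (setIntegral_nonneg measurableSet_ball fun y _ => hu.nonneg y) (by positivity)
  gcongr

theorem ballAvg_le_of_bound (hu : Smooth u) (z : E d) {r C : ℝ} (hr : 0 < r)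
    (h : ∀ y ∈ ball z r, u y ≤ C) : ballAvg u z r ≤ C := by
  have hV : 0 < volume.real (ball z r) :=
    ENNReal.toReal_pos (measure_ball_pos volume z hr).ne' measure_ball_lt_top.ne
  rw [ballAvg, inv_mul_le_iff₀ hV]
  refine (setIntegral_mono_on hu.integrable.integrableOn
    (integrableOn_const measure_ball_lt_top.ne) measurableSet_ball h).trans_eq ?_
  rw [setIntegral_const, smul_eq_mul]

theorem umax_bddAbove (hu : Smooth u) (x : E d) :
    BddAbove {a | ∃ (z : E d) (r : ℝ), 0 < r ∧ x ∈ ball z r ∧ a = ballAvg u z r} := by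
  obtain ⟨C, hC⟩ := (isCompact_closedBall x 2).exists_bound_of_continuousOn
    hu.contDiff.continuous.continuousOn
  refine ⟨max C ((1 ^ d * volume.real (ball (0 : E d) 1))⁻¹ * ∫ y, u y), ?_⟩
  rintro _ ⟨z, r, hr, hx, rfl⟩
  rcases le_total r 1 with h | h
  · refine le_max_of_le_left (ballAvg_le_of_bound hu z hr fun y hy =>
      (le_abs_self _).trans ((Real.norm_eq_abs _).symm.le.trans (hC y ?_)))
    rw [mem_ball] at hx hy
    rw [mem_closedBall]
    have := dist_triangle_right y x z
    linarith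
  · exact le_max_of_le_right (ballAvg_le_of_large hu z one_pos h)

theorem le_umax (hu : Smooth u) {x z : E d} {r : ℝ} (hr : 0 < r) (hx : ‖x - z‖ ≤ r) :
    ballAvg u z r ≤ umax u x := by
  have h : ∀ ρ, r < ρ → nAvg u z ρ ≤ umax u x := fun ρ hρ => by
    rw [← ballAvg_eq_nAvg u z (hr.trans hρ)]
    exact le_csSup (umax_bddAbove hu x)
      ⟨z, ρ, hr.trans hρ, by rw [mem_ball, dist_eq_norm]; linarith, rfl⟩
  rw [ballAvg_eq_nAvg u z hr]
  refine le_of_tendsto ((((continuous_nAvg hu.contDiff.continuous).comp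
    (continuous_const.prodMk continuous_id)).tendsto r).mono_left (nhdsWithin_le_nhds (s := Ioi r)))
    (eventually_nhdsWithin_of_forall fun ρ hρ => h ρ hρ)

theorem umax_le (_hu : Smooth u) {x : E d} {C : ℝ}
    (h : ∀ z r, 0 < r → ‖x - z‖ ≤ r → ballAvg u z r ≤ C) : umax u x ≤ C := by
  refine csSup_le ?_ ?_
  · exact ⟨_, x, 1, one_pos, mem_ball_self one_pos, rfl⟩
  · rintro _ ⟨z, r, hr, hx, rfl⟩
    rw [mem_ball, dist_eq_norm] at hx
    exact h z r hr hx.le

theorem self_le_umax (hd : 1 ≤ d) (hu : Smooth u) (x : E d) : u x ≤ umax u x := by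
  have _ := hd
  rw [← nAvg_zero u x]
  refine le_of_tendsto ((((continuous_nAvg hu.contDiff.continuous).comp
    (continuous_const.prodMk continuous_id)).tendsto (0 : ℝ)).mono_left
    (nhdsWithin_le_nhds (s := Ioi (0 : ℝ)))) (eventually_nhdsWithin_of_forall fun r hr => ?_)
  show nAvg u x r ≤ umax u x
  rw [← ballAvg_eq_nAvg u x hr]
  exact le_umax hu hr (by simpa using le_of_lt (mem_Ioi.1 hr))

theorem umax_nonneg (hu : Smooth u) (x : E d) : 0 ≤ umax u x :=
  (ballAvg_nonneg hu x 1).trans (le_umax hu one_pos (by simp))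

theorem exists_isOpt (hd : 1 ≤ d) (hu : Smooth u) {x : E d} (h : u x < umax u x) :
    ∃ z r, IsOpt u x z r := by
  have hV := unitVol_pos (d := d)
  have hM : 0 < umax u x := (hu.nonneg x).trans_lt h
  have hI : 0 ≤ ∫ y, u y := integral_nonneg hu.nonneg
  obtain ⟨R, hR1, hR⟩ : ∃ R : ℝ, 1 ≤ R ∧
      (R ^ d * volume.real (ball (0 : E d) 1))⁻¹ * (∫ y, u y) < umax u x := by
    refine ⟨max 1 ((∫ y, u y) / (umax u x * volume.real (ball (0 : E d) 1)) + 1), le_max_left _ _, ?_⟩
    set R := max 1 ((∫ y, u y) / (umax u x * volume.real (ball (0 : E d) 1)) + 1)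
    have h1 : R ≤ R ^ d := le_self_pow₀ (le_max_left _ _) (by omega)
    have h2 : (∫ y, u y) / (umax u x * volume.real (ball (0 : E d) 1)) < R :=
      lt_of_lt_of_le (lt_add_one _) (le_max_right _ _)
    rw [div_lt_iff₀ (by positivity)] at h2
    have hR0 : 0 < R := lt_of_lt_of_le one_pos (le_max_left _ _)
    rw [inv_mul_lt_iff₀ (by positivity)]
    calc (∫ y, u y) < R * (umax u x * volume.real (ball (0 : E d) 1)) := h2
      _ ≤ R ^ d * (umax u x * volume.real (ball (0 : E d) 1)) := by gcongr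
      _ = _ := by ring
  let S : Set (E d × ℝ) := {q | q.2 ∈ Icc 0 R ∧ ‖x - q.1‖ ≤ q.2}
  have hS : IsCompact S := by
    refine ((isCompact_closedBall x R).prod (isCompact_Icc (a := (0 : ℝ)) (b := R))).of_isClosed_subset
      ((isClosed_Icc.preimage continuous_snd).inter (isClosed_le (by fun_prop) continuous_snd)) ?_
    rintro ⟨z, r⟩ ⟨hr, hz⟩
    exact ⟨by rw [mem_closedBall, dist_eq_norm']; exact hz.trans hr.2, hr⟩
  obtain ⟨⟨z, r⟩, ⟨hr, hz⟩, hmax⟩ := hS.exists_isMaxOn ⟨(x, 0), by
    exact ⟨⟨le_rfl, by linarith⟩, by simp⟩⟩ (continuous_nAvg hu.contDiff.continuous).continuousOn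
  have key : umax u x ≤ max (nAvg u z r)
      ((R ^ d * volume.real (ball (0 : E d) 1))⁻¹ * ∫ y, u y) := umax_le hu fun z' r' hr' hz' => by
    rcases le_total r' R with h' | h'
    · refine le_max_of_le_left ?_
      rw [ballAvg_eq_nAvg u z' hr']
      exact hmax (show (z', r') ∈ S from ⟨⟨hr'.le, h'⟩, hz'⟩)
    · exact le_max_of_le_right (ballAvg_le_of_large hu z' (by linarith) h')
  have key' : umax u x ≤ nAvg u z r := (le_max_iff.1 key).resolve_right (not_le.2 hR)
  rcases hr.1.eq_or_lt with h0 | h0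
  · simp only at h0 hz
    subst h0
    rw [norm_le_zero_iff, sub_eq_zero] at hz
    subst hz
    rw [nAvg_zero] at key'
    exact absurd key' (not_le.2 h)
  · refine ⟨z, r, h0, hz, le_antisymm (le_umax hu h0 hz) ?_⟩
    rw [ballAvg_eq_nAvg u z h0]
    exact key'

theorem norm_gradient_eq (f : E d → ℝ) (x : E d) : ‖∇ f x‖ = ‖fderiv ℝ f x‖ :=
  LinearIsometryEquiv.norm_map _ _

theorem inner_grad (f : E d → ℝ) (x v : E d) : ⟪∇ f x, v⟫ = fderiv ℝ f x v :=
  InnerProductSpace.toDual_symm_apply

/-- The translation estimate. -/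
theorem abs_nAvg_sub_le (hu : Smooth u) (z v : E d) {r : ℝ} (hr : 0 < r) :
    |nAvg u (z + v) r - nAvg u z r| ≤ ‖v‖ * (gnorm u / volume.real (ball z r)) := by
  have hV := unitVol_pos (d := d)
  have hd1 : Continuous (fderiv ℝ u) := hu.contDiff.continuous_fderiv one_ne_zero
  set μ := volume.restrict (closedBall (0 : E d) 1)
  have hk : ∀ s : ℝ, Continuous fun w => fderiv ℝ u (z + s • v + r • w) v := fun s => by fun_prop
  have hder : ∀ s : ℝ, HasDerivAt (fun s : ℝ => ∫ w, u (z + s • v + r • w) ∂μ)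
      (∫ w, fderiv ℝ u (z + s • v + r • w) v ∂μ) s := by
    intro s
    obtain ⟨C, hC⟩ := ((isCompact_closedBall s 1).prod
      (isCompact_closedBall (0 : E d) 1)).exists_bound_of_continuousOn
      (f := fun q : ℝ × E d => fderiv ℝ u (z + q.1 • v + r • q.2) v) (by fun_prop)
    refine (hasDerivAt_integral_of_dominated_loc_of_deriv_le (bound := fun _ => C)
      (F' := fun s w => fderiv ℝ u (z + s • v + r • w) v)
      (closedBall_mem_nhds s one_pos) ?_ ?_ ?_ ?_ ?_ ?_).2
    · exact Eventually.of_forall fun t => (hu.contDiff.continuous.comp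
        (by fun_prop : Continuous fun w : E d => z + t • v + r • w)).aestronglyMeasurable
    · exact (hu.contDiff.continuous.comp
        (by fun_prop : Continuous fun w : E d => z + s • v + r • w)).continuousOn.integrableOn_compact
        (isCompact_closedBall 0 1)
    · exact (hk s).aestronglyMeasurable
    · exact (ae_restrict_mem measurableSet_closedBall).mono fun w hw t ht => hC (t, w) ⟨ht, hw⟩
    · exact integrableOn_const measure_closedBall_lt_top.ne
    · refine Eventually.of_forall fun w t _ => ?_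
      have h1 : HasDerivAt (fun t : ℝ => z + t • v + r • w) v t := by
        simpa using (((hasDerivAt_id t).smul_const v).const_add z).add_const (r • w)
      exact ((hu.contDiff.differentiable one_ne_zero _).hasFDerivAt).comp_hasDerivAt t h1
  have hb : ∀ s : ℝ, ‖∫ w, fderiv ℝ u (z + s • v + r • w) v ∂μ‖ ≤
      ‖v‖ * ((r ^ d)⁻¹ * gnorm u) := by
    intro s
    refine (norm_integral_le_integral_norm _).trans ?_
    have hc : Continuous fun w => ‖fderiv ℝ u (z + s • v + r • w)‖ * ‖v‖ := by fun_prop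
    refine (integral_mono ((hk s).norm.continuousOn.integrableOn_compact
      (isCompact_closedBall 0 1))
      (hc.continuousOn.integrableOn_compact (isCompact_closedBall 0 1))
      fun w => ContinuousLinearMap.le_opNorm _ _).trans ?_
    rw [integral_mul_const, setIntegral_scale (fun y => ‖fderiv ℝ u y‖) (z + s • v) hr, mul_comm]
    refine mul_le_mul_of_nonneg_left (mul_le_mul_of_nonneg_left ?_ (by positivity)) (norm_nonneg v)
    simp only [gnorm, norm_gradient_eq]
    refine setIntegral_le_integral ?_ (Eventually.of_forall fun y => norm_nonneg _)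
    simpa [norm_gradient_eq] using hu.integrable_grad.norm
  have hmv := Convex.norm_image_sub_le_of_norm_hasDerivWithin_le
    (fun s _ => (hder s).hasDerivWithinAt) (fun s _ => hb s) (convex_univ) (mem_univ (0 : ℝ))
    (mem_univ (1 : ℝ))
  simp only [zero_smul, add_zero, one_smul, sub_zero, norm_one, mul_one, Real.norm_eq_abs] at hmv
  rw [nAvg, nAvg, ← mul_sub, abs_mul, abs_of_pos (inv_pos.2 hV), volume_real_ball z hr]
  refine (mul_le_mul_of_nonneg_left hmv (by positivity)).trans_eq ?_
  field_simp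

theorem locallyLipschitz_umax (hd : 1 ≤ d) (hu : Smooth u) : LocallyLipschitz (umax u) := by
  have _ := hd
  have hV := unitVol_pos (d := d)
  intro x0
  obtain ⟨K, hK⟩ := hu.contDiff.locallyLipschitz.locallyLipschitzOn.exists_lipschitzOnWith_of_compact
    (isCompact_closedBall x0 4)
  set C : ℝ≥0 := max K (gnorm u / volume.real (ball (0 : E d) 1)).toNNReal
  refine ⟨C, ball x0 1, ball_mem_nhds _ one_pos, LipschitzOnWith.of_le_add_mul C fun x hx y hy => ?_⟩
  refine umax_le hu fun z r hr hz => ?_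
  have hy' : ‖y - (z + (y - x))‖ ≤ r := by rwa [show y - (z + (y - x)) = x - z by abel]
  refine le_trans ?_ (add_le_add_left (le_umax hu hr hy') _)
  rw [ballAvg_eq_nAvg u z hr, ballAvg_eq_nAvg u _ hr, dist_eq_norm']
  suffices h : |nAvg u (z + (y - x)) r - nAvg u z r| ≤ C * ‖y - x‖ by
    have := abs_le.1 h; linarith
  rcases le_total 1 r with h1 | h1
  · refine (abs_nAvg_sub_le hu z (y - x) hr).trans ?_
    rw [mul_comm]
    refine mul_le_mul_of_nonneg_right ?_ (norm_nonneg _)
    refine le_trans ?_ (NNReal.coe_le_coe.2 (le_max_right K _))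
    rw [Real.coe_toNNReal', volume_real_ball z hr]
    refine le_max_of_le_left ?_
    refine div_le_div_of_nonneg_left (integral_nonneg fun _ => norm_nonneg _) hV ?_
    exact le_mul_of_one_le_left hV.le (one_le_pow₀ h1)
  · have hc : ∀ z : E d, Continuous fun w => u (z + r • w) := fun z =>
      hu.contDiff.continuous.comp (by fun_prop)
    rw [nAvg, nAvg, ← mul_sub, abs_mul, abs_of_pos (inv_pos.2 hV),
      ← integral_sub ((hc _).continuousOn.integrableOn_compact (isCompact_closedBall 0 1))
        ((hc _).continuousOn.integrableOn_compact (isCompact_closedBall 0 1)),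
      inv_mul_le_iff₀ hV]
    have hb : ∀ w ∈ closedBall (0 : E d) 1,
        ‖u (z + (y - x) + r • w) - u (z + r • w)‖ ≤ C * ‖y - x‖ := by
      intro w hw
      rw [mem_closedBall, dist_zero_right] at hw
      have hrw : ‖r • w‖ ≤ 1 := by
        rw [norm_smul, Real.norm_eq_abs, abs_of_pos hr]
        exact mul_le_one₀ h1 (norm_nonneg _) hw
      rw [mem_ball, dist_eq_norm] at hx hy
      have hzx : ‖z - x‖ ≤ 1 := by rw [norm_sub_rev]; linarith
      have h1' : ‖z + r • w - x0‖ ≤ 4 := by
        have := norm_add₃_le (a := z - x) (b := r • w) (c := x - x0)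
        rw [show z - x + r • w + (x - x0) = z + r • w - x0 by abel] at this
        linarith
      have h2' : ‖z + (y - x) + r • w - x0‖ ≤ 4 := by
        have := norm_add₃_le (a := z - x) (b := r • w) (c := y - x0)
        rw [show z - x + r • w + (y - x0) = z + (y - x) + r • w - x0 by abel] at this
        linarith
      have := hK.dist_le_mul _ (by rwa [mem_closedBall, dist_eq_norm] : z + (y - x) + r • w ∈ _)
        _ (by rwa [mem_closedBall, dist_eq_norm] : z + r • w ∈ _)
      rw [dist_eq_norm, dist_eq_norm,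
        show z + (y - x) + r • w - (z + r • w) = y - x by abel] at this
      exact this.trans (mul_le_mul_of_nonneg_right (NNReal.coe_le_coe.2 (le_max_left K _))
        (norm_nonneg _))
    refine (norm_setIntegral_le_of_norm_le_const measure_closedBall_lt_top hb).trans_eq ?_
    rw [volume_closedBall_one]
    ring

theorem fderiv_umax_eq (hd : 1 ≤ d) (hu : Smooth u) {x : E d}
    (hx : DifferentiableAt ℝ (umax u) x) (h : umax u x = u x) : ∇ (umax u) x = ∇ u x := by
  have hmin : IsLocalMin (fun y => umax u y - u y) x :=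
    Eventually.of_forall fun y => by
      show umax u x - u x ≤ umax u y - u y
      rw [h, sub_self]; linarith [self_le_umax hd hu y]
  have h0 := hmin.fderiv_eq_zero
  rw [fderiv_fun_sub hx (hu.contDiff.differentiable one_ne_zero x), sub_eq_zero] at h0
  simp only [gradient, h0]

theorem isClosed_optSet (hd : 1 ≤ d) (hu : Smooth u) {r1 r2 : ℝ} (h1 : 0 < r1) :
    IsClosed {x | ∃ z r, r1 ≤ r ∧ r ≤ r2 ∧ IsOpt u x z r} := by
  refine IsSeqClosed.isClosed fun xs x hxs hlim => ?_
  choose z r hr1 hr2 hr0 hz hA using hxs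
  obtain ⟨R, hR⟩ := (hlim.norm.bddAbove_range)
  have hmem : ∀ k, (z k, r k) ∈ closedBall (0 : E d) (R + r2) ×ˢ Icc r1 r2 := fun k => by
    refine ⟨?_, hr1 k, hr2 k⟩
    rw [mem_closedBall, dist_zero_right]
    have hxk : ‖xs k‖ ≤ R := hR ⟨k, rfl⟩
    linarith [norm_le_norm_add_norm_sub' (z k) (xs k), norm_sub_rev (xs k) (z k), hz k, hr2 k]
  obtain ⟨⟨z0, r0⟩, ⟨-, hr⟩, φ, hφ, hlimq⟩ :=
    ((isCompact_closedBall _ _).prod isCompact_Icc).tendsto_subseq hmem
  refine ⟨z0, r0, hr.1, hr.2, h1.trans_le hr.1, ?_, ?_⟩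
  · exact le_of_tendsto_of_tendsto' ((hlim.comp hφ.tendsto_atTop).sub hlimq.fst_nhds).norm
      hlimq.snd_nhds fun k => hz (φ k)
  · rw [ballAvg_eq_nAvg u z0 (h1.trans_le hr.1)]
    refine tendsto_nhds_unique (((continuous_nAvg hu.contDiff.continuous).tendsto _).comp hlimq) ?_
    refine (((locallyLipschitz_umax hd hu).continuous.tendsto x).comp
      (hlim.comp hφ.tendsto_atTop)).congr fun k => ?_
    show umax u (xs (φ k)) = nAvg u (z (φ k)) (r (φ k))
    rw [← ballAvg_eq_nAvg u _ (hr0 _), hA]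

theorem umax_grad_of_isOpt (hd : 1 ≤ d) (hu : Smooth u) {x z : E d} {r : ℝ} (h : IsOpt u x z r)
    (hx : DifferentiableAt ℝ (umax u) x) (hne : ∇ (umax u) x ≠ 0) :
    ‖x - z‖ = r ∧ ∇ (umax u) x = -(‖∇ (umax u) x‖ / r) • (x - z) := by
  have _ := hd
  obtain ⟨hr, hxz, hA⟩ := h
  have hge : ∀ y, ‖y - z‖ ≤ r → umax u x ≤ umax u y := fun y hy => hA ▸ le_umax hu hr hy
  set g := ∇ (umax u) x
  have hn : ‖x - z‖ = r := by
    refine hxz.eq_of_not_lt fun hlt => hne ?_
    have hmin : IsLocalMin (umax u) x := by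
      filter_upwards [isOpen_ball.mem_nhds (show x ∈ ball z r by rwa [mem_ball, dist_eq_norm])]
        with y hy
      rw [mem_ball, dist_eq_norm] at hy
      exact hge y hy.le
    simp [g, gradient, hmin.fderiv_eq_zero]
  have hin : ∀ v, ⟪v, x - z⟫ < 0 → 0 ≤ ⟪g, v⟫ := by
    intro v hv
    have hl : HasDerivAt (fun t : ℝ => umax u (x + t • v)) ⟪g, v⟫ 0 := by
      rw [inner_grad]
      have h1 : HasDerivAt (fun t : ℝ => x + t • v) v 0 := by
        simpa using ((hasDerivAt_id (0 : ℝ)).smul_const v).const_add x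
      exact HasFDerivAt.comp_hasDerivAt (f := fun t : ℝ => x + t • v) 0
        (by simpa using hx.hasFDerivAt) h1
    refine ge_of_tendsto (hl.tendsto_slope_zero_right) ?_
    have hev : ∀ᶠ t in 𝓝[>] (0 : ℝ), t * ‖v‖ ^ 2 + 2 * ⟪v, x - z⟫ < 0 := by
      refine nhdsWithin_le_nhds ((Continuous.tendsto ?_ 0).eventually_lt_const ?_)
      · fun_prop
      · linarith
    filter_upwards [hev, self_mem_nhdsWithin] with t ht ht0
    rw [mem_Ioi] at ht0
    simp only [zero_add, zero_smul, add_zero, smul_eq_mul]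
    refine mul_nonneg (by positivity) (sub_nonneg.2 (hge _ ?_))
    rw [show x + t • v - z = (x - z) + t • v by abel]
    refine (sq_le_sq₀ (norm_nonneg _) hr.le).1 ?_
    rw [norm_add_sq_real, real_inner_smul_right, norm_smul, Real.norm_eq_abs, abs_of_pos ht0, hn,
      real_inner_comm, mul_pow]
    nlinarith
  have hle : ∀ v, ⟪v, x - z⟫ ≤ 0 → 0 ≤ ⟪g, v⟫ := by
    intro v hv
    have hlim : Tendsto (fun ε : ℝ => ⟪g, v - ε • (x - z)⟫) (𝓝[>] 0) (𝓝 ⟪g, v⟫) := by
      have : Continuous fun ε : ℝ => ⟪g, v - ε • (x - z)⟫ := by fun_prop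
      simpa using (this.tendsto 0).mono_left nhdsWithin_le_nhds
    refine ge_of_tendsto hlim (eventually_nhdsWithin_of_forall fun ε hε => hin _ ?_)
    rw [inner_sub_left, real_inner_smul_left, real_inner_self_eq_norm_sq, hn]
    nlinarith [mul_pos (mem_Ioi.1 hε) (pow_pos hr 2)]
  refine ⟨hn, ?_⟩
  set a := ⟪g, x - z⟫ / r ^ 2
  have hga : g = a • (x - z) := by
    have hperp : ⟪g - a • (x - z), x - z⟫ = 0 := by
      rw [inner_sub_left, real_inner_smul_left, real_inner_self_eq_norm_sq, hn]
      simp only [a]; field_simp; ring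
    have h2 := hle (-(g - a • (x - z))) (by rw [inner_neg_left, hperp, neg_zero])
    rw [inner_neg_right] at h2
    have h3 : ⟪g - a • (x - z), g - a • (x - z)⟫ = ⟪g, g - a • (x - z)⟫ := by
      rw [inner_sub_left _ _ (g - a • (x - z)), real_inner_smul_left,
        real_inner_comm (g - a • (x - z)) (x - z), hperp, mul_zero, sub_zero]
    rw [real_inner_self_eq_norm_sq] at h3
    have h4 : ‖g - a • (x - z)‖ ^ 2 = 0 := le_antisymm (by linarith) (sq_nonneg _)
    simpa [sub_eq_zero] using h4
  have ha : a ≤ 0 := by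
    have h2 := hle (-(x - z)) (by
      rw [inner_neg_left, real_inner_self_eq_norm_sq]; linarith [sq_nonneg ‖x - z‖])
    rw [inner_neg_right] at h2
    exact div_nonpos_of_nonpos_of_nonneg (by linarith) (by positivity)
  have hnorm : ‖g‖ = -a * r := by
    rw [hga, norm_smul, Real.norm_eq_abs, abs_of_nonpos ha, hn]
  rw [hnorm, mul_div_cancel_right₀ _ hr.ne', neg_neg]
  exact hga

theorem umax_eq_at_local_min (hd : 1 ≤ d) (hu : Smooth u) {x y z : E d} {r : ℝ}
    (h : IsOpt u x z r) (hy : y ∈ ball z r) (hx : DifferentiableAt ℝ (umax u) y)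
    (he : umax u y = umax u x) : ∇ (umax u) y = 0 := by
  have _ := hd
  have _ := hx
  obtain ⟨hr, -, hA⟩ := h
  have hmin : IsLocalMin (umax u) y := by
    filter_upwards [isOpen_ball.mem_nhds hy] with w hw
    rw [mem_ball, dist_eq_norm] at hw
    rw [he, ← hA]
    exact le_umax hu hr hw.le
  simp [gradient, hmin.fderiv_eq_zero]

theorem norm_grad_le_of_isOpt (hd : 1 ≤ d) (hu : Smooth u) {x z : E d} {r : ℝ} (h : IsOpt u x z r)
    (hx : DifferentiableAt ℝ (umax u) x) :
    ‖∇ (umax u) x‖ ≤ gnorm u / volume.real (ball z r) := by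
  have _ := hd
  obtain ⟨hr, hxz, hA⟩ := h
  set c := gnorm u / volume.real (ball z r)
  have hlow : ∀ v : E d, umax u x - ‖v‖ * c ≤ umax u (x + v) := by
    intro v
    have h1 : ballAvg u (z + v) r ≤ umax u (x + v) := le_umax hu hr (by simpa using hxz)
    have h2 := (abs_le.1 (abs_nAvg_sub_le hu z v hr)).1
    rw [ballAvg_eq_nAvg u _ hr] at h1
    rw [ballAvg_eq_nAvg u _ hr] at hA
    linarith
  set g := ∇ (umax u) x
  have hl : HasDerivAt (fun t : ℝ => umax u (x + t • (-g))) ⟪g, -g⟫ 0 := by
    rw [inner_grad]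
    have h1 : HasDerivAt (fun t : ℝ => x + t • (-g)) (-g) 0 := by
      simpa using ((hasDerivAt_id (0 : ℝ)).smul_const (-g)).const_add x
    exact HasFDerivAt.comp_hasDerivAt (f := fun t : ℝ => x + t • (-g)) 0
      (by simpa using hx.hasFDerivAt) h1
  have hge : -(‖g‖ * c) ≤ ⟪g, -g⟫ := by
    refine ge_of_tendsto hl.tendsto_slope_zero_right ?_
    filter_upwards [self_mem_nhdsWithin] with t ht
    rw [mem_Ioi] at ht
    simp only [zero_add, zero_smul, add_zero, smul_eq_mul]
    have h3 := hlow (t • (-g))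
    rw [norm_smul, norm_neg, Real.norm_eq_abs, abs_of_pos ht] at h3
    rw [inv_mul_eq_div, le_div_iff₀ ht]
    linarith
  rw [inner_neg_right, real_inner_self_eq_norm_sq] at hge
  by_contra hc
  have hc0 : 0 ≤ c := div_nonneg (integral_nonneg fun _ => norm_nonneg _) measureReal_nonneg
  nlinarith [norm_nonneg g, not_le.1 hc]

end

end Vale.Agent.P137.Unc
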