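import Vale.Agent.P137.Unc.Dyadic
import Vale.Agent.P137.Unc.Kernels
import Vale.Agent.P137.Unc.Max
import Vale.Agent.P137.Unc.Average

/-!
# P137, uncentred operator: comparison of two optimal balls of one cell
-/

open MeasureTheory Metric Set
open scoped ENNReal RealInnerProductSpace Gradient

namespace Vale.Agent.P137.Unc

noncomputable section

variable {d : ℕ} {u : E d → ℝ} {a e : E d}

lemma one_le_Lwin (d : ℕ) : 1 ≤ Lwin d := one_le_pow₀ one_le_two

lemma Lwin_pos (d : ℕ) : 0 < Lwin d := zero_lt_one.trans_le (one_le_Lwin d)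

lemma sqrt_side (d m : ℕ) : Real.sqrt (side (Lwin d) m) = Real.sqrt (Lwin d) * (qdec ^ 2) ^ m := by
  have hq : qdec ^ 4 = (2 : ℝ)⁻¹ := by
    rw [qdec, ← Real.rpow_natCast ((2 : ℝ) ^ (-(1 / 4) : ℝ)) 4, ← Real.rpow_mul two_pos.le,
      show (-(1 / 4) : ℝ) * ((4 : ℕ) : ℝ) = -1 by norm_num, Real.rpow_neg_one]
  have h2 : ((qdec ^ 2) ^ m) ^ 2 = ((2 : ℝ) ^ m)⁻¹ := by
    rw [← pow_mul, ← pow_mul, show 2 * (m * 2) = 4 * m by ring, pow_mul, hq, inv_pow]
  rw [side, div_eq_mul_inv, ← h2, Real.sqrt_mul (Lwin_pos d).le,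
    Real.sqrt_sq (by positivity : (0 : ℝ) ≤ (qdec ^ 2) ^ m)]



lemma sqrt_side_le (d m : ℕ) : Real.sqrt (side (Lwin d) m) ≤ Real.sqrt (Lwin d) * qdec ^ m := by
  rw [sqrt_side]
  refine mul_le_mul_of_nonneg_left ?_ (Real.sqrt_nonneg _)
  rw [← pow_mul]
  exact pow_le_pow_of_le_one qdec_pos.le qdec_le_one (by omega)

lemma Kern.bound {H : E d → ℝ} {L B : ℝ} (hH : Kern H a L B) :
    ∀ y, ‖H y‖ ≤ B := fun y => by
  rw [Real.norm_eq_abs, abs_of_nonneg (hH.nonneg y)]
  exact hH.le y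

lemma Kern.integrable_mul_inner {H : E d → ℝ} {L B : ℝ} (hH : Kern H a L B) (hu : Smooth u) :
    Integrable (fun y => H y * ⟪e, ∇ u y⟫) :=
  (hu.integrable_grad.const_inner e).bdd_mul (c := B) hH.meas.aestronglyMeasurable
    (.of_forall hH.bound)

/-- Translating a ball upwards loses at most `phi0`. -/
lemma translate_ge (d : ℕ) (hd : 2 ≤ d) : ∃ C, 0 ≤ C ∧ ∀ (u : E d → ℝ) (a e z : E d) (r t : ℝ),
    Smooth u → ‖e‖ = 1 → (d : ℝ) ≤ r → r ≤ 300 * d → 0 ≤ t → t ≤ 300 * d →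
    (∀ y, ‖y - z‖ ≤ r + t → y ∈ window a (Lwin d)) →
    ballAvg u z r - C * phi0 u a (Lwin d) e ≤ ballAvg u (z + t • e) r := by
  obtain ⟨C, hC, hk⟩ := chord_kern d hd
  refine ⟨C, hC, fun u a e z r t hu he h1 h2 h3 h4 hwin => ?_⟩
  obtain ⟨hK, hinc⟩ := hk a e z r t he h1 h2 h3 h4 hwin
  have hr : 0 < r := lt_of_lt_of_le (by exact_mod_cast (show 0 < d by omega)) h1
  have := scalar_lower hu he (Lwin_pos d) hK (errLE_of_inc_le hu he (Lwin_pos d) hC hinc)
  rw [← translation_identity hu z e hr h3] at this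
  linarith

/-- The upper point of a cell stays in the dilated balls. -/
lemma contain_shift {x z : E d} {r s t δ : ℝ} (he : ‖e‖ = 1) (hr : 0 < r) (hx : ‖x - z‖ = r)
    (hδ : ⟪e, r⁻¹ • (x - z)⟫ = δ - 1) (hδ2 : 0 ≤ δ) (hs : r ≤ s) (ht : 0 ≤ t)
    (ht2 : t ≤ r * δ / 2) (ht3 : t ≤ s) :
    ‖x - (z + s • e)‖ ≤ r + s - t := by
  have hin : ⟪e, x - z⟫ = r * (δ - 1) := by
    rw [← hδ, inner_smul_right]
    field_simp
  refine le_of_pow_le_pow_left₀ two_ne_zero (by linarith) ?_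
  rw [← sub_sub, norm_sub_sq_real, hx, inner_smul_right, norm_smul, he, real_inner_comm e (x - z),
    hin, Real.norm_eq_abs, mul_one, sq_abs]
  nlinarith [mul_le_mul_of_nonneg_left ht2 (by linarith : (0 : ℝ) ≤ 2 * (r + s)),
    mul_nonneg (mul_nonneg hr.le hδ2) (sub_nonneg.2 hs)]

/-- Error weight of a vertical shift `p`. -/
def errW (u : E d → ℝ) (a e p : E d) : ℝ≥0∞ :=
  ∑' m : ℕ, ∑ k : Fin d → Fin (2 ^ m),
    wgtT e (side (Lwin d) m) (ctr a (Lwin d) m k - p) *
      ENNReal.ofReal (defect u a (Lwin d) e m k)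

lemma errLE_of_wgt {H : E d → ℝ} {B C : ℝ} {p : E d} (he : ‖e‖ = 1) (hC : 0 ≤ C)
    (hH : Kern H a (Lwin d) B)
    (h : ∀ m k, ENNReal.ofReal (inc H a (Lwin d) (Kc d) m k) ≤
      ENNReal.ofReal C * wgtT e (side (Lwin d) m) (ctr a (Lwin d) m k - p))
    (hfin : errW u a e p ≠ ⊤) : ErrLE u H a (Lwin d) (Kc d) e (C * (errW u a e p).toReal) := by
  intro N
  have h0 : ∀ m k, 0 ≤ inc H a (Lwin d) (Kc d) m k * defect u a (Lwin d) e m k := fun m k =>
    mul_nonneg (inc_nonneg (Lwin_pos d) hH m k) (defect_nonneg he m k)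
  have key : ENNReal.ofReal (∑ m ∈ Finset.range N, ∑ k : Fin d → Fin (2 ^ m),
      inc H a (Lwin d) (Kc d) m k * defect u a (Lwin d) e m k) ≤
      ENNReal.ofReal C * errW u a e p := by
    rw [ENNReal.ofReal_sum_of_nonneg fun m _ => Finset.sum_nonneg fun k _ => h0 m k, errW,
      ← ENNReal.tsum_mul_left]
    refine le_trans (Finset.sum_le_sum fun m _ => ?_) (ENNReal.sum_le_tsum _)
    rw [ENNReal.ofReal_sum_of_nonneg fun k _ => h0 m k, Finset.mul_sum]
    refine Finset.sum_le_sum fun k _ => ?_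
    rw [ENNReal.ofReal_mul (inc_nonneg (Lwin_pos d) hH m k), ← mul_assoc]
    exact mul_le_mul (h m k) le_rfl zero_le zero_le
  rw [← ENNReal.ofReal_toReal hfin, ← ENNReal.ofReal_mul hC] at key
  exact (ENNReal.ofReal_le_ofReal_iff (mul_nonneg hC ENNReal.toReal_nonneg)).1 key

/-- Dilations by at least `2` about a lifted bottom point contain the point. -/
lemma dilate_le (hu : Smooth u) {x z : E d} {r t τ : ℝ} (he : ‖e‖ = 1) (hr : 0 < r)
    (hsph : ‖x - z‖ = r) (hδ : 0 ≤ 1 + ⟪e, r⁻¹ • (x - z)⟫) (ht : 0 ≤ t)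
    (ht2 : t ≤ r * (1 + ⟪e, r⁻¹ • (x - z)⟫) / 2) (hτ : 2 ≤ τ) :
    ballAvg u (z - r • e + t • e + τ • ((z - r • e + t • e + r • e) - (z - r • e + t • e))) (τ * r)
      ≤ umax u x := by
  have hs : r ≤ (τ - 1) * r + t := by nlinarith
  refine le_umax hu (by positivity) ?_
  rw [show z - r • e + t • e + τ • ((z - r • e + t • e + r • e) - (z - r • e + t • e))
    = z + ((τ - 1) * r + t) • e by module]
  refine (contain_shift (s := (τ - 1) * r + t) he hr hsph (by ring) hδ hs ht ht2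
    (by nlinarith)).trans (le_of_eq (by ring))

lemma sqrt_nat_le (d : ℕ) : Real.sqrt d ≤ d := by
  rcases Nat.eq_zero_or_pos d with h | h
  · simp [h]
  · have h1 : (1 : ℝ) ≤ d := by exact_mod_cast h
    rw [Real.sqrt_le_left (by linarith)]
    nlinarith

lemma split_le {K1 K2 φ W : ℝ} (h1 : 0 ≤ K1) (h2 : 0 ≤ K2) (hφ : 0 ≤ φ) (hW : 0 ≤ W) :
    K1 * φ + K2 * W ≤ (K1 + K2 + 1) * (φ + W) := by nlinarith

/-- The final arithmetic of the comparison. -/
lemma chain_arith {D φ W X Y Z V C1 C2 A3 C3 A4 A5 : ℝ} (hA3 : 0 ≤ A3) (hA5 : 0 ≤ A5)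
    (hmargin : V ≤ C1 * φ) (hlow : 1 / 2 * X - A4 * (C2 * W + C2 * φ) ≤ V)
    (h2 : Y - C3 * φ ≤ A3 * X) (hup : Z ≤ A5 * (Y + C3 * φ + C3 * φ))
    (hD : D ≤ C1 * φ + Z) :
    D ≤ (C1 + A5 * (A3 * (2 * (C1 + A4 * C2)) + C3 + C3 + C3)) * φ
      + A5 * (A3 * (2 * (A4 * C2))) * W := by
  have hX : X ≤ 2 * (C1 * φ + A4 * (C2 * W + C2 * φ)) := by linarith
  have hY := mul_le_mul_of_nonneg_left hX hA3
  have hY2 : Y + C3 * φ + C3 * φ ≤
      A3 * (2 * (C1 * φ + A4 * (C2 * W + C2 * φ))) + C3 * φ + C3 * φ + C3 * φ := by linarith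
  have hY3 := mul_le_mul_of_nonneg_left hY2 hA5
  linarith

/-- The comparison for one vertical shift `t`. -/
lemma compare_at (d : ℕ) (hd : 2 ≤ d) : ∃ C : ℝ≥0∞, C ≠ ⊤ ∧ C ≠ 0 ∧
    ∀ (u : E d → ℝ) (a c0 e x0 z0 x1 z1 : E d) (r0 r1 t : ℝ), Smooth u →
    ball c0 (Rwin d) ⊆ window a (Lwin d) → ‖e‖ = 1 →
    ‖x0 - c0‖ ≤ Real.sqrt d → ‖x1 - c0‖ ≤ Real.sqrt d →
    2 * (d : ℝ) ≤ r0 → r0 ≤ 4 * d → IsOpt u x0 z0 r0 →
    2 * (d : ℝ) ≤ r1 → r1 ≤ 4 * d → IsOpt u x1 z1 r1 → ‖x1 - z1‖ = r1 →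
    0 ≤ t → t ≤ r1 * (1 + ⟪e, r1⁻¹ • (x1 - z1)⟫) / 2 →
    ENNReal.ofReal (umax u x0 - umax u x1) ≤
      C * (ENNReal.ofReal (phi0 u a (Lwin d) e) + errW u a e (z1 - r1 • e + t • e)) := by
  obtain ⟨C1, hC1, hT⟩ := translate_ge d hd
  obtain ⟨C2, hC2, hdil⟩ := dil_kern d hd
  obtain ⟨A3, C3, hA3, hC3, hcmp⟩ := cmp_kern d hd
  obtain ⟨C4, hC4, hlow⟩ := vector_lower d
  obtain ⟨C5, hC5, hup⟩ := vector_upper d
  set L := Lwin d with hLdef
  set A4 := C4 * (1 + 512 * (d : ℝ) + L) with hA4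
  set A5 := C5 * (L + C3) with hA5
  have hA4' : 0 ≤ A4 := mul_nonneg hC4 (by linarith [one_le_Lwin d, Nat.cast_nonneg (α := ℝ) d])
  have hA5' : 0 ≤ A5 := mul_nonneg hC5 (by linarith [one_le_Lwin d])
  set K0 := C1 + A5 * (A3 * (2 * (C1 + A4 * C2)) + C3 + C3 + C3) with hK0
  set KW := A5 * (A3 * (2 * (A4 * C2))) with hKW
  have hK0' : 0 ≤ K0 := by positivity
  have hKW' : 0 ≤ KW := by positivity
  refine ⟨ENNReal.ofReal (K0 + KW + 1), ENNReal.ofReal_ne_top,
    by simp; linarith, fun u a c0 e x0 z0 x1 z1 r0 r1 t hu hwin he hx0 hx1 hr0 hr0' hopt0 hr1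
      hr1' hopt1 hsph ht ht2 => ?_⟩
  have hd2 : (2 : ℝ) ≤ d := by exact_mod_cast hd
  have hr00 : 0 < r0 := by linarith
  have hr10 : 0 < r1 := by linarith
  set p := z1 - r1 • e + t • e with hp
  by_cases hfin : errW u a e p = ⊤
  · rw [hfin, add_top, ENNReal.mul_top (by simp; linarith)]
    exact le_top
  set W := (errW u a e p).toReal with hW
  have hW0 : 0 ≤ W := ENNReal.toReal_nonneg
  set δ := 1 + ⟪e, r1⁻¹ • (x1 - z1)⟫ with hδ
  have hδ01 : 0 ≤ δ ∧ δ ≤ 2 := by
    have h := abs_real_inner_le_norm e (r1⁻¹ • (x1 - z1))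
    rw [he, norm_smul, hsph, one_mul, Real.norm_eq_abs, abs_of_pos (inv_pos.2 hr10),
      inv_mul_cancel₀ hr10.ne'] at h
    constructor <;> linarith [abs_le.1 h]
  have ht4 : t ≤ r1 := by
    have := mul_le_mul_of_nonneg_left hδ01.2 hr10.le
    linarith
  have hsd : Real.sqrt d ≤ d := sqrt_nat_le d
  have hin : ∀ y, ‖y - c0‖ < Rwin d → y ∈ window a L := fun y hy =>
    hwin (mem_ball_iff_norm.2 hy)
  have hz0c : ‖z0 - c0‖ ≤ 5 * d := by
    have := norm_sub_le_norm_sub_add_norm_sub z0 x0 c0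
    rw [norm_sub_rev z0 x0] at this
    linarith [hopt0.2.1]
  have hz1c : ‖z1 - c0‖ ≤ 5 * d := by
    have := norm_sub_le_norm_sub_add_norm_sub z1 x1 c0
    rw [norm_sub_rev z1 x1] at this
    linarith [hopt1.2.1]
  have hpc : ‖p - c0‖ ≤ 13 * d := by
    rw [hp, show z1 - r1 • e + t • e - c0 = (z1 - c0) + (t - r1) • e by module]
    refine (norm_add_le _ _).trans ?_
    rw [norm_smul, he, Real.norm_eq_abs, abs_of_nonpos (by linarith)]
    linarith
  have hwinp : ∀ y, ‖y - p‖ ≤ 128 * r1 → y ∈ window a L := fun y hy => hin y (by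
    have := norm_sub_le_norm_sub_add_norm_sub y p c0
    unfold Rwin
    linarith)
  -- margin
  set G := homKer p (p + r1 • e) r1 1 64 with hG
  obtain ⟨hGk, hGsupp, hGinc⟩ := hdil a e p r1 he hr1 hr1' hwinp
  have hloss1 : umax u x1 - C1 * phi0 u a L e ≤ ballAvg u (z1 + t • e) r1 := by
    rw [← hopt1.2.2]
    exact hT u a e z1 r1 t hu he (by linarith) (by linarith) ht (by linarith) fun y hy => hin y (by
      have := norm_sub_le_norm_sub_add_norm_sub y z1 c0
      unfold Rwin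
      linarith)
  have hle : ∀ τ : ℝ, 2 ≤ τ →
      ballAvg u (p + τ • ((p + r1 • e) - p)) (τ * r1) ≤ umax u x1 := fun τ hτ =>
    dilate_le hu he hr10 hsph hδ01.1 ht ht2 hτ
  have hmargin : ∫ y, G y * ⟪∇ u y, y - p⟫ ≤ C1 * phi0 u a L e := by
    rw [hG, ← homothety_identity hu p (p + r1 • e) hr10 one_pos (by norm_num : (1 : ℝ) ≤ 64)]
    have h1 : ballAvg u (p + (1 : ℝ) • ((p + r1 • e) - p)) (1 * r1)
        = ballAvg u (z1 + t • e) r1 := by
      rw [one_mul, show p + (1 : ℝ) • ((p + r1 • e) - p) = z1 + t • e by rw [hp]; module]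
    rw [h1]
    linarith [hle 64 (by norm_num)]
  have hGerr := errLE_of_wgt (u := u) he hC2 hGk hGinc hfin
  have hlow' := hlow u a e p L C2 (C2 * W) (512 * d) G hu he (Lwin_pos d) hGk hGerr (by positivity)
    fun y hy => ⟨(hGsupp y hy).1, (hGsupp y hy).2.trans
      (mul_le_mul_of_nonneg_right (by linarith) (hGsupp y hy).1.le)⟩
  rw [← hA4] at hlow'
  -- comparison kernel
  set w := z0 + (31 * r1 + t) • e with hw
  have hP : p + (32 * r1) • e = z1 + (31 * r1 + t) • e := by rw [hp]; module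
  have hwP : ‖w - (p + (32 * r1) • e)‖ ≤ 10 * d := by
    rw [hP, hw, show z0 + (31 * r1 + t) • e - (z1 + (31 * r1 + t) • e) = (z0 - c0) - (z1 - c0)
      by module]
    exact (norm_sub_le _ _).trans (by linarith)
  obtain ⟨q, hq, hqw, hH⟩ := hcmp a e p w r1 r0 he hr1 hr1' hr0 hr0' hwP hwinp
  obtain ⟨hHk, hHinc, hH2k, hH2inc⟩ := hH
  set H := homKer q (p + (32 * r1) • e) (32 * r1) (r0 / (32 * r1)) 1 with hHdef
  set H2 := fun y => A3 * (max ⟪e, y - p⟫ 0 * G y) - H y with hH2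
  have h2 := scalar_lower hu he (Lwin_pos d) hH2k (errLE_of_inc_le hu he (Lwin_pos d) hC3.le hH2inc)
  have hGh : (fun y => A3 * (G y * (⟪e, y - p⟫ * ⟪e, ∇ u y⟫))) =
      fun y => H2 y * ⟪e, ∇ u y⟫ + H y * ⟪e, ∇ u y⟫ := by
    funext y
    simp only [hH2, sub_mul, sub_add_cancel]
    rcases eq_or_ne (G y) 0 with h | h
    · simp [h]
    · rw [max_eq_left (hGsupp y (lt_of_le_of_ne (hGk.nonneg y) (Ne.symm h))).1.le]
      ring
  have hsplit : A3 * ∫ y, G y * (⟪e, y - p⟫ * ⟪e, ∇ u y⟫) =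
      (∫ y, H2 y * ⟪e, ∇ u y⟫) + ∫ y, H y * ⟪e, ∇ u y⟫ := by
    rw [← integral_const_mul, ← integral_add (hH2k.integrable_mul_inner hu)
      (hHk.integrable_mul_inner hu), hGh]
  have hHup := hup u a e q L C3 (C3 * phi0 u a L e) C3 H hu he (Lwin_pos d) hHk
    (errLE_of_inc_le hu he (Lwin_pos d) hC3.le hHinc) hC3.le hq
  rw [← hA5] at hHup
  -- the chain of balls
  have hu0 : 0 < r0 / (32 * r1) ∧ r0 / (32 * r1) ≤ 1 :=
    ⟨by positivity, (div_le_one (by positivity)).2 (by linarith)⟩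
  have hid := homothety_identity hu q (p + (32 * r1) • e) (by positivity : 0 < 32 * r1) hu0.1 hu0.2
  rw [← hHdef, hqw, one_smul, one_mul, add_sub_cancel,
    div_mul_cancel₀ r0 (by positivity : (32 * r1) ≠ 0)] at hid
  have h32 : ballAvg u (p + (32 * r1) • e) (32 * r1) ≤ umax u x1 := by
    have := hle 32 (by norm_num)
    rwa [add_sub_cancel_left, smul_smul] at this
  have hloss0 : umax u x0 - C1 * phi0 u a L e ≤ ballAvg u w r0 := by
    rw [← hopt0.2.2]
    exact hT u a e z0 r0 (31 * r1 + t) hu he (by linarith) (by linarith) (by linarith)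
      (by linarith) fun y hy => hin y (by
        have := norm_sub_le_norm_sub_add_norm_sub y z0 c0
        unfold Rwin
        linarith)
  have hφ : 0 ≤ phi0 u a L e := phi0_nonneg he
  have hfinal : umax u x0 - umax u x1 ≤ K0 * phi0 u a L e + KW * W :=
    chain_arith hA3.le hA5' hmargin hlow' (by linarith) hHup
      (by linarith [neg_abs_le (∫ y, H y * ⟪∇ u y, y - q⟫)])
  calc ENNReal.ofReal (umax u x0 - umax u x1)
      ≤ ENNReal.ofReal ((K0 + KW + 1) * (phi0 u a L e + W)) :=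
        ENNReal.ofReal_le_ofReal (hfinal.trans (split_le hK0' hKW' hφ hW0))
    _ = _ := by
        rw [ENNReal.ofReal_mul (by linarith), ENNReal.ofReal_add hφ hW0, hW,
          ENNReal.ofReal_toReal hfin]

/-- Measurability of the shifted error. -/
lemma measurable_errW_shift (u : E d → ℝ) (a e p : E d) :
    Measurable (fun t : ℝ => errW u a e (p + t • e)) := by
  refine Measurable.ennreal_tsum fun m => Finset.measurable_sum _ fun k _ => ?_
  refine Measurable.mul_const ((measurable_wgtT e _).comp ?_) _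
  fun_prop

/-- Two optimal balls of one cell: the values differ by at most the error at the lower point. -/
theorem compare (d : ℕ) (hd : 2 ≤ d) : ∃ C : ℝ≥0∞, C ≠ ⊤ ∧
    ∀ (u : E d → ℝ) (a c0 e x0 z0 x1 z1 : E d) (r0 r1 : ℝ), Smooth u →
    ball c0 (Rwin d) ⊆ window a (Lwin d) → ‖e‖ = 1 →
    ‖x0 - c0‖ ≤ Real.sqrt d → ‖x1 - c0‖ ≤ Real.sqrt d →
    2 * (d : ℝ) ≤ r0 → r0 ≤ 4 * d → IsOpt u x0 z0 r0 →
    2 * (d : ℝ) ≤ r1 → r1 ≤ 4 * d → IsOpt u x1 z1 r1 → ‖x1 - z1‖ = r1 →
    ENNReal.ofReal (umax u x0 - umax u x1) ≤ C * phi u a (Lwin d) e x1 ∧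
    (-(1 / 2) ≤ ⟪e, r1⁻¹ • (x1 - z1)⟫ →
      ENNReal.ofReal (umax u x0 - umax u x1) ≤ C * ENNReal.ofReal (phi0 u a (Lwin d) e)) := by
  obtain ⟨C, hC, hC0, hcmp⟩ := compare_at d hd
  set Kd := 4 * Real.sqrt d with hKd
  have hd2 : (2 : ℝ) ≤ d := by exact_mod_cast hd
  have hKd1 : 1 ≤ Kd := by
    rw [hKd]; nlinarith [Real.one_le_sqrt.2 (by linarith : (1 : ℝ) ≤ d)]
  set B := 12 * Kd + 5 * Real.sqrt (Lwin d) with hB
  have hB1 : 1 ≤ B := by linarith [Real.sqrt_nonneg (Lwin d)]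
  refine ⟨C * ENNReal.ofReal (B + 1), ENNReal.mul_ne_top hC ENNReal.ofReal_ne_top,
    fun u a c0 e x0 z0 x1 z1 r0 r1 hu hwin he hx0 hx1 hr0 hr0' hopt0 hr1 hr1' hopt1 hsph => ?_⟩
  have hr10 : 0 < r1 := by linarith
  set L := Lwin d with hLdef
  set n := r1⁻¹ • (x1 - z1) with hn
  set δ := 1 + ⟪e, n⟫ with hδ
  have hnn : ‖n‖ = 1 := by
    rw [hn, norm_smul, hsph, Real.norm_eq_abs, abs_of_pos (inv_pos.2 hr10),
      inv_mul_cancel₀ hr10.ne']
  have hδ0 : 0 ≤ δ := by
    have h := abs_real_inner_le_norm e n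
    rw [he, hnn, one_mul] at h
    linarith [abs_le.1 h]
  set T := r1 * δ / 2 with hT
  set p0 := z1 - r1 • e with hp0
  set Δ := ENNReal.ofReal (umax u x0 - umax u x1) with hΔ
  have hat : ∀ t, 0 ≤ t → t ≤ T →
      Δ ≤ C * (ENNReal.ofReal (phi0 u a L e) + errW u a e (p0 + t • e)) := fun t h1 h2 =>
    hcmp u a c0 e x0 z0 x1 z1 r0 r1 t hu hwin he hx0 hx1 hr0 hr0' hopt0 hr1 hr1' hopt1 hsph h1 h2
  have hone : (1 : ℝ≥0∞) ≤ ENNReal.ofReal (B + 1) := by
    simpa using ENNReal.ofReal_le_ofReal (by linarith : (1 : ℝ) ≤ B + 1)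
  -- averaging
  have havg : 0 < T → ∀ (R : ℝ≥0∞),
      (∫⁻ t in Icc 0 T, errW u a e (p0 + t • e)) ≤ ENNReal.ofReal T * R →
      Δ ≤ C * (ENNReal.ofReal (phi0 u a L e) + R) := by
    intro hT0 R hR
    have hI : Δ * ENNReal.ofReal T ≤
        C * (ENNReal.ofReal (phi0 u a L e) + R) * ENNReal.ofReal T := by
      calc Δ * ENNReal.ofReal T = ∫⁻ _t in Icc 0 T, Δ := by
            rw [setLIntegral_const, Real.volume_Icc, sub_zero]
        _ ≤ ∫⁻ t in Icc 0 T, C * (ENNReal.ofReal (phi0 u a L e) + errW u a e (p0 + t • e)) :=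
            setLIntegral_mono' measurableSet_Icc fun t ht => hat t ht.1 ht.2
        _ = C * (ENNReal.ofReal (phi0 u a L e) * ENNReal.ofReal T +
              ∫⁻ t in Icc 0 T, errW u a e (p0 + t • e)) := by
            rw [lintegral_const_mul' _ _ hC, lintegral_add_left measurable_const, setLIntegral_const,
              Real.volume_Icc, sub_zero]
        _ ≤ _ := by
            rw [mul_assoc, add_mul, mul_comm R]
            exact mul_le_mul le_rfl (add_le_add le_rfl hR) zero_le zero_le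
    exact (ENNReal.mul_le_mul_iff_left (by simpa using hT0) ENNReal.ofReal_ne_top).1 hI
  have hlint : ∫⁻ t in Icc 0 T, errW u a e (p0 + t • e) = ∑' m : ℕ, ∑ k : Fin d → Fin (2 ^ m),
      (∫⁻ t in Icc 0 T, wgtT e (side L m) ((ctr a L m k - p0) - t • e)) *
        ENNReal.ofReal (defect u a L e m k) := by
    have hm : ∀ m (k : Fin d → Fin (2 ^ m)), Measurable fun t : ℝ =>
        wgtT e (side L m) (ctr a L m k - (p0 + t • e)) * ENNReal.ofReal (defect u a L e m k) :=
      fun m k => Measurable.mul_const ((measurable_wgtT e _).comp (by fun_prop)) _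
    unfold errW
    rw [← hLdef, lintegral_tsum fun m => (Finset.measurable_sum _ fun k _ => hm m k).aemeasurable]
    refine tsum_congr fun m => ?_
    rw [lintegral_finsetSum _ fun k _ => hm m k]
    refine Finset.sum_congr rfl fun k _ => ?_
    rw [lintegral_mul_const' _ _ ENNReal.ofReal_ne_top]
    simp only [sub_add_eq_sub_sub]
  constructor
  · rcases hδ0.lt_or_eq with hpos | hzero
    · have hT0 : 0 < T := by positivity
      set R := ∑' m : ℕ, ∑ k : Fin d → Fin (2 ^ m), ENNReal.ofReal (12 * Kd) *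
        (wgtX e (side L m) (ctr a L m k - x1) * ENNReal.ofReal (defect u a L e m k)) with hR
      have h1 : (∫⁻ t in Icc 0 T, errW u a e (p0 + t • e)) ≤ ENNReal.ofReal T * R := by
        rw [hlint, hR, ← ENNReal.tsum_mul_left]
        refine ENNReal.tsum_le_tsum fun m => ?_
        rw [Finset.mul_sum]
        refine Finset.sum_le_sum fun k _ => ?_
        rw [← mul_assoc, ← mul_assoc, ← ENNReal.ofReal_mul hT0.le]
        refine mul_le_mul ?_ le_rfl zero_le zero_le
        have hw : ‖lat e (p0 - x1)‖ ≤ Kd * Real.sqrt T := by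
          have e1 : lat e (p0 - x1) = -(r1 • lat e n) := by
            have hxz : x1 - z1 = r1 • n := by rw [hn, smul_inv_smul₀ hr10.ne']
            rw [show p0 - x1 = -(r1 • n) - r1 • e by rw [← hxz, hp0]; module, lat_sub_smul he]
            simp only [lat, inner_neg_right, inner_smul_right, neg_smul, smul_sub, smul_smul]
            module
          rw [e1, norm_neg, norm_smul, Real.norm_eq_abs, abs_of_pos hr10]
          refine le_of_pow_le_pow_left₀ two_ne_zero (by positivity) ?_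
          rw [mul_pow, mul_pow, norm_sq_lat he, hnn, Real.sq_sqrt hT0.le, hKd, mul_pow,
            Real.sq_sqrt (by linarith)]
          have : (1 : ℝ) ^ 2 - ⟪e, n⟫ ^ 2 ≤ 2 * δ := by rw [hδ]; nlinarith [sq_nonneg (⟪e, n⟫ + 1)]
          calc r1 ^ 2 * ((1 : ℝ) ^ 2 - ⟪e, n⟫ ^ 2) ≤ r1 ^ 2 * (2 * δ) :=
                mul_le_mul_of_nonneg_left this (sq_nonneg _)
            _ = (4 * r1) * T := by rw [hT]; ring
            _ ≤ _ := mul_le_mul_of_nonneg_right (by nlinarith) hT0.le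
        have h2 := lintegral_wgtT_le_wgtX he hT0 hKd1
          (by rw [side]; exact div_pos (Lwin_pos d) (by positivity) : 0 < side L m)
          (v := ctr a L m k - p0) (w := p0 - x1) hw
        rw [sub_add_sub_cancel] at h2
        exact h2.trans (le_of_eq (by congr 2; ring))
      refine (havg hT0 R h1).trans ?_
      rw [mul_assoc C]
      refine mul_le_mul le_rfl ?_ zero_le zero_le
      rw [phi, mul_add]
      refine add_le_add (le_mul_of_one_le_left zero_le hone) ?_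
      rw [hR, ← ENNReal.tsum_mul_left]
      refine ENNReal.tsum_le_tsum fun m => ?_
      rw [Finset.mul_sum]
      exact Finset.sum_le_sum fun k _ => mul_le_mul
        (ENNReal.ofReal_le_ofReal (by linarith [Real.sqrt_nonneg L])) le_rfl zero_le zero_le
    · refine (hat 0 le_rfl (by rw [hT, ← hzero]; simp)).trans ?_
      rw [mul_assoc C, zero_smul, add_zero]
      refine mul_le_mul le_rfl ((add_le_add le_rfl ?_).trans
        (le_mul_of_one_le_left zero_le hone)) zero_le zero_le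
      refine ENNReal.tsum_le_tsum fun m => Finset.sum_le_sum fun k _ =>
        mul_le_mul ?_ le_rfl zero_le zero_le
      have hx1p : x1 = p0 := by
        have hne : n = -e := by
          rw [← sub_eq_zero, sub_neg_eq_add, ← norm_eq_zero]
          have : ‖n + e‖ ^ 2 = 0 := by
            rw [norm_add_sq_real, hnn, he, real_inner_comm e n]
            linarith
          simpa using this
        have hxz : x1 - z1 = r1 • n := by rw [hn, smul_inv_smul₀ hr10.ne']
        rw [hp0, ← sub_eq_zero, show x1 - (z1 - r1 • e) = (x1 - z1) + r1 • e by module, hxz, hne]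
        simp
      rw [← hx1p]
      refine le_min (min_le_left _ _) ?_
      set v := ctr a L m k - x1
      by_cases hc : ‖lat e v‖ ≤ Real.sqrt (side L m)
      · refine (min_le_left _ _).trans ?_
        rcases (norm_nonneg (lat e v)).lt_or_eq with hp | hp
        · rw [ENNReal.le_div_iff_mul_le (Or.inl (by simpa using Real.sqrt_pos.2 hp))
            (Or.inl ENNReal.ofReal_ne_top), one_mul]
          exact ENNReal.ofReal_le_ofReal (Real.sqrt_le_sqrt hc)
        · rw [← hp, Real.sqrt_zero, ENNReal.ofReal_zero, ENNReal.div_zero (by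
            simpa using Real.sqrt_pos.2 (Real.sqrt_pos.2
              (by rw [side]; exact div_pos (Lwin_pos d) (by positivity) : 0 < side L m)))]
          exact le_top
      · push Not at hc
        refine ((min_le_right _ _).trans (min_le_right _ _)).trans ?_
        have hp : 0 < ‖lat e v‖ := (Real.sqrt_nonneg _).trans_lt hc
        rw [← ENNReal.ofReal_div_of_pos hp, ← ENNReal.ofReal_div_of_pos (Real.sqrt_pos.2 hp),
          ← Real.sqrt_div' _ hp.le]
        refine ENNReal.ofReal_le_ofReal (Real.le_sqrt_of_sq_le ?_)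
        have hq : Real.sqrt (side L m) / ‖lat e v‖ ≤ 1 := (div_le_one hp).2 hc.le
        nlinarith [div_nonneg (Real.sqrt_nonneg (side L m)) hp.le]
  · intro hhalf
    have hδ2 : 1 / 2 ≤ δ := by linarith
    have hT0 : 0 < T := by positivity
    have hT1 : 1 ≤ Real.sqrt T := Real.one_le_sqrt.2 (by rw [hT]; nlinarith)
    set c := 5 * Real.sqrt L with hc
    have hsum : ∀ m, 0 ≤ c * (qdec ^ m * lvl u a L e m) := fun m =>
      mul_nonneg (by positivity) (mul_nonneg (pow_nonneg qdec_pos.le m)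
        (Finset.sum_nonneg fun k _ => defect_nonneg he m k))
    have h1 : (∫⁻ t in Icc 0 T, errW u a e (p0 + t • e)) ≤
        ENNReal.ofReal T * ENNReal.ofReal (c * phi0 u a L e) := by
      rw [hlint, phi0, ← tsum_mul_left, ENNReal.ofReal_tsum_of_nonneg hsum
        ((summable_phi0 hu he (Lwin_pos d)).mul_left c), ← ENNReal.tsum_mul_left]
      refine ENNReal.tsum_le_tsum fun m => ?_
      calc ∑ k : Fin d → Fin (2 ^ m), (∫⁻ t in Icc 0 T, wgtT e (side L m)
            ((ctr a L m k - p0) - t • e)) * ENNReal.ofReal (defect u a L e m k)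
          ≤ ∑ k : Fin d → Fin (2 ^ m),
              ENNReal.ofReal (5 * Real.sqrt (side L m) * Real.sqrt T) *
                ENNReal.ofReal (defect u a L e m k) :=
            Finset.sum_le_sum fun k _ => mul_le_mul (lintegral_wgtT_le he hT0 _ _) le_rfl
              zero_le zero_le
        _ = ENNReal.ofReal (5 * Real.sqrt (side L m) * Real.sqrt T * lvl u a L e m) := by
            rw [← Finset.mul_sum, ← ENNReal.ofReal_sum_of_nonneg fun k _ => defect_nonneg he m k,
              ← ENNReal.ofReal_mul (by positivity)]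
            rfl
        _ ≤ _ := by
            rw [← ENNReal.ofReal_mul hT0.le]
            refine ENNReal.ofReal_le_ofReal ?_
            have h5 : 5 * Real.sqrt (side L m) * Real.sqrt T ≤ T * (c * qdec ^ m) := by
              have hs := sqrt_side_le d m
              have hTT : Real.sqrt T ≤ T := by
                nlinarith [Real.mul_self_sqrt hT0.le]
              calc 5 * Real.sqrt (side L m) * Real.sqrt T
                  ≤ 5 * (Real.sqrt L * qdec ^ m) * T :=
                    mul_le_mul (mul_le_mul_of_nonneg_left hs (by norm_num)) hTT (Real.sqrt_nonneg _)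
                      (by have := qdec_pos; positivity)
                _ = _ := by rw [hc]; ring
            calc _ ≤ T * (c * qdec ^ m) * lvl u a L e m :=
                  mul_le_mul_of_nonneg_right h5 (Finset.sum_nonneg fun k _ => defect_nonneg he m k)
              _ = _ := by ring
    refine (havg hT0 _ h1).trans ?_
    rw [mul_assoc C, ← ENNReal.ofReal_add (phi0_nonneg he)
      (mul_nonneg (by positivity) (phi0_nonneg he)), ← ENNReal.ofReal_mul (by linarith)]
    exact mul_le_mul le_rfl (ENNReal.ofReal_le_ofReal (by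
      nlinarith [phi0_nonneg (u := u) (a := a) (L := L) he])) zero_le zero_le

end

end Vale.Agent.P137.Unc
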