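import Vale.Agent.P137.Unc.Defs

/-!
# P137, uncentred operator: generic bounds on increments and on cut integrals
-/

open MeasureTheory Metric Set
open scoped ENNReal RealInnerProductSpace

namespace Vale.Agent.P137.Unc

noncomputable section

variable {d : ℕ}

theorem side_pos {L : ℝ} (hL : 0 < L) (m : ℕ) : 0 < side L m := by
  rw [side]; positivity

theorem side_succ (L : ℝ) (m : ℕ) : side L m = 2 * side L (m + 1) := by
  rw [side, side, pow_succ]; field_simp

theorem Kc_pos (d : ℕ) : 0 < Kc d := by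
  rw [Kc]; positivity

theorem Lwin_ge_one (d : ℕ) : 1 ≤ Lwin d := one_le_pow₀ (by norm_num)

theorem norm_le_of_coord {v : E d} {A : ℝ} (hA : 0 ≤ A) (h : ∀ i, |v i| ≤ A) :
    ‖v‖ ≤ Real.sqrt d * A := by
  rw [EuclideanSpace.norm_eq, ← Real.sqrt_sq hA, ← Real.sqrt_mul (Nat.cast_nonneg d)]
  apply Real.sqrt_le_sqrt
  calc ∑ i, ‖v i‖ ^ 2 ≤ ∑ _i : Fin d, A ^ 2 := Finset.sum_le_sum fun i _ =>
        pow_le_pow_left₀ (norm_nonneg _) (by rw [Real.norm_eq_abs]; exact h i) 2
    _ = d * A ^ 2 := by simp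

theorem norm_sub_le_of_mem_window {a y y' : E d} {L : ℝ} (hL : 0 ≤ L) (hy : y ∈ window a L)
    (hy' : y' ∈ window a L) : ‖y - y'‖ ≤ Real.sqrt d * L := by
  refine norm_le_of_coord hL fun i => ?_
  rw [PiLp.sub_apply, abs_le]
  have h1 := hy i
  have h2 := hy' i
  constructor <;> linarith [h1.1, h1.2, h2.1, h2.2]

theorem norm_ctr_sub_ctr_parent {L : ℝ} (hL : 0 < L) (a : E d) (m : ℕ)
    (k : Fin d → Fin (2 ^ (m + 1))) :
    ‖ctr a L (m + 1) k - ctr a L m (parent k)‖ ≤ Real.sqrt d * side L (m + 1) := by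
  refine norm_le_of_coord (side_pos hL _).le fun i => ?_
  have hp : ((parent k i : ℕ)) = (k i : ℕ) / 2 := rfl
  simp only [ctr, PiLp.sub_apply, hp, side_succ L m]
  have h := Nat.div_add_mod (k i : ℕ) 2
  have hm : (k i : ℕ) % 2 < 2 := Nat.mod_lt _ two_pos
  have hs := side_pos hL (m + 1)
  rw [abs_le]
  have h' : ((k i : ℕ) : ℝ) = 2 * (((k i : ℕ) / 2 : ℕ) : ℝ) + (((k i : ℕ) % 2 : ℕ) : ℝ) := by
    exact_mod_cast h.symm
  have hm' : (((k i : ℕ) % 2 : ℕ) : ℝ) ≤ 1 := by exact_mod_cast Nat.lt_succ_iff.1 hm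
  have hm0 : (0 : ℝ) ≤ (((k i : ℕ) % 2 : ℕ) : ℝ) := Nat.cast_nonneg _
  rw [h']
  constructor <;> nlinarith

variable {H : E d → ℝ} {a : E d} {L : ℝ}

theorem low_le (h0 : ∀ y, 0 ≤ H y) {K : ℝ} {m : ℕ} {k : Fin d → Fin (2 ^ m)} {y : E d}
    (hy : y ∈ closedBall (ctr a L m k) (K * side L m)) : low H a L K m k ≤ H y :=
  csInf_le ⟨0, by rintro _ ⟨w, _, rfl⟩; exact h0 w⟩ (mem_image_of_mem H hy)

theorem low_nonneg' (h0 : ∀ y, 0 ≤ H y) (hL : 0 < L) (m : ℕ) (k : Fin d → Fin (2 ^ m)) :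
    0 ≤ low H a L (Kc d) m k := by
  refine le_csInf ⟨_, mem_image_of_mem H (mem_closedBall_self ?_)⟩ ?_
  · exact (mul_pos (Kc_pos d) (side_pos hL m)).le
  · rintro _ ⟨w, _, rfl⟩; exact h0 w

theorem ctr_mem_ball (hL : 0 < L) (m : ℕ) (k : Fin d → Fin (2 ^ m)) :
    ctr a L m k ∈ closedBall (ctr a L m k) (Kc d * side L m) :=
  mem_closedBall_self (mul_pos (Kc_pos d) (side_pos hL m)).le

/-- The increment is at most the value at the centre. -/
theorem inc_le_apply (h0 : ∀ y, 0 ≤ H y) (hL : 0 < L) (m : ℕ) (k : Fin d → Fin (2 ^ m)) :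
    inc H a L (Kc d) m k ≤ H (ctr a L m k) := by
  cases m with
  | zero => exact low_le h0 (ctr_mem_ball hL 0 k)
  | succ m =>
    have h1 : low H a L (Kc d) (m + 1) k ≤ H (ctr a L (m + 1) k) :=
      low_le h0 (ctr_mem_ball hL _ k)
    have h2 := low_nonneg' (a := a) h0 hL m (parent k)
    simp only [inc]; linarith

/-- The increment is at most the oscillation near the centre. -/
theorem inc_succ_le (h0 : ∀ y, 0 ≤ H y) (hL : 0 < L) (m : ℕ) (k : Fin d → Fin (2 ^ (m + 1)))
    (D : ℝ) (hD : ∀ y, ‖ctr a L (m + 1) k - y‖ ≤ 3 * Kc d * side L (m + 1) →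
      H (ctr a L (m + 1) k) - H y ≤ D) :
    inc H a L (Kc d) (m + 1) k ≤ D := by
  have h1 : low H a L (Kc d) (m + 1) k ≤ H (ctr a L (m + 1) k) :=
    low_le h0 (ctr_mem_ball hL _ k)
  have h2 : H (ctr a L (m + 1) k) - D ≤ low H a L (Kc d) m (parent k) := by
    refine le_csInf ⟨_, mem_image_of_mem H (ctr_mem_ball hL m _)⟩ ?_
    rintro _ ⟨y, hy, rfl⟩
    rw [mem_closedBall, dist_eq_norm, norm_sub_rev, side_succ L m] at hy
    have := norm_sub_le_norm_sub_add_norm_sub (ctr a L (m + 1) k) (ctr a L m (parent k)) y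
    have h3 := norm_ctr_sub_ctr_parent hL a m k
    have h4 : Real.sqrt d * side L (m + 1) ≤ Kc d * side L (m + 1) :=
      mul_le_mul_of_nonneg_right (by rw [Kc]; linarith [Real.sqrt_nonneg (d : ℝ)])
        (side_pos hL _).le
    linarith [hD y (by nlinarith)]
  simp only [inc]; linarith

theorem qdec_pos : 0 < qdec := Real.rpow_pos_of_pos two_pos _

theorem qdec_le_one : qdec ≤ 1 :=
  Real.rpow_le_one_of_one_le_of_nonpos (by norm_num) (by norm_num)

theorem qdec_pow_four : qdec ^ 4 = 1 / 2 := by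
  rw [qdec, ← Real.rpow_natCast, ← Real.rpow_mul two_pos.le]
  norm_num [Real.rpow_neg_one]

/-- A modulus of continuity `|x| + sqrt |x|` gives increments `O(qdec ^ m)`. -/
theorem inc_le_qdec {A B : ℝ} (hL : 0 < L) (h0 : ∀ y, 0 ≤ H y) (hB : ∀ y, H y ≤ B) (hA : 0 ≤ A)
    (hmod : ∀ y y', H y - H y' ≤ A * (‖y - y'‖ + Real.sqrt ‖y - y'‖)) (m : ℕ)
    (k : Fin d → Fin (2 ^ m)) :
    inc H a L (Kc d) m k ≤
      max B (A * (3 * Kc d * L + Real.sqrt (3 * Kc d * L))) * qdec ^ m := by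
  cases m with
  | zero =>
    rw [pow_zero, mul_one]
    exact ((inc_le_apply h0 hL 0 k).trans (hB _)).trans (le_max_left _ _)
  | succ m =>
    refine inc_succ_le h0 hL m k _ fun y hy => (hmod _ _).trans ?_
    have hq := qdec_pos
    revert hy
    generalize ctr a L (m + 1) k = c
    intro hy
    have hK := Kc_pos d
    set n := m + 1 with hn
    set X := 3 * Kc d * L with hX
    have hX0 : 0 < X := by rw [hX]; positivity
    have h4 : ((2 : ℝ) ^ n)⁻¹ = qdec ^ (4 * n) := by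
      rw [pow_mul, qdec_pow_four, one_div, inv_pow]
    have e1 : 3 * Kc d * side L n = X * qdec ^ (4 * n) := by
      rw [side, hX, ← h4]; ring
    rw [e1] at hy
    have b1 : ‖c - y‖ ≤ X * qdec ^ n :=
      hy.trans (mul_le_mul_of_nonneg_left
        (pow_le_pow_of_le_one hq.le qdec_le_one (show n ≤ 4 * n by omega)) hX0.le)
    have b2 : Real.sqrt ‖c - y‖ ≤ Real.sqrt X * qdec ^ n := by
      calc Real.sqrt ‖c - y‖ ≤ Real.sqrt (X * (qdec ^ (2 * n)) ^ 2) := by
            apply Real.sqrt_le_sqrt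
            rw [← pow_mul, show 2 * n * 2 = 4 * n by ring]
            exact hy
        _ = Real.sqrt X * qdec ^ (2 * n) := by
            rw [Real.sqrt_mul hX0.le, Real.sqrt_sq (by positivity)]
        _ ≤ _ := mul_le_mul_of_nonneg_left
            (pow_le_pow_of_le_one hq.le qdec_le_one (show n ≤ 2 * n by omega)) (Real.sqrt_nonneg _)
    calc A * (‖c - y‖ + Real.sqrt ‖c - y‖)
        ≤ A * ((X + Real.sqrt X) * qdec ^ n) :=
          mul_le_mul_of_nonneg_left (by rw [add_mul]; linarith) hA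
      _ = A * (X + Real.sqrt X) * qdec ^ n := by ring
      _ ≤ _ := mul_le_mul_of_nonneg_right (le_max_right _ _) (by positivity)

/-! ## Cut integrals -/

/-- Two cuts of one bounded integrand differ by at most bound times width of the difference. -/
theorem cut_sub_le {a b B η : ℝ} {f : ℝ → ℝ} (P Q : ℝ → Prop) [DecidablePred P]
    [DecidablePred Q] (hP : MeasurableSet {t | P t}) (hQ : MeasurableSet {t | Q t})
    (hfm : Measurable f) (hf0 : ∀ t ∈ Icc a b, 0 ≤ f t) (hfB : ∀ t ∈ Icc a b, f t ≤ B)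
    (hB : 0 ≤ B) (hη : 0 ≤ η)
    (hdiam : ∀ s ∈ Icc a b, ∀ s' ∈ Icc a b, P s → ¬ Q s → P s' → ¬ Q s' → s' - s ≤ η) :
    (∫ t in Icc a b, if P t then f t else 0) - (∫ t in Icc a b, if Q t then f t else 0)
      ≤ B * η := by
  have hint : ∀ (R : ℝ → Prop) [DecidablePred R], MeasurableSet {t | R t} →
      IntegrableOn (fun t => if R t then f t else 0) (Icc a b) := fun R _ hR => by
    refine IntegrableOn.of_bound measure_Icc_lt_top
      ((Measurable.ite hR hfm measurable_const).aestronglyMeasurable) B ?_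
    refine ae_restrict_of_forall_mem measurableSet_Icc fun t ht => ?_
    by_cases h : R t
    · simpa [if_pos h, Real.norm_eq_abs, abs_of_nonneg (hf0 t ht)] using hfB t ht
    · simpa [if_neg h] using hB
  set S : Set ℝ := Icc a b ∩ ({t | P t} \ {t | Q t}) with hS
  have hSm : MeasurableSet S := measurableSet_Icc.inter (hP.diff hQ)
  have hSf : volume S ≠ ⊤ :=
    ((measure_mono inter_subset_left).trans_lt measure_Icc_lt_top).ne
  have hSint : IntegrableOn (S.indicator fun _ => B) (Icc a b) :=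
    (integrableOn_const measure_Icc_lt_top.ne).indicator hSm
  have hdia : volume S ≤ ENNReal.ofReal η := by
    refine (Real.volume_le_diam S).trans (Metric.ediam_le fun s hs s' hs' => ?_)
    rw [edist_dist, Real.dist_eq]
    refine ENNReal.ofReal_le_ofReal (abs_le.2 ⟨?_, ?_⟩)
    · linarith [hdiam s hs.1 s' hs'.1 hs.2.1 hs.2.2 hs'.2.1 hs'.2.2]
    · linarith [hdiam s' hs'.1 s hs.1 hs'.2.1 hs'.2.2 hs.2.1 hs.2.2]
  calc _ = ∫ t in Icc a b, ((if P t then f t else 0) - if Q t then f t else 0) :=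
        (integral_sub (hint P hP) (hint Q hQ)).symm
    _ ≤ ∫ t in Icc a b, S.indicator (fun _ => B) t := by
        refine setIntegral_mono_on ((hint P hP).sub (hint Q hQ)) hSint measurableSet_Icc
          fun t ht => ?_
        by_cases h1 : P t <;> by_cases h2 : Q t
        · rw [if_pos h1, if_pos h2, sub_self]; exact indicator_nonneg (fun _ _ => hB) _
        · rw [if_pos h1, if_neg h2, sub_zero, indicator_of_mem]
          · exact hfB t ht
          · exact ⟨ht, h1, h2⟩
        · rw [if_neg h1, if_pos h2, zero_sub]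
          exact (neg_nonpos.2 (hf0 t ht)).trans (indicator_nonneg (fun _ _ => hB) _)
        · rw [if_neg h1, if_neg h2, sub_self]; exact indicator_nonneg (fun _ _ => hB) _
    _ = volume.real S * B := by
        rw [setIntegral_indicator hSm, setIntegral_const, smul_eq_mul,
          inter_eq_right.2 inter_subset_left]
    _ ≤ η * B := mul_le_mul_of_nonneg_right (ENNReal.toReal_le_of_le_ofReal hη hdia) hB
    _ = B * η := mul_comm _ _

theorem cut_nonneg {a b : ℝ} {f : ℝ → ℝ} (P : ℝ → Prop) [DecidablePred P]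
    (hf0 : ∀ t ∈ Icc a b, 0 ≤ f t) : 0 ≤ ∫ t in Icc a b, if P t then f t else 0 :=
  setIntegral_nonneg measurableSet_Icc fun t ht => by
    by_cases h : P t
    · rw [if_pos h]; exact hf0 t ht
    · rw [if_neg h]

theorem cut_eq_zero {a b : ℝ} {f : ℝ → ℝ} (P : ℝ → Prop) [DecidablePred P]
    (h : ∀ t ∈ Icc a b, ¬ P t) : (∫ t in Icc a b, if P t then f t else 0) = 0 :=
  setIntegral_eq_zero_of_forall_eq_zero fun t ht => if_neg (h t ht)

theorem ball_inv_le (z : E d) {r : ℝ} (hr : 1 ≤ r) :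
    (volume.real (ball z r))⁻¹ ≤ (volume.real (ball (0 : E d) 1))⁻¹ := by
  apply inv_anti₀ (ENNReal.toReal_pos (measure_ball_pos volume _ one_pos).ne'
    measure_ball_lt_top.ne)
  simp only [Measure.real, Measure.addHaar_ball_center volume z]
  exact ENNReal.toReal_mono measure_ball_lt_top.ne (measure_mono (ball_subset_ball hr))

end
end Vale.Agent.P137.Unc
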