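import Vale.Agent.P137.Unc.Scaling
import Vale.Agent.P137.Unc.Limit
import Vale.Agent.P137.Unc.GridNest

/-!
# P137, uncentred operator: all scales

The cell bounds are summed over cells and over scales below a threshold by telescoping along the
nested shifted grids; scales above the threshold give a bounded gradient.
-/

open MeasureTheory Metric Set Filter
open scoped ENNReal RealInnerProductSpace Gradient

namespace Vale.Agent.P137.Unc

noncomputable section

variable {d : ℕ} {u : E d → ℝ}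

/-- The number of generations between a cell and its window. -/
def scJ (d : ℕ) : ℕ := Nat.clog 2 (8000 * d)

lemma scale_Lwin_mul (d : ℕ) (n : ℤ) : Lwin d * (2 : ℝ) ^ n = (2 : ℝ) ^ (n + (scJ d : ℕ)) := by
  rw [zpow_add₀ two_ne_zero, zpow_natCast, Lwin, scJ, mul_comm]

lemma scale_sum_cint (hu : Smooth u) (a : E d) {L : ℝ} (hL : 0 < L) (m : ℕ) :
    ∑ j : Fin d → Fin (2 ^ m), cint u a L m j = ∫ y in window a L, ∇ u y := by
  have h1 : window a L = ⋃ j, cube a L m j := by
    ext y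
    refine ⟨fun hy => mem_iUnion.2 (exists_mem_cube hL m hy), fun hy => ?_⟩
    obtain ⟨j, hj⟩ := mem_iUnion.1 hy
    exact cube_subset_window hL m j hj
  rw [h1, integral_iUnion_fintype (fun j => measurableSet_cube m j)
    (fun j j' hne => Set.disjoint_left.2 fun y hy hy' => hne (cube_index_unique hL m hy hy'))
    fun j => hu.integrable_grad.integrableOn]
  rfl

/-- A direction of a window; any unit vector if the integral vanishes. -/
lemma scale_exists_dir (hd : 1 ≤ d) (u : E d → ℝ) (a : E d) (L : ℝ) : ∃ e, IsDir u a L e := by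
  set I := ∫ y in window a L, ∇ u y with hI
  by_cases h : I = 0
  · refine ⟨EuclideanSpace.single ⟨0, hd⟩ 1, by simp, ?_⟩
    rw [← hI, h, norm_zero, zero_smul]
  · refine ⟨‖I‖⁻¹ • I, ?_, ?_⟩
    · rw [norm_smul, norm_inv, norm_norm, inv_mul_cancel₀ (norm_ne_zero_iff.2 h)]
    · rw [← hI, smul_inv_smul₀ (norm_ne_zero_iff.2 h)]

/-- The error of a window through the norms of the integrals over its subcubes. -/
lemma scale_phi0_le (hu : Smooth u) {a e : E d} {L : ℝ} (hL : 0 < L) (hdir : IsDir u a L e) :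
    ENNReal.ofReal (phi0 u a L e) ≤ ∑' m : ℕ, ENNReal.ofReal (qdec ^ m) *
      ((∑ j : Fin d → Fin (2 ^ m), ‖∫ y in cube a L m j, ∇ u y‖ₑ)
        - ‖∫ y in window a L, ∇ u y‖ₑ) := by
  have hn : ∀ m, 0 ≤ qdec ^ m * lvl u a L e m := fun m =>
    mul_nonneg (pow_nonneg dy_qdec_pos.le m) (lvl_nonneg hdir.1 m)
  rw [phi0, ENNReal.ofReal_tsum_of_nonneg hn (summable_phi0 hu hdir.1 hL)]
  refine ENNReal.tsum_le_tsum fun m => ?_
  rw [ENNReal.ofReal_mul (pow_nonneg dy_qdec_pos.le m)]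
  refine mul_le_mul le_rfl (le_of_eq ?_) zero_le zero_le
  have h2 : lvl u a L e m = (∑ j, ‖cint u a L m j‖) - ‖∫ y in window a L, ∇ u y‖ := by
    simp only [lvl, defect]
    rw [Finset.sum_sub_distrib, ← inner_sum, scale_sum_cint hu a hL m]
    congr 1
    conv_lhs => rw [hdir.2]
    rw [inner_smul_right, real_inner_self_eq_norm_sq, hdir.1, one_pow, mul_one]
  rw [h2, ENNReal.ofReal_sub _ (norm_nonneg _), ofReal_norm,
    ENNReal.ofReal_sum_of_nonneg fun j _ => norm_nonneg _]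
  simp only [ofReal_norm, cint]

/-- Points with an optimal ball of scale `2^n`. -/
def optAt (u : E d → ℝ) (n : ℤ) : Set (E d) :=
  {x | ∃ z r, 2 * (d : ℝ) * (2 : ℝ) ^ n ≤ r ∧ r ≤ 4 * d * (2 : ℝ) ^ n ∧ IsOpt u x z r}

/-- The centre of a cell of scale `2^n`. -/
def cellCtr (n : ℤ) (q : Fin d → ℤ) : E d := WithLp.toLp 2 fun i => (2 : ℝ) ^ n * (q i : ℝ)

lemma scale_cells_cover (hd : 1 ≤ d) (n : ℤ) (x : E d) :
    ∃ q : Fin d → ℤ, x ∈ ball (cellCtr n q) (Real.sqrt d * (2 : ℝ) ^ n) := by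
  have hp : (0 : ℝ) < 2 ^ n := zpow_pos two_pos n
  refine ⟨fun i => round (x i / (2 : ℝ) ^ n), mem_ball_iff_norm.2 ?_⟩
  refine lt_of_le_of_lt (norm_le_sqrt_mul (b := (2 : ℝ) ^ n / 2) (by positivity) fun i => ?_)
    (mul_lt_mul_of_pos_left (half_lt_self hp) (Real.sqrt_pos.2 (by exact_mod_cast hd)))
  have h : x i - (2 : ℝ) ^ n * (round (x i / (2 : ℝ) ^ n) : ℝ)
      = (2 : ℝ) ^ n * (x i / (2 : ℝ) ^ n - round (x i / (2 : ℝ) ^ n)) := by field_simp
  simp only [cellCtr, PiLp.sub_apply]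
  rw [h, abs_mul, abs_of_pos hp, div_eq_mul_inv _ (2 : ℝ)]
  exact mul_le_mul_of_nonneg_left ((abs_sub_round _).trans (by norm_num)) hp.le

/-- A window contains boundedly many cell centres. -/
lemma scale_card_cells (n : ℤ) (a : E d) :
    ∃ S : Finset (Fin d → ℤ), S.card ≤ (2 ^ scJ d + 1) ^ d ∧
      ∀ q : Fin d → ℤ, cellCtr n q ∈ window a (Lwin d * (2 : ℝ) ^ n) → q ∈ S := by
  have hp : (0 : ℝ) < 2 ^ n := zpow_pos two_pos n
  refine ⟨Fintype.piFinset fun i => Finset.Icc ⌊a i / (2 : ℝ) ^ n⌋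
    (⌊a i / (2 : ℝ) ^ n⌋ + (2 ^ scJ d : ℕ)), ?_, fun q hq => ?_⟩
  · rw [Fintype.card_piFinset]
    refine (Finset.prod_le_pow_card _ _ (2 ^ scJ d + 1) fun i _ => ?_).trans (le_of_eq (by simp))
    rw [Int.card_Icc, show ∀ x : ℤ, x + ((2 ^ scJ d : ℕ) : ℤ) + 1 - x = ((2 ^ scJ d + 1 : ℕ) : ℤ)
      from fun x => by push_cast; ring, Int.toNat_natCast]
  · rw [Fintype.mem_piFinset]
    intro i
    obtain ⟨h1, h2⟩ := hq i
    simp only [cellCtr] at h1 h2
    rw [Finset.mem_Icc]
    have ha := Int.floor_le (a i / (2 : ℝ) ^ n)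
    have hb := Int.lt_floor_add_one (a i / (2 : ℝ) ^ n)
    have h3 : a i / (2 : ℝ) ^ n ≤ q i := by rw [div_le_iff₀ hp]; linarith
    have h4 : (q i : ℝ) < a i / (2 : ℝ) ^ n + Lwin d := by
      rw [div_add' _ _ _ hp.ne', lt_div_iff₀ hp]; linarith
    refine ⟨Int.floor_le_iff.2 (by linarith [(Int.cast_le (R := ℝ)).2 (le_refl (q i))]), ?_⟩
    have h5 : ((q i : ℤ) : ℝ) < ((⌊a i / (2 : ℝ) ^ n⌋ + 1 + (2 ^ scJ d : ℕ) : ℤ) : ℝ) := by
      push_cast
      rw [show (2 : ℝ) ^ scJ d = Lwin d from rfl]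
      linarith
    have := Int.cast_lt.1 h5
    omega

/-- One scale. -/
lemma scale_one (d : ℕ) (hd : 2 ≤ d) : ∃ C : ℝ≥0∞, C ≠ ⊤ ∧
    ∀ (u : E d → ℝ) (n : ℤ), Smooth u →
    ∫⁻ x in optAt u n, ‖∇ (umax u) x‖ₑ ≤ C * ∑ s : Fin d → Fin 3, ∑' m : ℕ,
      ENNReal.ofReal (qdec ^ m) *
        (gridE (fun y => ∇ u y) s (n + (scJ d : ℕ) - m)
          - gridE (fun y => ∇ u y) s (n + (scJ d : ℕ))) := by
  obtain ⟨C, hC, hcell⟩ := scale_cell_bound d hd
  have hd1 : 1 ≤ d := by omega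
  refine ⟨C * ((2 ^ scJ d + 1) ^ d : ℕ), by finiteness, fun u n hu => ?_⟩
  set g : E d → E d := fun y => ∇ u y with hg
  set N : ℤ := n + (scJ d : ℕ) with hN
  have hp : (0 : ℝ) < 2 ^ n := zpow_pos two_pos n
  have hLs : Lwin d * (2 : ℝ) ^ n = (2 : ℝ) ^ N := scale_Lwin_mul d n
  choose ws wk hw using fun q : Fin d → ℤ => scale_window_exists (d := d) hd1 (cellCtr n q) n
  let F : (Fin d → Fin 3) × (Fin d → ℤ) → ℝ≥0∞ := fun w => ∑' m : ℕ, ENNReal.ofReal (qdec ^ m) *
    ((∑ j : Fin d → Fin (2 ^ m), ‖∫ y in cube (gcorner w.1 N w.2) ((2 : ℝ) ^ N) m j, g y‖ₑ)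
      - ‖∫ y in gcube w.1 N w.2, g y‖ₑ)
  have hsub : ∀ q, ball (cellCtr n q) (Rwin d * (2 : ℝ) ^ n) ⊆
      window (gcorner (ws q) N (wk q)) (Lwin d * (2 : ℝ) ^ n) := fun q => by
    rw [hLs]; exact hw q
  have hq : ∀ q, ∫⁻ x in ball (cellCtr n q) (Real.sqrt d * (2 : ℝ) ^ n) ∩ optAt u n,
      ‖∇ (umax u) x‖ₑ ≤ C * F (ws q, wk q) := by
    intro q
    obtain ⟨e, he⟩ := scale_exists_dir hd1 u (gcorner (ws q) N (wk q)) (Lwin d * (2 : ℝ) ^ n)
    refine (hcell u (gcorner (ws q) N (wk q)) (cellCtr n q) e _ hu hp (hsub q) he).trans ?_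
    refine mul_le_mul le_rfl ?_ zero_le zero_le
    rw [hLs] at he ⊢
    exact scale_phi0_le hu (zpow_pos two_pos N) he
  have hmult : ∀ w : (Fin d → Fin 3) × (Fin d → ℤ),
      (∑' q : Fin d → ℤ, (if (ws q, wk q) = w then F w else 0))
        ≤ ((2 ^ scJ d + 1) ^ d : ℕ) * F w := by
    intro w
    obtain ⟨S, hS, hmem⟩ := scale_card_cells n (gcorner w.1 N w.2)
    have hmemS : ∀ q, (ws q, wk q) = w → q ∈ S := fun q hqw => by
      have h := hsub q (mem_ball_self (mul_pos
        (by unfold Rwin; exact_mod_cast (by omega : 0 < 1000 * d)) hp))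
      refine hmem q ?_
      rw [← hqw]
      exact h
    rw [tsum_eq_sum (s := S) fun q hqS => if_neg fun h => hqS (hmemS q h)]
    refine (Finset.sum_le_sum (g := fun _ => F w) fun q _ => by
      split_ifs
      · exact le_rfl
      · exact zero_le).trans ?_
    rw [Finset.sum_const, nsmul_eq_mul]
    exact mul_le_mul (Nat.cast_le.2 hS) le_rfl zero_le zero_le
  have hsum : ∑' q : Fin d → ℤ, F (ws q, wk q) ≤
      ((2 ^ scJ d + 1) ^ d : ℕ) * ∑' w, F w := by
    calc ∑' q : Fin d → ℤ, F (ws q, wk q)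
        = ∑' q : Fin d → ℤ, ∑' w, (if (ws q, wk q) = w then F w else 0) := by
          refine tsum_congr fun q => ?_
          rw [tsum_eq_single (ws q, wk q) fun w hw' => if_neg fun h => hw' h.symm, if_pos rfl]
      _ = ∑' w, ∑' q : Fin d → ℤ, (if (ws q, wk q) = w then F w else 0) :=
          ENNReal.tsum_comm
      _ ≤ _ := by
          rw [← ENNReal.tsum_mul_left]
          exact ENNReal.tsum_le_tsum hmult
  have hF : ∑' w, F w = ∑ s : Fin d → Fin 3, ∑' m : ℕ, ENNReal.ofReal (qdec ^ m) *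
      (gridE g s (N - m) - gridE g s N) := by
    rw [ENNReal.tsum_prod', tsum_fintype]
    refine Finset.sum_congr rfl fun s _ => ?_
    rw [ENNReal.tsum_comm]
    refine tsum_congr fun m => ?_
    rw [ENNReal.tsum_mul_left]
    congr 1
    have hle : ∀ k, ‖∫ y in gcube s N k, g y‖ₑ ≤
        ∑ j : Fin d → Fin (2 ^ m), ‖∫ y in cube (gcorner s N k) ((2 : ℝ) ^ N) m j, g y‖ₑ := by
      intro k
      have h := scale_sum_cint hu (gcorner s N k) (zpow_pos two_pos N) m
      show ‖∫ y in window (gcorner s N k) ((2 : ℝ) ^ N), g y‖ₑ ≤ _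
      rw [hg, ← h]
      exact enorm_sum_le _ _
    have hfin : gridE g s N ≠ ⊤ := by
      refine ne_top_of_le_ne_top hu.integrable_grad.2.ne ?_
      calc gridE g s N ≤ ∑' k, ∫⁻ y in gcube s N k, ‖g y‖ₑ :=
            ENNReal.tsum_le_tsum fun k => enorm_integral_le_lintegral_enorm _
        _ = _ := tsum_setLIntegral_gcube s N _
    rw [← scale_children g hu.integrable_grad s N m]
    refine ENNReal.eq_sub_of_add_eq hfin ?_
    rw [gridE, ← ENNReal.tsum_add]
    exact tsum_congr fun k => tsub_add_cancel_of_le (hle k)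
  calc ∫⁻ x in optAt u n, ‖∇ (umax u) x‖ₑ
      ≤ ∫⁻ x in ⋃ q, ball (cellCtr n q) (Real.sqrt d * (2 : ℝ) ^ n) ∩ optAt u n,
          ‖∇ (umax u) x‖ₑ := lintegral_mono_set fun x hx => by
        obtain ⟨q, hq⟩ := scale_cells_cover hd1 n x
        exact mem_iUnion.2 ⟨q, hq, hx⟩
    _ ≤ ∑' q, C * F (ws q, wk q) := (lintegral_iUnion_le _ _).trans (ENNReal.tsum_le_tsum hq)
    _ ≤ _ := by
        rw [ENNReal.tsum_mul_left, mul_assoc, ← hF]
        exact mul_le_mul le_rfl hsum zero_le zero_le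

/-- All scales below a threshold. -/
lemma scale_fine (d : ℕ) (hd : 2 ≤ d) : ∃ C : ℝ≥0∞, C ≠ ⊤ ∧
    ∀ (u : E d → ℝ) (N : ℤ), Smooth u →
    ∫⁻ x in ⋃ i : ℕ, optAt u (N - (scJ d : ℕ) - i), ‖∇ (umax u) x‖ₑ
      ≤ C * tail (fun x => ∇ u x) N := by
  obtain ⟨C, hC, hone⟩ := scale_one d hd
  have hq : Summable (fun m : ℕ => qdec ^ m * (m : ℝ)) := by
    have := summable_pow_mul_geometric_of_norm_lt_one 1 (r := qdec)
      (by rw [Real.norm_eq_abs, abs_of_pos dy_qdec_pos]; exact qdec_lt_one)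
    simpa [mul_comm] using this
  have hn : ∀ m : ℕ, 0 ≤ qdec ^ m * (m : ℝ) := fun m =>
    mul_nonneg (pow_nonneg dy_qdec_pos.le m) (Nat.cast_nonneg m)
  refine ⟨C * ENNReal.ofReal (∑' m : ℕ, qdec ^ m * (m : ℝ)), by finiteness, fun u N hu => ?_⟩
  set g : E d → E d := fun y => ∇ u y with hg
  calc ∫⁻ x in ⋃ i : ℕ, optAt u (N - (scJ d : ℕ) - i), ‖∇ (umax u) x‖ₑ
      ≤ ∑' i : ℕ, C * ∑ s : Fin d → Fin 3, ∑' m : ℕ, ENNReal.ofReal (qdec ^ m) *
          (gridE g s (N - i - m) - gridE g s (N - i)) := by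
        refine (lintegral_iUnion_le _ _).trans (ENNReal.tsum_le_tsum fun i => ?_)
        have h := hone u (N - (scJ d : ℕ) - i) hu
        rwa [show N - (scJ d : ℕ) - (i : ℤ) + (scJ d : ℕ) = N - i by ring] at h
    _ = C * ∑ s : Fin d → Fin 3, ∑' m : ℕ, ENNReal.ofReal (qdec ^ m) *
          ∑' i : ℕ, (gridE g s (N - i - m) - gridE g s (N - i)) := by
        rw [ENNReal.tsum_mul_left, Summable.tsum_finsetSum fun s _ => ENNReal.summable]
        congr 1
        refine Finset.sum_congr rfl fun s _ => ?_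
        rw [ENNReal.tsum_comm]
        exact tsum_congr fun m => ENNReal.tsum_mul_left
    _ ≤ C * ∑ s : Fin d → Fin 3, ∑' m : ℕ, ENNReal.ofReal (qdec ^ m) *
          ((m : ℝ≥0∞) * ((∫⁻ y, ‖g y‖ₑ) - gridE g s N)) :=
        mul_le_mul le_rfl (Finset.sum_le_sum fun s _ => ENNReal.tsum_le_tsum fun m =>
          mul_le_mul le_rfl (scale_telescope g hu.integrable_grad s m N) zero_le zero_le)
          zero_le zero_le
    _ = _ := by
        rw [mul_assoc, tail, Finset.mul_sum _ _ (ENNReal.ofReal _)]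
        congr 1
        refine Finset.sum_congr rfl fun s _ => ?_
        rw [ENNReal.ofReal_tsum_of_nonneg hn hq, ← ENNReal.tsum_mul_right]
        refine tsum_congr fun m => ?_
        rw [ENNReal.ofReal_mul (pow_nonneg dy_qdec_pos.le m), ENNReal.ofReal_natCast, mul_assoc]

/-- The pointwise alternative: no activity, a large ball, or a scale below the threshold. -/
lemma scale_pointwise (hd : 1 ≤ d) (hu : Smooth u) (N' : ℤ) (x : E d) :
    ‖∇ (umax u) x‖ₑ ≤ ‖∇ u x‖ₑ
        + ENNReal.ofReal (((2 : ℝ) ^ N') ^ d * volume.real (ball (0 : E d) 1))⁻¹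
          * ENNReal.ofReal (gnorm u)
        + (⋃ i : ℕ, optAt u (N' - i)).indicator (fun x => ‖∇ (umax u) x‖ₑ) x := by
  by_cases hdiff : DifferentiableAt ℝ (umax u) x
  swap
  · rw [gradient_eq_zero_of_not_differentiableAt hdiff, enorm_zero]
    exact zero_le
  rcases (self_le_umax hd hu x).lt_or_eq with hlt | heq
  swap
  · rw [fderiv_umax_eq hd hu hdiff heq.symm]
    exact le_add_right (le_add_right le_rfl)
  obtain ⟨z, r, hopt⟩ := exists_isOpt hd hu hlt
  have hr := hopt.1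
  have hp : (0 : ℝ) < 2 ^ N' := zpow_pos two_pos N'
  by_cases hbig : (2 : ℝ) ^ N' ≤ r
  · refine le_add_right (le_add_left ?_)
    rw [← ofReal_norm, ← ENNReal.ofReal_mul (inv_nonneg.2
      (mul_nonneg (by positivity) measureReal_nonneg)), inv_mul_eq_div]
    refine ENNReal.ofReal_le_ofReal ((norm_grad_le_of_isOpt hd hu hopt hdiff).trans ?_)
    rw [volume_real_ball z hr]
    refine div_le_div_of_nonneg_left (integral_nonneg fun y => norm_nonneg _)
      (mul_pos (by positivity) unitVol_pos) (mul_le_mul_of_nonneg_right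
        (pow_le_pow_left₀ hp.le hbig d) measureReal_nonneg)
  · push Not at hbig
    refine le_add_left ?_
    have hd0 : (0 : ℝ) < 2 * d := by
      have : (1 : ℝ) ≤ d := by exact_mod_cast hd
      linarith
    obtain ⟨n, hn1, hn2⟩ : ∃ n : ℤ, (2 : ℝ) ^ n ≤ r / (2 * d) ∧ r / (2 * d) < (2 : ℝ) ^ (n + 1) :=
      ⟨Int.log 2 (r / (2 * (d : ℝ))),
        by simpa using Int.zpow_log_le_self (R := ℝ) (b := 2) one_lt_two (div_pos hr hd0),
        by simpa using Int.lt_zpow_succ_log_self (R := ℝ) (b := 2) one_lt_two (r / (2 * (d : ℝ)))⟩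
    rw [le_div_iff₀ hd0] at hn1
    rw [div_lt_iff₀ hd0, zpow_add_one₀ two_ne_zero] at hn2
    have hlt' : (2 : ℝ) ^ n < 2 ^ N' := by
      have h1 : (1 : ℝ) ≤ 2 * d := by
        have : (1 : ℝ) ≤ d := by exact_mod_cast hd
        linarith
      have := le_mul_of_one_le_right (zpow_pos two_pos n).le h1
      linarith
    have hle : n ≤ N' := ((zpow_lt_zpow_iff_right₀ one_lt_two).1 hlt').le
    have hmem : x ∈ ⋃ i : ℕ, optAt u (N' - i) := by
      refine mem_iUnion.2 ⟨(N' - n).toNat, z, r, ?_, ?_, hopt⟩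
      all_goals rw [Int.toNat_of_nonneg (by omega), sub_sub_cancel]
      · linarith
      · linarith
    rw [indicator_of_mem hmem]

/-- The output of the summation over scales. -/
theorem smooth_bound (d : ℕ) (hd : 2 ≤ d) : ∃ C : ℝ≥0∞, C ≠ ⊤ ∧ SmoothBound d C := by
  obtain ⟨C1, hC1, hfine⟩ := scale_fine d hd
  have hd1 : 1 ≤ d := by omega
  set ω := volume.real (ball (0 : E d) 1) with hω
  set C2 : ℝ := ((2 : ℝ) ^ scJ d) ^ d / ω with hC2
  have hω0 : 0 < ω := unitVol_pos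
  set C := 1 + C1 + ENNReal.ofReal C2 + C1 * 3 ^ d with hC
  refine ⟨C, by finiteness, fun u hu => ?_⟩
  have hG : Measurable fun x => ‖∇ (umax u) x‖ₑ := (measurable_gradient_fun (umax u)).enorm
  have hgu : Measurable fun x => ‖∇ u x‖ₑ := (measurable_gradient_fun u).enorm
  have hA : ∀ (N : ℤ) (A : Set (E d)), MeasurableSet A →
      ∫⁻ x in A, ‖∇ (umax u) x‖ₑ ≤ (∫⁻ x in A, ‖∇ u x‖ₑ)
        + ENNReal.ofReal C2 * ENNReal.ofReal ((2 : ℝ) ^ (-(d : ℤ) * N) * gnorm u) * volume A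
        + C1 * tail (fun x => ∇ u x) N := by
    intro N A hAm
    set T := ⋃ i : ℕ, optAt u (N - (scJ d : ℕ) - i) with hT
    have hTm : MeasurableSet T := MeasurableSet.iUnion fun i =>
      (isClosed_optSet hd1 hu (mul_pos (mul_pos two_pos (by exact_mod_cast hd1))
        (zpow_pos two_pos _))).measurableSet
    calc ∫⁻ x in A, ‖∇ (umax u) x‖ₑ
        ≤ ∫⁻ x in A, (‖∇ u x‖ₑ
            + ENNReal.ofReal (((2 : ℝ) ^ (N - (scJ d : ℕ))) ^ d * ω)⁻¹ * ENNReal.ofReal (gnorm u)
            + T.indicator (fun x => ‖∇ (umax u) x‖ₑ) x) :=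
          lintegral_mono fun x => scale_pointwise hd1 hu _ x
      _ ≤ _ := by
          rw [lintegral_add_right _ (hG.indicator hTm), lintegral_add_left hgu, setLIntegral_const]
          refine add_le_add (add_le_add le_rfl (le_of_eq ?_)) ?_
          · congr 1
            rw [← ENNReal.ofReal_mul (inv_nonneg.2 (by positivity)),
              ← ENNReal.ofReal_mul (div_nonneg (by positivity) hω0.le)]
            congr 1
            have hd' : ((2 : ℝ) ^ N) ^ d * (2 : ℝ) ^ (-(d : ℤ) * N) = 1 := by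
              rw [← zpow_natCast, ← zpow_mul, ← zpow_add₀ two_ne_zero,
                show N * (d : ℤ) + -(d : ℤ) * N = 0 by ring, zpow_zero]
            rw [zpow_sub₀ two_ne_zero, zpow_natCast, div_pow]
            field_simp
            linear_combination (-(gnorm u)) * hd'
          · refine (setLIntegral_le_lintegral _ _).trans ?_
            rw [lintegral_indicator hTm]
            exact hfine u N hu
  refine ⟨?_, fun N A hAm => (hA N A hAm).trans ?_⟩
  · set S := ∫⁻ x, ‖∇ u x‖ₑ with hS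
    have htail : ∀ N, tail (fun x => ∇ u x) N ≤ 3 ^ d * S := fun N => by
      refine (Finset.sum_le_sum fun s _ => tsub_le_self).trans (le_of_eq ?_)
      rw [Finset.sum_const, Finset.card_univ, Fintype.card_fun, Fintype.card_fin, Fintype.card_fin,
        nsmul_eq_mul]
      push_cast
      rfl
    have hball : ∀ R : ℕ, ∫⁻ x in ball (0 : E d) R, ‖∇ (umax u) x‖ₑ ≤ C * S := by
      intro R
      have hlim : Tendsto (fun n : ℕ => ENNReal.ofReal C2 *
          ENNReal.ofReal ((2 : ℝ) ^ (-(d : ℤ) * (n : ℤ)) * gnorm u) * volume (ball (0 : E d) R))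
          atTop (nhds 0) := by
        have h0 : Tendsto (fun n : ℕ => (2 : ℝ) ^ (-(d : ℤ) * (n : ℤ)) * gnorm u) atTop
            (nhds 0) := by
          have h1 := (tendsto_pow_atTop_nhds_zero_of_lt_one
            (by positivity : (0 : ℝ) ≤ (2 ^ d)⁻¹)
            (inv_lt_one_of_one_lt₀ (one_lt_pow₀ one_lt_two (by omega : d ≠ 0)))).mul_const (gnorm u)
          rw [zero_mul] at h1
          refine h1.congr fun n => ?_
          rw [zpow_mul, zpow_neg, zpow_natCast, zpow_natCast]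
        have h2 := ENNReal.tendsto_ofReal h0
        rw [ENNReal.ofReal_zero] at h2
        have h3 := ENNReal.Tendsto.mul_const
          (ENNReal.Tendsto.const_mul h2 (Or.inr ENNReal.ofReal_ne_top))
          (Or.inr (measure_ball_lt_top (μ := volume) (x := (0 : E d)) (r := (R : ℝ))).ne)
          (a := ENNReal.ofReal C2 * 0)
        rwa [mul_zero, zero_mul] at h3
      refine ge_of_tendsto ((tendsto_const_nhds (x := C * S)).add hlim) ?_ |>.trans (by rw [add_zero])
      refine Eventually.of_forall fun n => ?_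
      refine (hA n _ measurableSet_ball).trans ?_
      have h3 : (∫⁻ x in ball (0 : E d) R, ‖∇ u x‖ₑ) + C1 * tail (fun x => ∇ u x) n ≤ C * S := by
        calc _ ≤ S + C1 * (3 ^ d * S) :=
              add_le_add (setLIntegral_le_lintegral _ _) (mul_le_mul le_rfl (htail n) zero_le zero_le)
          _ = (1 + C1 * 3 ^ d) * S := by ring
          _ ≤ _ := mul_le_mul (by
              rw [hC, add_assoc 1 C1]
              exact add_le_add (le_add_right le_rfl) le_rfl) le_rfl zero_le zero_le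
      rw [add_right_comm]
      exact add_le_add h3 le_rfl
    have hmono := setLIntegral_iUnion_of_directed (μ := (volume : Measure (E d)))
      (fun x => ‖∇ (umax u) x‖ₑ) (s := fun R : ℕ => ball (0 : E d) R)
      (Monotone.directed_le fun R R' h => ball_subset_ball (Nat.cast_le.2 h))
    rw [iUnion_ball_nat, setLIntegral_univ] at hmono
    rw [hmono]
    exact iSup_le hball
  · refine add_le_add (add_le_add le_rfl (mul_le_mul (mul_le_mul ?_ le_rfl zero_le zero_le) le_rfl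
      zero_le zero_le)) (mul_le_mul ?_ le_rfl zero_le zero_le)
    · exact le_add_right (le_add_left le_rfl)
    · exact le_add_right (le_add_right (le_add_left le_rfl))

end

end Vale.Agent.P137.Unc
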