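import Vale.Agent.P137.Unc.Cell

/-!
# P137, uncentred operator: the cell bound at every scale, by dilation
-/

open MeasureTheory Metric Set
open scoped ENNReal RealInnerProductSpace Gradient Pointwise

namespace Vale.Agent.P137.Unc

noncomputable section

variable {d : ℕ} {u : E d → ℝ}

/-- The dilated input. -/
def dilate (u : E d → ℝ) (s : ℝ) : E d → ℝ := fun y => u (s • y)

lemma scale_gradient (f : E d → ℝ) (s : ℝ) (y : E d) :
    ∇ (fun z => f (s • z)) y = s • ∇ f (s • y) := by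
  simp only [gradient]
  rw [fderiv_comp_smul, map_smul]

lemma scale_smooth (hu : Smooth u) {s : ℝ} (hs : 0 < s) : Smooth (dilate u s) where
  contDiff := hu.contDiff.comp (contDiff_id.const_smul s)
  nonneg := fun x => hu.nonneg _
  integrable := hu.integrable.comp_smul hs.ne'
  integrable_grad := by
    have : (fun x => ∇ (dilate u s) x) = fun x => s • ∇ u (s • x) :=
      funext fun x => scale_gradient u s x
    rw [this]
    exact (hu.integrable_grad.comp_smul hs.ne').smul s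

lemma scale_smul_ball {s : ℝ} (hs : 0 < s) (z : E d) (r : ℝ) :
    s • ball z r = ball (s • z) (s * r) := by
  rw [_root_.smul_ball hs.ne', Real.norm_eq_abs, abs_of_pos hs]

lemma scale_ballAvg (u : E d → ℝ) {s : ℝ} (hs : 0 < s) (z : E d) {r : ℝ} (hr : 0 < r) :
    ballAvg (dilate u s) z r = ballAvg u (s • z) (s * r) := by
  rw [ballAvg, ballAvg, show (∫ y in ball z r, dilate u s y) = ∫ y in ball z r, u (s • y) from rfl,
    Measure.setIntegral_comp_smul_of_pos volume u _ hs, scale_smul_ball hs,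
    finrank_euclideanSpace_fin, smul_eq_mul, volume_real_ball z hr,
    volume_real_ball (s • z) (mul_pos hs hr), mul_pow]
  field_simp

lemma scale_umax (u : E d → ℝ) {s : ℝ} (hs : 0 < s) (y : E d) :
    umax (dilate u s) y = umax u (s • y) := by
  unfold umax
  congr 1
  ext a
  constructor
  · rintro ⟨z, r, hr, hy, rfl⟩
    refine ⟨s • z, s * r, mul_pos hs hr, ?_, scale_ballAvg u hs z hr⟩
    rw [← scale_smul_ball hs]
    exact smul_mem_smul_set hy
  · rintro ⟨z, r, hr, hy, rfl⟩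
    refine ⟨s⁻¹ • z, r / s, div_pos hr hs, ?_, ?_⟩
    · rw [← smul_mem_smul_set_iff₀ hs.ne', scale_smul_ball hs, smul_inv_smul₀ hs.ne',
        mul_div_cancel₀ r hs.ne']
      exact hy
    · rw [scale_ballAvg u hs _ (div_pos hr hs), smul_inv_smul₀ hs.ne', mul_div_cancel₀ r hs.ne']

lemma scale_isOpt {s : ℝ} (hs : 0 < s) {x z : E d} {r : ℝ} (h : IsOpt u x z r) :
    IsOpt (dilate u s) (s⁻¹ • x) (s⁻¹ • z) (r / s) := by
  refine ⟨div_pos h.1 hs, ?_, ?_⟩
  · rw [← smul_sub, norm_smul, Real.norm_eq_abs, abs_of_pos (inv_pos.2 hs), inv_mul_eq_div]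
    exact div_le_div_of_nonneg_right h.2.1 hs.le
  · rw [scale_ballAvg u hs _ (div_pos h.1 hs), smul_inv_smul₀ hs.ne', mul_div_cancel₀ r hs.ne',
      scale_umax u hs, smul_inv_smul₀ hs.ne', h.2.2]

lemma scale_smul_window {s : ℝ} (hs : 0 < s) (a : E d) (L : ℝ) :
    s • window a L = window (s • a) (L * s) := by
  ext y
  rw [mem_smul_set_iff_inv_smul_mem₀ hs.ne']
  simp only [window, mem_ofPred_eq, PiLp.smul_apply, smul_eq_mul, inv_mul_eq_div]
  refine forall_congr' fun i => ?_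
  rw [le_div_iff₀ hs, div_lt_iff₀ hs]
  constructor <;> rintro ⟨h1, h2⟩ <;> constructor <;> linarith

lemma scale_smul_cube {s : ℝ} (hs : 0 < s) (a : E d) (L : ℝ) (m : ℕ) (k : Fin d → Fin (2 ^ m)) :
    s • cube a L m k = cube (s • a) (L * s) m k := by
  ext y
  rw [mem_smul_set_iff_inv_smul_mem₀ hs.ne']
  simp only [cube, side, mem_ofPred_eq, PiLp.smul_apply, smul_eq_mul, inv_mul_eq_div]
  refine forall_congr' fun i => ?_
  rw [le_div_iff₀ hs, div_lt_iff₀ hs, mul_div_right_comm L s]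
  constructor <;> rintro ⟨h1, h2⟩ <;> constructor <;> linarith

lemma scale_setIntegral_grad (u : E d → ℝ) {s : ℝ} (hs : 0 < s) (S : Set (E d)) :
    ∫ y in S, ∇ (dilate u s) y = (s / s ^ d) • ∫ y in s • S, ∇ u y := by
  have h1 : ∀ y, ∇ (dilate u s) y = s • (fun x => ∇ u x) (s • y) := fun y => scale_gradient u s y
  simp only [h1]
  rw [integral_smul, Measure.setIntegral_comp_smul_of_pos volume (fun x => ∇ u x) _ hs,
    finrank_euclideanSpace_fin, smul_smul, div_eq_mul_inv]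

lemma scale_phi0 (u : E d → ℝ) {s : ℝ} (hs : 0 < s) (a e : E d) (L : ℝ) :
    phi0 (dilate u s) a L e = (s / s ^ d) * phi0 u (s • a) (L * s) e := by
  rw [phi0, phi0, ← tsum_mul_left]
  refine tsum_congr fun m => ?_
  rw [lvl, lvl, Finset.mul_sum, Finset.mul_sum, Finset.mul_sum]
  refine Finset.sum_congr rfl fun k _ => ?_
  have hc : cint (dilate u s) a L m k = (s / s ^ d) • cint u (s • a) (L * s) m k := by
    rw [cint, cint, scale_setIntegral_grad u hs, scale_smul_cube hs]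
  rw [defect, defect, hc, norm_smul, inner_smul_right, Real.norm_eq_abs,
    abs_of_pos (by positivity : 0 < s / s ^ d)]
  ring

lemma scale_isDir {s : ℝ} (hs : 0 < s) {a e : E d} {L : ℝ}
    (h : IsDir u (s • a) (L * s) e) : IsDir (dilate u s) a L e := by
  refine ⟨h.1, ?_⟩
  rw [scale_setIntegral_grad u hs, scale_smul_window hs, norm_smul, Real.norm_eq_abs,
    abs_of_pos (by positivity : 0 < s / s ^ d), mul_smul, ← h.2]

lemma scale_setLIntegral {s : ℝ} (hs : 0 < s) {F : E d → ℝ≥0∞} (hF : Measurable F) (S : Set (E d))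
    (hS : MeasurableSet S) :
    ∫⁻ y in (fun y => s • y) ⁻¹' S, F (s • y) = ENNReal.ofReal (s ^ d)⁻¹ * ∫⁻ x in S, F x := by
  have hm : Measurable fun y : E d => s • y := measurable_const_smul s
  rw [← setLIntegral_map hS hF hm, Measure.map_addHaar_smul volume hs.ne',
    finrank_euclideanSpace_fin, abs_of_pos (by positivity : 0 < (s ^ d)⁻¹),
    Measure.restrict_smul, lintegral_smul_measure, smul_eq_mul]

/-- The cell bound at scale `s`. -/
theorem scale_cell_bound (d : ℕ) (hd : 2 ≤ d) : ∃ C : ℝ≥0∞, C ≠ ⊤ ∧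
    ∀ (u : E d → ℝ) (a c e : E d) (s : ℝ), Smooth u → 0 < s →
    ball c (Rwin d * s) ⊆ window a (Lwin d * s) → IsDir u a (Lwin d * s) e →
    ∫⁻ x in ball c (Real.sqrt d * s) ∩
        {x | ∃ z r, 2 * (d : ℝ) * s ≤ r ∧ r ≤ 4 * d * s ∧ IsOpt u x z r},
      ‖∇ (umax u) x‖ₑ ≤ C * ENNReal.ofReal (phi0 u a (Lwin d * s) e) := by
  obtain ⟨C, hC, h⟩ := cell_bound d hd
  refine ⟨C, hC, fun u a c e s hu hs hsub hdir => ?_⟩
  have hd1 : 1 ≤ d := by omega
  have hd0 : (0 : ℝ) < d := by exact_mod_cast (by omega : 0 < d)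
  have hsub' : ball (s⁻¹ • c) (Rwin d) ⊆ window (s⁻¹ • a) (Lwin d) := by
    intro y hy
    have : s • y ∈ s • window (s⁻¹ • a) (Lwin d) := by
      rw [scale_smul_window hs, smul_inv_smul₀ hs.ne']
      refine hsub ?_
      have h2 := smul_mem_smul_set (a := s) hy
      rw [scale_smul_ball hs, smul_inv_smul₀ hs.ne', mul_comm s] at h2
      exact h2
    exact (smul_mem_smul_set_iff₀ hs.ne' _ _).1 this
  have hdir' : IsDir (dilate u s) (s⁻¹ • a) (Lwin d) e :=
    scale_isDir hs (by rwa [smul_inv_smul₀ hs.ne'])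
  have hmain := h (dilate u s) (s⁻¹ • a) (s⁻¹ • c) e (scale_smooth hu hs) hsub' hdir'
  rw [scale_phi0 u hs, smul_inv_smul₀ hs.ne', ENNReal.ofReal_mul (by positivity)] at hmain
  set T := ball c (Real.sqrt d * s) ∩
    {x | ∃ z r, 2 * (d : ℝ) * s ≤ r ∧ r ≤ 4 * d * s ∧ IsOpt u x z r} with hT
  have hTm : MeasurableSet T := measurableSet_ball.inter
    (isClosed_optSet hd1 hu (mul_pos (by linarith : (0 : ℝ) < 2 * d) hs)).measurableSet
  have hpre : (fun y => s • y) ⁻¹' T ⊆ ball (s⁻¹ • c) (Real.sqrt d) ∩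
      {x | ∃ z r, 2 * (d : ℝ) ≤ r ∧ r ≤ 4 * d ∧ IsOpt (dilate u s) x z r} := by
    rintro y ⟨hy, z, r, h1, h2, hopt⟩
    refine ⟨?_, s⁻¹ • z, r / s, (le_div_iff₀ hs).2 h1, (div_le_iff₀ hs).2 h2, ?_⟩
    · rw [← smul_mem_smul_set_iff₀ hs.ne', scale_smul_ball hs, smul_inv_smul₀ hs.ne', mul_comm s]
      exact hy
    · simpa [inv_smul_smul₀ hs.ne'] using scale_isOpt hs hopt
  have hG : ∀ y, ‖∇ (umax (dilate u s)) y‖ₑ = ENNReal.ofReal s * ‖∇ (umax u) (s • y)‖ₑ := by
    intro y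
    rw [show umax (dilate u s) = fun z => umax u (s • z) from funext fun z => scale_umax u hs z,
      scale_gradient, enorm_smul, Real.enorm_eq_ofReal hs.le]
  have hle := (lintegral_mono_set hpre).trans hmain
  simp only [hG] at hle
  rw [lintegral_const_mul' _ _ ENNReal.ofReal_ne_top,
    scale_setLIntegral hs (measurable_gradient_fun (umax u)).enorm T hTm, ← mul_assoc,
    ← ENNReal.ofReal_mul hs.le, ← div_eq_mul_inv, mul_left_comm C] at hle
  exact (ENNReal.mul_le_mul_iff_right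
    (by simp only [ne_eq, ENNReal.ofReal_eq_zero, not_le]; positivity) ENNReal.ofReal_ne_top).1 hle

end

end Vale.Agent.P137.Unc
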